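import Crest.Agent.X212.Cmp73.MB
import Crest.Agent.X212.An.Defs

/-!
# X212 / COMP (helper73), part 2: calculus of smooth convergence, Arzelà-Ascoli, Sobolev norms
-/

set_option autoImplicit false
set_option linter.unusedSectionVars false
open Set Filter Topology Function MeasureTheory
open scoped ContDiff Manifold

noncomputable section
namespace Crest.Agent.X212.Cmp73

open Pat85 Sob92

variable {E : Type} [NormedAddCommGroup E] [NormedSpace ℝ E] [FiniteDimensional ℝ E]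
  {HM : Type} [TopologicalSpace HM] {I : ModelWithCorners ℝ E HM}
  {M : Type} [TopologicalSpace M] [ChartedSpace HM M] [I.Boundaryless] [IsManifold I ∞ M]
  {α : Type} {F G H : Type} [NormedAddCommGroup F] [NormedSpace ℝ F]
  [NormedAddCommGroup G] [NormedSpace ℝ G] [NormedAddCommGroup H] [NormedSpace ℝ H]
  {l : Filter α} {Ω : Set M} {f f' : α → M → G} {g g' : M → G}

/-- from neighbourhoods of points to compact sets -/
theorem ev_compact {X : Type*} [TopologicalSpace X] {K : Set X} (hK : IsCompact K)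
    {p : α → X → Prop} (h : ∀ x ∈ K, ∀ᶠ q : α × X in l ×ˢ 𝓝 x, p q.1 q.2) :
    ∀ᶠ i in l, ∀ x ∈ K, p i x := by
  refine hK.induction_on (p := fun S => ∀ᶠ i in l, ∀ x ∈ S, p i x) (by simp)
    (fun s t hst ht => ht.mono fun i hi x hx => hi x (hst hx))
    (fun s t hs ht => (hs.and ht).mono fun i hi x hx => hx.elim (hi.1 x) (hi.2 x)) ?_
  intro x hx
  obtain ⟨pa, hpa, pb, hpb, H⟩ := eventually_prod_iff.1 (h x hx)
  exact ⟨{y | pb y}, mem_nhdsWithin_of_mem_nhds hpb, hpa.mono fun i hi y hy => H hi hy⟩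

namespace MBOn

theorem mono (h : MBOn I l Ω f) {l' : Filter α} (hl : l' ≤ l) {Ω' : Set M} (hΩ : Ω' ⊆ Ω) :
    MBOn I l' Ω' f := fun k x hx => (h k x (hΩ hx)).mono hl

theorem smooth (h : MBOn I l Ω f) {K : Set M} (hK : IsCompact K) (hKΩ : K ⊆ Ω) :
    ∀ᶠ i in l, ∀ x ∈ K, ContMDiffAt I 𝓘(ℝ, G) ∞ (f i) x :=
  ev_compact hK fun x hx => (h 0 x (hKΩ hx)).smooth

/-- reading in a chart -/
theorem chart (h : MBOn I l Ω f) (x₀ : M) :
    CBOn l ((extChartAt I x₀).target ∩ (extChartAt I x₀).symm ⁻¹' Ω)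
      fun i y => f i ((extChartAt I x₀).symm y) := by
  intro k y hy
  have h4 : (extChartAt I x₀).symm y ∈ (chartAt HM x₀).source := by
    simpa using (extChartAt I x₀).map_target hy.1
  have := (MB.chart h4).1 (h k _ hy.2)
  rwa [(extChartAt I x₀).right_inv hy.1] at this

theorem of_chart {x₀ : M} {U : Set E} (hΩ : Ω ⊆ (chartAt HM x₀).source)
    (hU : ∀ x ∈ Ω, extChartAt I x₀ x ∈ U) {φ : α → E → G} (h : CBOn l U φ) :
    MBOn I l Ω fun i x => φ i (extChartAt I x₀ x) := by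
  intro k x hx
  refine (MB.chart (hΩ hx)).2 (CB.congr (h k _ (hU x hx)) ?_)
  refine (tendsto_snd.eventually (ev_target (I := I) (hΩ hx)).eventually_nhds).mono
    fun q hq => hq.mono fun y hy => ?_
  simp only
  rw [(extChartAt I x₀).right_inv hy]

/-- **Arzelà-Ascoli** along an ultrafilter -/
theorem exists_cv [FiniteDimensional ℝ G] {𝒰 : Ultrafilter α} (h : MBOn I (𝒰 : Filter α) Ω f) :
    ∃ g, Cv I (𝒰 : Filter α) Ω f g := by
  have := FiniteDimensional.proper_real G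
  have : ∀ x, ∃ c, x ∈ Ω → Tendsto (fun i => f i x) 𝒰 (𝓝 c) := by
    intro x
    by_cases hx : x ∈ Ω
    · obtain ⟨C, hC⟩ := (h 0 x hx).bdd
      have h1 : ∀ᶠ i in (𝒰 : Filter α), f i x ∈ Metric.closedBall (0 : G) C :=
        (hC.curry.mono fun i hi => hi.self_of_nhds).mono fun i hi => by simpa using hi
      obtain ⟨c, -, hc⟩ := (isCompact_closedBall (0 : G) C).ultrafilter_le_nhds
        (𝒰.map fun i => f i x) (le_principal_iff.2 h1)
      exact ⟨c, fun _ => hc⟩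
    · exact ⟨0, fun h => absurd h hx⟩
  choose g hg using this
  exact ⟨g, h, fun x hx => hg x hx⟩

end MBOn

theorem isOpen_chart_pre (hΩ : IsOpen Ω) (x₀ : M) :
    IsOpen ((extChartAt I x₀).target ∩ (extChartAt I x₀).symm ⁻¹' Ω) :=
  (continuousOn_extChartAt_symm x₀).isOpen_inter_preimage (isOpen_extChartAt_target x₀) hΩ

namespace Cv

theorem mono (h : Cv I l Ω f g) {l' : Filter α} (hl : l' ≤ l) {Ω' : Set M} (hΩ : Ω' ⊆ Ω) :
    Cv I l' Ω' f g := ⟨h.mb.mono hl hΩ, fun x hx => (h.pt x (hΩ hx)).mono_left hl⟩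

theorem of_local (h : ∀ x ∈ Ω, ∃ O, x ∈ O ∧ Cv I l O f g) : Cv I l Ω f g :=
  ⟨fun k x hx => let ⟨_, a, b⟩ := h x hx; b.mb k x a,
    fun x hx => let ⟨_, a, b⟩ := h x hx; b.pt x a⟩

theorem reindex {β : Type} (h : Cv I l Ω f g) {l' : Filter β} {e : β → α} (he : Tendsto e l' l) :
    Cv I l' Ω (fun j => f (e j)) g :=
  ⟨fun k x hx => (h.mb k x hx).reindex he, fun x hx => (h.pt x hx).comp he⟩

theorem tendsto (h : Cv I l Ω f g) {x : M} (hx : x ∈ Ω) :
    Tendsto (fun q : α × M => f q.1 q.2) (l ×ˢ 𝓝 x) (𝓝 (g x)) :=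
  (h.mb 1 x hx).tendsto (h.pt x hx)

theorem congr (h : Cv I l Ω f g)
    (e : ∀ x ∈ Ω, ∀ᶠ q : α × M in l ×ˢ 𝓝 x, f' q.1 q.2 = f q.1 q.2) (e' : ∀ x ∈ Ω, g' x = g x) :
    Cv I l Ω f' g' :=
  ⟨fun k x hx => (h.mb k x hx).congr (e x hx), fun x hx => by
    rw [e' x hx]
    exact (h.pt x hx).congr' (((e x hx).curry.mono fun i hi => hi.self_of_nhds).mono
      fun i hi => hi.symm)⟩

/-- equality on an open set, eventually -/
theorem congr' (h : Cv I l Ω f g) (hΩ : IsOpen Ω) (e : ∀ᶠ i in l, ∀ x ∈ Ω, f' i x = f i x)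
    (e' : ∀ x ∈ Ω, g' x = g x) : Cv I l Ω f' g' :=
  h.congr (fun _ hx => (e.prod_mk (hΩ.mem_nhds hx)).mono fun _ hq => hq.1 _ hq.2) e'

theorem unique [l.NeBot] (h : Cv I l Ω f g) (h' : Cv I l Ω f g') {x : M} (hx : x ∈ Ω) :
    g x = g' x := tendsto_nhds_unique (h.pt x hx) (h'.pt x hx)

theorem lim [FiniteDimensional ℝ G] [l.NeBot] (h : Cv I l Ω f g) (hΩ : IsOpen Ω) {x : M}
    (hx : x ∈ Ω) :
    ContDiffAt ℝ ∞ (fun y => g ((extChartAt I x).symm y)) (extChartAt I x x) ∧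
    Tendsto (fun i => fderiv ℝ (fun y => f i ((extChartAt I x).symm y)) (extChartAt I x x)) l
      (𝓝 (fderiv ℝ (fun y => g ((extChartAt I x).symm y)) (extChartAt I x x))) :=
  cb_lim (isOpen_chart_pre hΩ x) (h.mb.chart x) (fun y hy => h.pt _ hy.2)
    ⟨mem_extChartAt_target x, by simpa only [mem_preimage, extChartAt_to_inv] using hx⟩

/-- the limit is smooth -/
theorem smoothAt [FiniteDimensional ℝ G] [l.NeBot] (h : Cv I l Ω f g) (hΩ : IsOpen Ω) {x : M}
    (hx : x ∈ Ω) : ContMDiffAt I 𝓘(ℝ, G) ∞ g x :=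
  smooth_of_chart (mem_chart_source HM x) (h.lim hΩ hx).1

/-- derivatives along converging vector fields converge -/
theorem dv [FiniteDimensional ℝ G] [l.NeBot] (h : Cv I l Ω f g) (hΩ : IsOpen Ω)
    {X : α → (x : M) → TangentSpace I x} {Y : (x : M) → TangentSpace I x}
    (hX : ∀ k, ∀ x ∈ Ω, MB I l x k fun i => dv I (X i) (extChartAt I x))
    (hY : ∀ x ∈ Ω, Tendsto (fun i => dv I (X i) (extChartAt I x) x) l
      (𝓝 (dv I Y (extChartAt I x) x))) :
    Cv I l Ω (fun i => dv I (X i) (f i)) (dv I Y g) := by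
  refine ⟨fun k x hx => (h.mb (k + 1) x hx).dv (hX k x hx), fun x hx => ?_⟩
  have hs := mem_chart_source HM x
  rw [dv_chart hs ((h.smoothAt hΩ hx).mdifferentiableAt (by simp)) Y]
  have h1 := (isBoundedBilinearMap_apply (𝕜 := ℝ) (E := E) (F := G)).continuous.tendsto
    (fderiv ℝ (fun y => g ((extChartAt I x).symm y)) (extChartAt I x x),
      Sob92.dv I Y (extChartAt I x) x)
  refine (h1.comp ((h.lim hΩ hx).2.prodMk_nhds (hY x hx))).congr' ?_
  filter_upwards [(h.mb 0 x hx).smooth.curry] with i hi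
  exact (dv_chart hs (hi.self_of_nhds.mdifferentiableAt (by simp)) _).symm

/-- derivatives along a fixed smooth vector field -/
theorem dv' [FiniteDimensional ℝ G] [l.NeBot] (h : Cv I l Ω f g) (hΩ : IsOpen Ω)
    {X : (x : M) → TangentSpace I x}
    (hX : ∀ x ∈ Ω, ContMDiffAt I I.tangent ∞ (fun x => (⟨x, X x⟩ : TangentBundle I M)) x) :
    Cv I l Ω (fun i => Sob92.dv I X (f i)) (Sob92.dv I X g) :=
  h.dv hΩ (X := fun _ => X) (fun _ _ hx => MB.vf ((hΩ.eventually_mem hx).mono hX))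
    fun _ _ => tendsto_const_nhds

theorem fixed (hΩ : IsOpen Ω) (h : ∀ x ∈ Ω, ContMDiffAt I 𝓘(ℝ, G) ∞ g x) :
    Cv I l Ω (fun _ => g) g :=
  ⟨fun _ _ hx => MB.fixed ((hΩ.eventually_mem hx).mono h), fun _ _ => tendsto_const_nhds⟩

theorem fixed' (h : ContMDiff I 𝓘(ℝ, G) ∞ g) : Cv I l Ω (fun _ => g) g :=
  ⟨fun _ _ _ => MB.fixed' h, fun _ _ => tendsto_const_nhds⟩

theorem consts {c : α → G} {d : G} (h : Tendsto c l (𝓝 d)) :
    Cv I l Ω (fun i _ => c i) fun _ => d :=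
  ⟨fun _ _ _ => MB.consts ⟨‖d‖ + 1, (h.norm.eventually (gt_mem_nhds (lt_add_one _))).mono
    fun _ hi => hi.le⟩, fun _ _ => h⟩

theorem const (c : G) : Cv I l Ω (fun _ _ => c) fun _ => c := consts tendsto_const_nhds

theorem add (h : Cv I l Ω f g) (h' : Cv I l Ω f' g') :
    Cv I l Ω (fun i x => f i x + f' i x) fun x => g x + g' x :=
  ⟨fun k x hx => (h.mb k x hx).add (h'.mb k x hx), fun x hx => (h.pt x hx).add (h'.pt x hx)⟩

theorem sub (h : Cv I l Ω f g) (h' : Cv I l Ω f' g') :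
    Cv I l Ω (fun i x => f i x - f' i x) fun x => g x - g' x :=
  ⟨fun k x hx => (h.mb k x hx).sub (h'.mb k x hx), fun x hx => (h.pt x hx).sub (h'.pt x hx)⟩

theorem neg (h : Cv I l Ω f g) : Cv I l Ω (fun i x => -f i x) fun x => -g x :=
  ⟨fun k x hx => (h.mb k x hx).neg, fun x hx => (h.pt x hx).neg⟩

theorem clm (T : G →L[ℝ] H) (h : Cv I l Ω f g) :
    Cv I l Ω (fun i x => T (f i x)) fun x => T (g x) :=
  ⟨fun k x hx => (h.mb k x hx).clm T, fun x hx => (T.continuous.tendsto _).comp (h.pt x hx)⟩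

theorem const_smul (c : ℝ) (h : Cv I l Ω f g) :
    Cv I l Ω (fun i x => c • f i x) fun x => c • g x :=
  ⟨fun k x hx => (h.mb k x hx).const_smul c, fun x hx => (h.pt x hx).const_smul c⟩

theorem fsum {β : Type} (s : Finset β) {w : β → α → M → G} {v : β → M → G}
    (h : ∀ a ∈ s, Cv I l Ω (w a) (v a)) :
    Cv I l Ω (fun i x => ∑ a ∈ s, w a i x) fun x => ∑ a ∈ s, v a x :=
  ⟨fun k x hx => MB.fsum s fun a ha => (h a ha).mb k x hx,
    fun x hx => tendsto_finsetSum s fun a ha => (h a ha).pt x hx⟩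

theorem sum {β : Type} [Fintype β] {w : β → α → M → G} {v : β → M → G}
    (h : ∀ a, Cv I l Ω (w a) (v a)) :
    Cv I l Ω (fun i x => ∑ a, w a i x) fun x => ∑ a, v a x := fsum _ fun a _ => h a

theorem prodMk {w : α → M → H} {v : M → H} (h : Cv I l Ω f g) (h' : Cv I l Ω w v) :
    Cv I l Ω (fun i x => (f i x, w i x)) fun x => (g x, v x) :=
  ⟨fun k x hx => (h.mb k x hx).prodMk (h'.mb k x hx),
    fun x hx => (h.pt x hx).prodMk_nhds (h'.pt x hx)⟩

theorem apply {β : Type} [Fintype β] {w : α → M → β → G} {v : M → β → G} (h : Cv I l Ω w v)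
    (a : β) : Cv I l Ω (fun i x => w i x a) fun x => v x a :=
  h.clm (ContinuousLinearMap.proj (R := ℝ) (φ := fun _ => G) a)

theorem pi {β : Type} [Fintype β] {w : α → M → β → G} {v : M → β → G}
    (h : ∀ a, Cv I l Ω (fun i x => w i x a) fun x => v x a) : Cv I l Ω w v :=
  ⟨fun k x hx => MB.pi fun a => (h a).mb k x hx,
    fun x hx => tendsto_pi_nhds.2 fun a => (h a).pt x hx⟩

theorem bil {u : α → M → F} {v : M → F} (B : F →L[ℝ] G →L[ℝ] H) (hu : Cv I l Ω u v)
    (h : Cv I l Ω f g) : Cv I l Ω (fun i x => B (u i x) (f i x)) fun x => B (v x) (g x) :=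
  ⟨fun k x hx => (hu.mb k x hx).bil B (h.mb k x hx), fun x hx =>
    (B.continuous₂.tendsto (v x, g x)).comp ((hu.pt x hx).prodMk_nhds (h.pt x hx))⟩

theorem smul {u : α → M → ℝ} {v : M → ℝ} (hu : Cv I l Ω u v) (h : Cv I l Ω f g) :
    Cv I l Ω (fun i x => u i x • f i x) fun x => v x • g x :=
  hu.bil (ContinuousLinearMap.lsmul ℝ ℝ) h

theorem mul {𝔸 : Type} [NormedRing 𝔸] [NormedAlgebra ℝ 𝔸] {u u' : α → M → 𝔸} {v v' : M → 𝔸}
    (hu : Cv I l Ω u v) (h : Cv I l Ω u' v') :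
    Cv I l Ω (fun i x => u i x * u' i x) fun x => v x * v' x :=
  hu.bil (ContinuousLinearMap.mul ℝ 𝔸) h

theorem app {A : α → M → G →L[ℝ] H} {B : M → G →L[ℝ] H} (hA : Cv I l Ω A B) (h : Cv I l Ω f g) :
    Cv I l Ω (fun i x => A i x (f i x)) fun x => B x (g x) :=
  hA.bil (ContinuousLinearMap.id ℝ (G →L[ℝ] H)) h

theorem clm_comp {A : α → M → G →L[ℝ] H} {B : M → G →L[ℝ] H} {A' : α → M → F →L[ℝ] G}
    {B' : M → F →L[ℝ] G} (hA : Cv I l Ω A B) (h : Cv I l Ω A' B') :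
    Cv I l Ω (fun i x => (A i x).comp (A' i x)) fun x => (B x).comp (B' x) :=
  hA.bil (ContinuousLinearMap.compL ℝ F G H) h

/-- post-composition with a map smooth near the limit values -/
theorem post [FiniteDimensional ℝ G] {Φ : G → H} (h : Cv I l Ω f g)
    (hΦ : ∀ x ∈ Ω, ∀ᶠ v in 𝓝 (g x), ContDiffAt ℝ ∞ Φ v) :
    Cv I l Ω (fun i x => Φ (f i x)) fun x => Φ (g x) :=
  ⟨fun k x hx => (h.mb k x hx).post_at (hΦ x hx) (h.tendsto hx),
    fun x hx => (hΦ x hx).self_of_nhds.continuousAt.tendsto.comp (h.pt x hx)⟩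

theorem post_smooth [FiniteDimensional ℝ G] {Φ : G → H} (hΦ : ContDiff ℝ ∞ Φ)
    (h : Cv I l Ω f g) : Cv I l Ω (fun i x => Φ (f i x)) fun x => Φ (g x) :=
  h.post fun _ _ => Eventually.of_forall fun _ => hΦ.contDiffAt

/-- closed pointwise conditions pass to the limit -/
theorem mem_closed [l.NeBot] (h : Cv I l Ω f g) {x : M} (hx : x ∈ Ω) {C : Set G} (hC : IsClosed C)
    (hf : ∀ᶠ i in l, f i x ∈ C) : g x ∈ C := hC.mem_of_tendsto (h.pt x hx) hf

theorem eq_of [l.NeBot] (h : Cv I l Ω f g) (h' : Cv I l Ω f' g') {x : M} (hx : x ∈ Ω)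
    (e : ∀ᶠ i in l, f i x = f' i x) : g x = g' x :=
  tendsto_nhds_unique_of_eventuallyEq (h.pt x hx) (h'.pt x hx) e

/-- uniform convergence on compact sets -/
theorem unif [FiniteDimensional ℝ G] [l.NeBot] (h : Cv I l Ω f g) (hΩ : IsOpen Ω) {K : Set M}
    (hK : IsCompact K) (hKΩ : K ⊆ Ω) {ε : ℝ} (hε : 0 < ε) :
    ∀ᶠ i in l, ∀ x ∈ K, ‖f i x - g x‖ < ε := by
  refine ev_compact hK (p := fun i x => ‖f i x - g x‖ < ε) fun x hx => ?_
  have h1 := (h.tendsto (hKΩ hx)).sub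
    ((h.smoothAt hΩ (hKΩ hx)).continuousAt.tendsto.comp (tendsto_snd (f := l)))
  have h2 := h1.norm
  rw [sub_self, norm_zero] at h2
  exact h2.eventually (gt_mem_nhds hε)

end Cv

section An
open An
variable [MeasurableSpace E] [BorelSpace E] [MeasurableSpace M] {ι : Type} [Fintype ι]
  {V : Type} [NormedAddCommGroup V] [InnerProductSpace ℝ V] [FiniteDimensional ℝ V]

theorem Cv.D [FiniteDimensional ℝ G] [l.NeBot] (h : Cv I l Ω f g) (hΩ : IsOpen Ω) (P : Pre I M ι)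
    (a : ι) : Cv I l Ω (fun i => P.D a (f i)) (P.D a g) := h.dv' hΩ fun x _ => P.sm a x

theorem Cv.Dw [FiniteDimensional ℝ G] [l.NeBot] (hΩ : IsOpen Ω) (P : Pre I M ι) (w : List ι) :
    ∀ {f : α → M → G} {g : M → G}, Cv I l Ω f g → Cv I l Ω (fun i => P.Dw w (f i)) (P.Dw w g) := by
  induction w with
  | nil => exact fun h => h
  | cons a w ih => exact fun h => ih (h.D hΩ P a)

theorem MB.gainP {x : M} {k : ℕ} (P : Pre I M ι) (h0 : MB I l x 0 f)
    (h : ∀ a, MB I l x k fun i => P.D a (f i)) : MB I l x (k + 1) f := by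
  have hs := mem_chart_source HM x
  refine MB.gain (X := fun a _ => P.e a) (T := fun a => Sob92.dv I (P.e a) (extChartAt I x) x)
    (fun a => MB.vf (Eventually.of_forall (P.sm a))) (fun a => ?_) (fun v => ?_) h0 h
  · exact (dv_smoothAt (P.sm a x) contMDiffAt_extChartAt).continuousAt.tendsto.comp tendsto_snd
  · obtain ⟨R, -, hR⟩ := exists_rinv (I := I) P.sm x fun v => by
      have : v ∈ Submodule.span ℝ (range fun a => P.e a x) := by rw [P.span x]; trivial
      obtain ⟨c, hc⟩ := (Submodule.mem_span_range_iff_exists_fun ℝ).1 this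
      exact ⟨c, hc.symm⟩
    exact ⟨R x v, (comb_apply _ _).symm.trans (hR.self_of_nhds v)⟩

/-- smooth convergence to zero on a compact manifold gives convergence of all Sobolev norms -/
theorem Cv.ip_zero [CompactSpace M] [l.NeBot] (P : Pre I M ι) (k : ℕ) :
    ∀ {f : α → M → V}, Cv I l univ f (fun _ => 0) →
      Tendsto (fun i => P.ip k (f i) (f i)) l (𝓝 0) := by
  have h0 : ∀ {f : α → M → V}, Cv I l univ f (fun _ => 0) →
      Tendsto (fun i => ∫ x, inner ℝ (f i x) (f i x) ∂P.μ) l (𝓝 0) := by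
    intro f h
    have : IsFiniteMeasure P.μ := CompactSpace.isFiniteMeasure
    rw [Metric.tendsto_nhds]
    intro ε hε
    set m := P.μ.real univ with hm
    have hm0 : 0 ≤ m := measureReal_nonneg
    have hδ : 0 < min 1 (ε / (m + 1)) := lt_min one_pos (by positivity)
    filter_upwards [h.unif isOpen_univ isCompact_univ Subset.rfl hδ] with i hi
    rw [dist_zero_right]
    refine (norm_integral_le_of_norm_le_const (C := ε / (m + 1))
      (Eventually.of_forall fun x => ?_)).trans_lt ?_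
    · have := hi x trivial
      rw [sub_zero, lt_min_iff] at this
      rw [real_inner_self_eq_norm_sq, norm_pow, norm_norm]
      nlinarith [norm_nonneg (f i x)]
    · rw [← hm, div_mul_eq_mul_div, div_lt_iff₀ (by positivity)]
      nlinarith
  induction k with
  | zero => exact h0
  | succ k ih =>
    intro f h
    have h1 : ∀ a, Tendsto (fun i => P.ip k (P.D a (f i)) (P.D a (f i))) l (𝓝 0) := fun a =>
      ih ((h.D isOpen_univ P a).congr' isOpen_univ (Eventually.of_forall fun _ _ _ => rfl)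
        fun x _ => by rw [Pre.D_def, dv_const]; rfl)
    have := (h0 h).add (tendsto_finsetSum Finset.univ fun a _ => h1 a)
    simpa only [Pre.ip, Finset.sum_const_zero, add_zero] using this

theorem Cv.nrm [CompactSpace M] [l.NeBot] (P : Pre I M ι) (k : ℕ) {f : α → M → V} {g : M → V}
    (h : Cv I l univ f g) : Tendsto (fun i => P.nrm k (f i - g)) l (𝓝 0) := by
  have h1 : Cv I l univ (fun i => f i - g) fun _ => 0 :=
    (h.sub (Cv.fixed isOpen_univ fun x hx => h.smoothAt isOpen_univ hx)).congr' isOpen_univ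
      (Eventually.of_forall fun _ _ _ => rfl) fun x _ => (sub_self _).symm
  have := (Cv.ip_zero P k h1).sqrt
  rwa [Real.sqrt_zero] at this

end An

end Crest.Agent.X212.Cmp73
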