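import Crest.Agent.X212.An.Gauge

/-!
# X212 / COMP (helper73), part 11: local values of words (one manifold)

A value of a word is computed letter by letter; for the letter `G` any contracting solution of
`u + ∇*∇ u = s` is allowed.
-/

set_option autoImplicit false
set_option linter.unusedSectionVars false
open Set Filter Topology Function MeasureTheory
open scoped ContDiff Manifold InnerProductSpace NNReal

noncomputable section
namespace Crest.Agent.X212.Cmp73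

open An
open Wz78 (lap)
open Wrd81 (wd)

section lists
variable {τ σ : Type*}

/-- values of a word for the step relation `st t s u` -/
def VW (st : τ → σ → σ → Prop) (s₀ : σ) : List τ → σ → Prop
  | [], u => u = s₀
  | t :: l, u => ∃ s, VW st s₀ l s ∧ st t s u

theorem vw_wd {st : τ → σ → σ → Prop} {op : τ → σ → σ} {p : σ → Prop} {ok : τ → Prop} {s₀ : σ}
    (h0 : p s₀) (h : ∀ t s, ok t → p s → p (op t s) ∧ st t s (op t s)) :
    ∀ l : List τ, (∀ t ∈ l, ok t) → p (wd op s₀ l) ∧ VW st s₀ l (wd op s₀ l)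
  | [], _ => ⟨h0, rfl⟩
  | t :: l, hl =>
    have k := vw_wd h0 h l fun a ha => hl a (List.mem_cons_of_mem _ ha)
    have k' := h t _ (hl t List.mem_cons_self) k.1
    ⟨k'.1, _, k.2, k'.2⟩

/-- families of lists of the same shape -/
inductive FL {α β : Type} {τ : α → Type} {τ' : Type} (R : (∀ n, τ n) → (β → τ') → Prop) :
    (∀ n, List (τ n)) → (β → List τ') → Prop
  | nil : FL R (fun _ => []) fun _ => []
  | cons {t t' l l'} : R t t' → FL R l l' → FL R (fun n => t n :: l n) fun b => t' b :: l' b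

theorem FL.map {α β : Type} {τ : α → Type} {τ' : Type} {R : (∀ n, τ n) → (β → τ') → Prop}
    {f : ∀ n, σ → τ n} {f' : β → σ → τ'} :
    ∀ l : List σ, (∀ t ∈ l, R (fun n => f n t) fun b => f' b t) →
      FL R (fun n => l.map (f n)) fun b => l.map (f' b)
  | [], _ => .nil
  | t :: l, h => .cons (h t List.mem_cons_self) (FL.map l fun a ha => h a (List.mem_cons_of_mem _ ha))

/-- the induction principle for values of families of words -/
theorem FL.vw {α β : Type} {τ σ : α → Type} {τ' : Type} {σ' : β → Type}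
    {R : (∀ n, τ n) → (β → τ') → Prop} {st : ∀ n, τ n → σ n → σ n → Prop}
    {op : ∀ b, τ' → σ' b → σ' b} {Q : (∀ n, σ n) → (∀ b, σ' b) → Prop} {s₀ : ∀ n, σ n}
    {s₀' : ∀ b, σ' b} (h0 : Q s₀ s₀')
    (h : ∀ t t' s s' u, R t t' → Q s s' → (∀ n, st n (t n) (s n) (u n)) →
      Q u fun b => op b (t' b) (s' b))
    {l : ∀ n, List (τ n)} {l' : β → List τ'} (hl : FL R l l') {u : ∀ n, σ n}
    (hu : ∀ n, VW (st n) (s₀ n) (l n) (u n)) : Q u fun b => wd (op b) (s₀' b) (l' b) := by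
  induction hl generalizing u with
  | nil => obtain rfl : u = s₀ := funext hu; exact h0
  | cons a _ ih =>
    choose s h1 h2 using hu
    exact h _ _ s _ u a (ih h1) h2

end lists

variable {E : Type} [NormedAddCommGroup E] [NormedSpace ℝ E] [FiniteDimensional ℝ E]
  [MeasurableSpace E] [BorelSpace E]
  {HM : Type} [TopologicalSpace HM] {I : ModelWithCorners ℝ E HM}
  {M : Type} [TopologicalSpace M] [ChartedSpace HM M] [IsManifold I ∞ M] [MeasurableSpace M]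
  {ι lam : Type} [Fintype ι] [Fintype lam] {r n : ℕ}

/-- a contracting solution of the resolvent equation -/
structure Rs {V : Type} [NormedAddCommGroup V] [NormedSpace ℝ V] (F : Fr I M ι)
    (A : ι → M → V →L[ℝ] V) (s u : M → V) : Prop where
  sm : Sm I u
  eq : ∀ x, u x + lap I F.e F.dv A u x = s x
  le : ∀ m, (∀ x, ‖s x‖ ≤ m) → ∀ x, ‖u x‖ ≤ m

variable (c : Cfg M ι lam r) (B : Base M ι lam) (F : Fr I M ι) (K : ℝ≥0) (w : M → ℝ)

def vLt : Lt M → (M → c.m.V) → (M → c.m.V) → Prop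
  | .G, s, u => Rs F c.W s u ∧ ∀ x, c.m.p x (u x) = u x
  | t, s, u => u = c.lt F t s

def vLa : La M → (M → c.m.A) → (M → c.m.A) → Prop
  | .G, s, u => Rs F (c.m.adW c.W) s u ∧ ∀ x, u x ∈ c.m.gS x
  | t, s, u => u = c.la F t s

/-- values of spinor words -/
abbrev vS : SW M → (M → c.m.V) → Prop := VW (vLt c F) c.Φ

/-- `f • F(dg, dh)` -/
def cvS (f g h : M → ℝ) : M → c.m.A := fun x =>
  ∑ s : ι × ι, (f x * F.D s.1 g x * F.D s.2 h x) • c.m.Fg F c.W x s

/-- `u = G u₁`, `u₁ = G s` with a sup bound for `u` and a weighted `L⁴` bound for `u₁` -/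
structure Cv2 (s u₁ u : M → c.m.A) : Prop where
  sm₁ : Sm I u₁
  sm : Sm I u
  m₁ : ∀ x, u₁ x ∈ c.m.gS x
  m : ∀ x, u x ∈ c.m.gS x
  e₁ : ∀ x, u₁ x + lap I F.e F.dv (c.m.adW c.W) u₁ x = s x
  e : ∀ x, u x + lap I F.e F.dv (c.m.adW c.W) u x = u₁ x
  l4 : ∫⁻ x, ‖w x • u₁ x‖ₑ ^ 4 ∂F.μ ≤ K
  bd : ∀ x, ‖u x‖ ≤ K

def vSd : Sd M → (M → c.m.A) → Prop
  | .q u v, s => ∃ a b, vS c F u a ∧ vS c F v b ∧ s = fun x => c.m.q x (a x) (b x)
  | .cv f g h, s => ∃ u₁, Cv2 c F K w (cvS c F f g h) u₁ s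

/-- values of adjoint words -/
def vA (ξ : AW M) (s : M → c.m.A) : Prop := ∃ s₀, vSd c F K w ξ.s s₀ ∧ VW (vLa c F) s₀ ξ.l s

/-- values of sums of adjoint words -/
abbrev vAs : List (AW M) → (M → c.m.A) → Prop :=
  VW (fun ξ s u => ∃ a, vA c F K w ξ a ∧ u = fun x => a x + s x) 0

/-- values of weight two scalars -/
def vG (g : Sg M lam) (z : ℂ) : Prop := ∃ a b, vS c F g.u a ∧ vS c F g.v b ∧
  z = ∫ x, hm c.m.J (c.m.j x (g.s x) (a x)) (b x) ∂F.μ

def vC : Co M lam r → ℂ → Prop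
  | .z i, z => z = c.z i
  | .s g L, z => ∃ a b, vG c F g a ∧ VW (fun g s u => ∃ a, vG c F g a ∧ u = ‖a‖ ^ 2 + s) 0 L b ∧
      z = a / (√(1 + ‖a‖ ^ 2 + b) : ℝ)

/-- values of `d • j s u` -/
def vJ (d : Co M lam r) (s : M → Eu lam) (u : SW M) (a : M → c.m.V) : Prop :=
  ∃ z b, vC c F d z ∧ vS c F u b ∧ a = fun x => cs c.m.J z (c.m.j x (s x) (b x))

/-- values of adjoint words on the seed `qj` -/
def vQ (d : Co M lam r) (s : M → Eu lam) (u v : SW M) (l : List (La M)) (ξ : M → c.m.A) : Prop :=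
  ∃ a b, vJ c F d s u a ∧ vS c F v b ∧ VW (vLa c F) (fun x => c.m.q x (a x) (b x)) l ξ

/-- `(f dg ∧ dh)⁺ ⊗ ξ` -/
def ddS (f g h : M → ℝ) (ξ : M → c.m.A) : M → Fm (ι × ι) c.m.A := fun x =>
  c.m.p2 B x (WithLp.toLp 2 fun s => (f x * F.D s.1 g x * F.D s.2 h x) • ξ x)

/-- values of terms -/
def vT : Tm M lam r n → (M → c.m.V) → (M → Fm (ι × ι) c.m.A) → (Fin n → ℂ) → Prop
  | .lin u, D, C, S => (∃ a, vS c F u a ∧ D = fun x => c.m.pm B x (a x)) ∧ C = 0 ∧ S = 0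
  | .anti d s u, D, C, S => (∃ a, vJ c F d s u a ∧ D = fun x => c.m.pm B x (a x)) ∧ C = 0 ∧ S = 0
  | .ad g h ξ, D, C, S => D = 0 ∧ (∃ a, vA c F K w ξ a ∧ C = ddS c B F 1 g h a) ∧ S = 0
  | .adj d s g h u v l, D, C, S =>
      D = 0 ∧ (∃ a, vQ c F d s u v l a ∧ C = ddS c B F 1 g h a) ∧ S = 0
  | .adn f g h φ L, D, C, S => D = 0 ∧ (∃ a, vAs c F K w L a ∧
      C = ddS c B F f g h fun x => φ (‖a x‖ ^ 2) • a x) ∧ S = 0
  | .cut i z g, D, C, S => D = 0 ∧ C = 0 ∧ ∃ a, vG c F g a ∧ S = Pi.single i (z * a)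
  | .cz i z k, D, C, S => D = 0 ∧ C = 0 ∧ S = Pi.single i (z * c.z k)

end Crest.Agent.X212.Cmp73
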