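import Crest.Agent.X212.Cmp73.Gpf
import Crest.Agent.X212.Cmp73.Val

/-!
# X212 / COMP (helper73), part 12: convergent families of fields, words and terms (definitions)
-/

set_option autoImplicit false
set_option linter.unusedSectionVars false
open Set Filter Topology Function MeasureTheory
open scoped ContDiff Manifold InnerProductSpace NNReal ENNReal

noncomputable section
namespace Crest.Agent.X212.Cmp73

open An
open Wz78 (lap)

variable {E : Type} [NormedAddCommGroup E] [NormedSpace ℝ E] [FiniteDimensional ℝ E]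
  [MeasurableSpace E] [BorelSpace E]
  {HM : Type} [TopologicalSpace HM] {I : ModelWithCorners ℝ E HM}
  {E₀ : Type} [NormedAddCommGroup E₀] [NormedSpace ℝ E₀] [FiniteDimensional ℝ E₀]
  [MeasurableSpace E₀] [BorelSpace E₀]
  {H₀ : Type} [TopologicalSpace H₀] {I₀ : ModelWithCorners ℝ E₀ H₀}
  {M : Type} [TopologicalSpace M] [ChartedSpace H₀ M] [IsManifold I₀ ∞ M] [MeasurableSpace M]
  {ι lam : Type} [Fintype ι] [Fintype lam] {α : Type}
  {X : α → Type} [∀ n, TopologicalSpace (X n)] [∀ n, ChartedSpace HM (X n)]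
  [∀ n, IsManifold I ∞ (X n)] [∀ n, MeasurableSpace (X n)] {r m : ℕ}
  {N : Type} [NormedAddCommGroup N] [NormedSpace ℝ N]

/-- an `L⁴` weight with a small logarithmic gradient -/
structure Wg (F : Fr I₀ M ι) (w : M → ℝ) : Prop where
  sm : Sm I₀ w
  pos : ∀ x, 0 < w x
  gr : ∀ x, 16 * ∑ a, F.D a w x ^ 2 ≤ w x ^ 2
  l4 : ∫⁻ x, ‖w x‖ₑ ^ 4 ∂F.μ < ⊤

/-- LEAF UNQ: uniqueness for the resolvent equation in weighted `L⁴` -/
def Unq (F : Fr I₀ M ι) : Prop := ∀ (κ : Type) [Fintype κ] (A : ι → M → En κ) (w : M → ℝ)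
  (e : M → Eu κ), Mp86.Mc I₀ A → Wg F w → Sm I₀ e → (∀ x, e x + lap I₀ F.e F.dv A e x = 0) →
    ∫⁻ x, ‖w x • e x‖ₑ ^ 4 ∂F.μ < ⊤ → e = 0

namespace Gs
variable (g : Gs I I₀ M ι lam X)

/-- LEAF INT: integrals of bounded functions with compact support -/
def Int : Prop := ∀ S : Set M, g.P ⊆ S → (∀ K, IsCompact K → (S ∩ K).Finite) →
  ∀ (f : ∀ n, X n → ℂ) (f' : M → ℂ) (K : Set M) (C : ℝ), IsCompact K → K ⊆ g.Pᶜ →
    (∀ n, Continuous (f n)) → Continuous f' → Cv I₀ g.l Sᶜ (fun n x => f n (g.ψ n x)) f' →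
    (∀ x ∉ K, f' x = 0) → (∀ᶠ n in (g.l : Filter α), (∀ x, ‖f n x‖ ≤ C) ∧ ∀ x ∉ g.ψ n '' K, f n x = 0) →
    Tendsto (fun n => ∫ x, f n x ∂(g.G n).F.μ) g.l (𝓝 (∫ x, f' x ∂g.G₀.F.μ))

/-- LEAF FAT: Fatou's lemma -/
def Fat : Prop := ∀ S : Set M, g.P ⊆ S → (∀ K, IsCompact K → (S ∩ K).Finite) →
  ∀ (f : ∀ n, X n → ℝ≥0∞) (f₁ : α → M → ℝ) (f' : M → ℝ) (C : ℝ≥0∞), Cv I₀ g.l Sᶜ f₁ f' →
    (∀ x ∉ S, ∀ᶠ q in (g.l : Filter α) ×ˢ 𝓝 x, ENNReal.ofReal (f₁ q.1 q.2) ≤ f q.1 (g.ψ q.1 q.2)) →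
    (∀ᶠ n in (g.l : Filter α), ∫⁻ x, f n x ∂(g.G n).F.μ ≤ C) →
    ∫⁻ x, ENNReal.ofReal (f' x) ∂g.G₀.F.μ ≤ C

/-- uniformly bounded families -/
def UB {V : α → Type} [∀ n, NormedAddCommGroup (V n)] (s : ∀ n, X n → V n) : Prop :=
  ∃ C, ∀ᶠ n in (g.l : Filter α), ∀ x, ‖s n x‖ ≤ C

/-- the weights `w n` dominate a weight on `M` -/
def WR (w : ∀ n, X n → ℝ) : Prop := (∀ n, Measurable (w n)) ∧ ∃ w', Wg g.G₀.F w' ∧
  ∀ x, ∀ᶠ q in nF g.l g.Pᶜ x, w' q.2 ≤ |w q.1 (g.ψ q.1 q.2)|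

variable (c : ∀ n, Cfg (X n) ι lam r)

/-- the conclusions of the core of COMP -/
structure Core : Prop where
  gb : ∀ x, GB (g.fb c (g.F g.Pᶜ x)) g.B g.G
  ex : g.Hyp c → ∃ c' u, g.Lim c c' (g.S c) u
  V : g.Hyp c → ∀ c' u, g.Lim c c' (g.S c) u → ∀ σ s,
    (∀ x, PF (g.fb c (g.F g.Pᶜ x)) (g.bs c) σ (WV c) s) → ∃ s', g.LV c c' (g.S c) u s s'
  A : g.Hyp c → ∀ c' u, g.Lim c c' (g.S c) u → ∀ σ s,
    (∀ x, PF (g.fb c (g.F g.Pᶜ x)) (g.bs c) σ (WA c) s) → ∃ s', g.LA c c' (g.S c) u s s'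

/-- the standing hypotheses of the word layer -/
structure Bk : Prop where
  ok : g.OK
  core : g.Core c
  int : g.Int
  fat : g.Fat
  unq : Unq g.G₀.F
  tame : ∃ C, g.G₀.F.Tame C
  adm : ∀ n, (c n).Adm (g.B n) (g.G n)
  Φ : g.UB fun n => (c n).Φ

/-- limits with bounded curvature -/
structure LB (c' : Cfg M ι lam r) (u : ∀ n, M → CL (c n).m.V c'.m.V) : Prop where
  hyp : g.Hyp c
  lim : g.Lim c c' (g.S c) u
  bf : ∃ C, ∀ x, ‖c'.m.Fg g.G₀.F c'.W x‖ ≤ C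

/-- convergent coefficient fields -/
structure FC (f : ∀ n, X n → N) (f' : M → N) : Prop where
  cb : ∀ x, (g.fb c (g.F g.Pᶜ x)).CB (tv X ι fun _ => N) f
  bd : g.UB f
  sm : Sm I₀ f'
  cv : Cv I₀ g.l g.Pᶜ (fun n x => f n (g.ψ n x)) f'

/-- functions with convergent differentials -/
def FD (f : ∀ n, X n → ℝ) (f' : M → ℝ) : Prop :=
  ∀ a, g.FC c (fun n => (g.G n).F.D a (f n)) (g.G₀.F.D a f')

/-- convergent coefficient fields with compact support -/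
structure FK (f : ∀ n, X n → N) (f' : M → N) : Prop extends g.FC c f f' where
  K : ∃ K, IsCompact K ∧ K ⊆ g.Pᶜ ∧ (∀ x ∉ K, f' x = 0) ∧
    ∀ᶠ n in (g.l : Filter α), ∀ x ∉ g.ψ n '' K, f n x = 0

/-- convergent numbers -/
def QC (z : α → N) (z' : Cfg M ι lam r → N) : Prop :=
  ∀ c' u, g.LB c c' u → Tendsto z g.l (𝓝 (z' c'))

/-- convergent functions -/
structure QS (f : ∀ n, X n → ℝ) (f' : Cfg M ι lam r → M → ℝ) : Prop where
  pf : ∀ x, g.Pf c x (tv X ι fun _ => ℝ) f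
  bd : g.UB f
  lim : ∀ c' u, g.LB c c' u → Sm I₀ (f' c') ∧ Cv I₀ g.l (g.S c)ᶜ (fun n x => f n (g.ψ n x)) (f' c')

/-- convergent spinor fields -/
structure QV (s : ∀ n, X n → (c n).m.V) (s' : ∀ c' : Cfg M ι lam r, M → c'.m.V) : Prop where
  pf : ∀ x, g.Pf c x (WV c) s
  p : ∀ n x, (c n).m.p x (s n x) = s n x
  bd : g.UB s
  lim : ∀ c' u, g.LB c c' u → g.LV c c' (g.S c) u s (s' c')

/-- convergent sections of `g` -/
structure QA (s : ∀ n, X n → (c n).m.A) (s' : ∀ c' : Cfg M ι lam r, M → c'.m.A) : Prop where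
  pf : ∀ x, g.Pf c x (WA c) s
  p : ∀ n x, s n x ∈ (c n).m.gS x
  bd : g.UB s
  lim : ∀ c' u, g.LB c c' u → g.LA c c' (g.S c) u s (s' c')

/-- convergent values of perturbations -/
structure QT (D : ∀ n, X n → (c n).m.V) (C : ∀ n, X n → Fm (ι × ι) (c n).m.A) (S : α → Fin m → ℂ)
    (τ : Pt M ι lam r m) : Prop where
  D : g.QV c D τ.D
  L : ∀ s c' u, g.LB c c' u → g.LA c c' (g.S c) u (fun n x => C n x s) fun x => τ.C c' x s
  C : g.HC c C
  S : ∀ i, g.QC c (fun n => S n i) fun c' => τ.S c' i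

/-! ### convergent syntax; the limit may depend on the limit configuration -/

inductive cL : (∀ n, Lt (X n)) → (Cfg M ι lam r → Lt M) → Prop
  | mul {f f'} : g.QS c f f' → cL (fun n => .mul (f n)) fun b => .mul (f' b)
  | cl {f f'} : g.FD c f f' → cL (fun n => .cl (f n)) fun _ => .cl f'
  | im : cL (fun _ => .im) fun _ => .im
  | G : cL (fun _ => .G) fun _ => .G

abbrev cS : (∀ n, SW (X n)) → (Cfg M ι lam r → SW M) → Prop := FL (g.cL c)

inductive cLa : (∀ n, La (X n)) → (Cfg M ι lam r → La M) → Prop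
  | mul {f f'} : g.QS c f f' → cLa (fun n => .mul (f n)) fun b => .mul (f' b)
  | G : cLa (fun _ => .G) fun _ => .G

inductive cA : (∀ n, AW (X n)) → (Cfg M ι lam r → AW M) → Prop
  | q {u u' v v' l l'} : g.cS c u u' → g.cS c v v' → FL (g.cLa c) l l' →
      cA (fun n => ⟨.q (u n) (v n), l n⟩) fun b => ⟨.q (u' b) (v' b), l' b⟩
  | cv {f f' a a' k k' l l'} : g.FC c f f' → g.FD c a a' → g.FD c k k' → FL (g.cLa c) l l' →
      cA (fun n => ⟨.cv (f n) (a n) (k n), l n⟩) fun b => ⟨.cv f' a' k', l' b⟩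

inductive cG : (∀ n, Sg (X n) lam) → (Cfg M ι lam r → Sg M lam) → Prop
  | mk {s s' u u' v v'} : g.FK c s s' → g.cS c u u' → g.cS c v v' →
      cG (fun n => ⟨s n, u n, v n⟩) fun b => ⟨s', u' b, v' b⟩

inductive cC : (∀ n, Co (X n) lam r) → (Cfg M ι lam r → Co M lam r) → Prop
  | z (i) : cC (fun _ => .z i) fun _ => .z i
  | s {a a' L L'} : g.cG c a a' → FL (g.cG c) L L' → cC (fun n => .s (a n) (L n)) fun b => .s (a' b) (L' b)

inductive cT : (∀ n, Tm (X n) lam r m) → (Cfg M ι lam r → Tm M lam r m) → Prop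
  | lin {u u'} : g.cS c u u' → cT (fun n => .lin (u n)) fun b => .lin (u' b)
  | anti {d d' s s' u u'} : g.cC c d d' → g.FC c s s' → g.cS c u u' →
      cT (fun n => .anti (d n) (s n) (u n)) fun b => .anti (d' b) s' (u' b)
  | ad {a a' k k' ξ ξ'} : g.FD c a a' → g.FD c k k' → g.cA c ξ ξ' →
      cT (fun n => .ad (a n) (k n) (ξ n)) fun b => .ad a' k' (ξ' b)
  | adj {d d' s s' a a' k k' u u' v v' l l'} : g.cC c d d' → g.FC c s s' → g.FD c a a' →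
      g.FD c k k' → g.cS c u u' → g.cS c v v' → FL (g.cLa c) l l' →
      cT (fun n => .adj (d n) (s n) (a n) (k n) (u n) (v n) (l n))
        fun b => .adj (d' b) s' a' k' (u' b) (v' b) (l' b)
  | adn {f f' a a' k k' L L'} (φ) : g.QS c f f' → g.FD c a a' → g.FD c k k' → ContDiff ℝ ∞ φ →
      FL (g.cA c) L L' → cT (fun n => .adn (f n) (a n) (k n) φ (L n)) fun b => .adn (f' b) a' k' φ (L' b)
  | cut (i z) {a a'} : g.cG c a a' → cT (fun n => .cut i z (a n)) fun b => .cut i z (a' b)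
  | cz (i z k) : cT (fun _ => .cz i z k) fun _ => .cz i z k

/-- the perturbation of a term which may depend on the configuration -/
def pT (T : Cfg M ι lam r → Tm M lam r m) : Pt M ι lam r m :=
  ⟨fun b => b.tD g.B₀ g.G₀.F (T b), fun b => b.tC g.B₀ g.G₀.F (T b), fun b => b.tS g.G₀.F (T b)⟩

end Gs

end Crest.Agent.X212.Cmp73
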