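import Crest.Agent.X212.Cmp73.Qw
import Crest.Agent.X212.Shi84.Int
import Crest.Agent.X212.Shi84.Unq
import Crest.Agent.X212.Pat85.Ext
import Crest.Agent.X212.Th31.Ft

/-!
# X212 / COMP (helper73), part 16: the core of COMP from the gauge theorem
-/

set_option autoImplicit false
set_option linter.unusedSectionVars false
open Set Filter Topology Function MeasureTheory
open scoped ContDiff Manifold InnerProductSpace NNReal ENNReal

noncomputable section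
namespace Crest.Agent.X212.Cmp73

open An Eqv71 Pat85
open Wz78 (nab lap dir SA)

theorem norm_le_one {V W : Type} [NormedAddCommGroup V] [InnerProductSpace ℝ V] [NormedAddCommGroup W]
    [InnerProductSpace ℝ W] {u : V →L[ℝ] W} {p : V →L[ℝ] V} (h1 : ∀ v w, ⟪p v, w⟫_ℝ = ⟪v, p w⟫_ℝ)
    (h2 : p * p = p) (h : ∀ v, ⟪u v, u v⟫_ℝ = ⟪v, p v⟫_ℝ) : ‖u‖ ≤ 1 :=
  u.opNorm_le_bound zero_le_one fun v => (abs_le_of_sq_le_sq' (by
    rw [one_mul, ← real_inner_self_eq_norm_sq, h]; exact (Mp86.proj_le h1 h2 v).2.1) (by positivity)).2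

variable {E : Type} [NormedAddCommGroup E] [NormedSpace ℝ E] [FiniteDimensional ℝ E]
  [MeasurableSpace E] [BorelSpace E]
  {HM : Type} [TopologicalSpace HM] {I : ModelWithCorners ℝ E HM} [I.Boundaryless]
  {E₀ : Type} [NormedAddCommGroup E₀] [NormedSpace ℝ E₀] [FiniteDimensional ℝ E₀]
  [MeasurableSpace E₀] [BorelSpace E₀]
  {H₀ : Type} [TopologicalSpace H₀] {I₀ : ModelWithCorners ℝ E₀ H₀} [I₀.Boundaryless]
  {M : Type} [TopologicalSpace M] [ChartedSpace H₀ M] [IsManifold I₀ ∞ M] [MeasurableSpace M]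
  [T2Space M] [BorelSpace M] [SecondCountableTopology M]
  {ι lam : Type} [Fintype ι] [Fintype lam] {α : Type}
  {X : α → Type} [∀ n, TopologicalSpace (X n)] [∀ n, ChartedSpace HM (X n)]
  [∀ n, IsManifold I ∞ (X n)] [∀ n, MeasurableSpace (X n)] [∀ n, T2Space (X n)]
  [∀ n, BorelSpace (X n)] [∀ n, SecondCountableTopology (X n)] {r m : ℕ}
  {N : Type} [NormedAddCommGroup N] [NormedSpace ℝ N]

namespace Gs
variable {g : Gs I I₀ M ι lam X} {c : ∀ n, Cfg (X n) ι lam r}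

variable (g c) in
/-- LEAF GA: bounded jets off `S` give a limit -/
def Ga : Prop := ∀ S : Set M, (∀ n, (c n).Adm (g.B n) (g.G n)) → g.P ⊆ S →
  (∀ K, IsCompact K → (S ∩ K).Finite) → (∀ x s, g.CB c S x (WA c) (gF' g.G c s)) →
  (∀ x, g.CB c S x (WV c) fun n => (c n).Φ) → ∃ c' u, g.Lim c c' S u

variable (hg : g.OK)
include hg

theorem OK.vc : VC I₀ (g.l : Filter α) (fun n => (g.H n).F.e) g.G₀.F.e :=
  ⟨fun a => (hg.e a).mb, fun a => (hg.e a).pt, g.G₀.F.sm, Sob92.span_coef g.G₀.F.toPre⟩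

section tr
variable {c' : Cfg M ι lam r} {S : Set M} {u : ∀ n, M → CL (c n).m.V c'.m.V} (h : g.Lim c c' S u)
include h

theorem Lim.tr {V : α → Type} [∀ n, NormedAddCommGroup (V n)] [∀ n, NormedSpace ℝ (V n)]
    {V' : Type} [NormedAddCommGroup V'] [NormedSpace ℝ V'] [FiniteDimensional ℝ V']
    {T : ∀ n, M → V n →L[ℝ] V'} {A : ∀ n, ι → X n → V n →L[ℝ] V n} {A₁ : α → ι → M → V' →L[ℝ] V'}
    {A' : ι → M → V' →L[ℝ] V'} (sA : ∀ a, Sm I₀ (A' a)) (hA : ∀ a, Cv I₀ g.l Sᶜ (fun n => A₁ n a) (A' a))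
    (hT : ∀ x ∉ S, ∀ᶠ q in (g.l : Filter α) ×ˢ 𝓝 x, (SA I₀ (T q.1) q.2 ∧ ‖T q.1 q.2‖ ≤ 1) ∧
      Itw I₀ (g.H q.1).F.e (fun a y => A q.1 a (g.ψ q.1 y)) (A₁ q.1) (T q.1) q.2)
    {s : ∀ n, X n → V n} (hs : ∀ x, g.CB c S x A s) :
    ∃ s', Sm I₀ s' ∧ Cv I₀ g.l Sᶜ (fun n x => T n x (s n (g.ψ n x))) s' := by
  obtain ⟨c1, c2⟩ := Shi84.closed_S (I₀ := I₀) h.fin
  refine (ext_S hg.vc (by rw [hg.h4]; omega) c1 c2 (fun a => ⟨fun x _ => sA a x, hA a⟩)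
    fun k x => ?_).imp fun _ a => ⟨fun x => a.sm x trivial, a.cv⟩
  have a := ev_iF_of (x := x) hT
  obtain ⟨h1, h2, h3⟩ := Fb.cb_iff.1 (hs x)
  refine DB.map ob_iF ⟨a.mono fun _ hq => hq.1.1, 1, a.mono fun _ hq => hq.1.2⟩
    (a.mono fun q hq i => by rw [← add_sub_assoc, hq.2 i, sub_self])
    (DB.of_rel ob_iF (fun n => (Wz78.frm (g.G n).F).se) h1
      ((ev_iF_of fun y hy => hg.src y (h.sub hy)).mono fun q hq =>
        ⟨((hg.rel _).ld _ hq).contMDiffAt, fun i => (hg.rel _).e i _ hq⟩) h2 fun v _ => h3 v)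

variable (ha : ∀ n, (c n).Adm (g.B n) (g.G n))
include ha

theorem Lim.trV {s : ∀ n, X n → (c n).m.V} (hs : ∀ x, g.CB c S x (WV c) s) : ∃ s', g.LV c c' S u s s' :=
  (h.tr hg (fun a => h.adm.conn.cc.sm a) h.cW (fun _ hx => (h.nr hg ha hx).mono fun q hq =>
    ⟨⟨hq.su, norm_le_one ((ha _).ok.psym _) ((ha _).ok.pidem _) fun _ => hq.me.inner ..⟩, hq.itw⟩)
    hs).imp fun _ a => ⟨a.1, a.2⟩

omit hg h in
theorem Nr.cj_le {n : α} {y : M} (hq : g.Nr c c' u n y) : ‖cj (u n y)‖ ≤ 1 :=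
  norm_le_one (p := cj ((c n).m.p (g.ψ n y)))
    (fun v w => by rw [inner_cj, trn_of_sym ((ha n).ok.psym _)])
    (ContinuousLinearMap.ext fun v => by
      rw [mul_apply_eq_comp, cj_cj]; exact congrArg (cj · v) ((ha n).ok.pidem _))
    fun v => by rw [inner_cj, cj_cj, hq.me.uu]

theorem Lim.trA {s : ∀ n, X n → (c n).m.A} (hs : ∀ x, g.CB c S x (WA c) s) : ∃ s', g.LA c c' S u s s' := by
  have k1 : ∀ a, Cv I₀ g.l Sᶜ (fun n x => adT (g.tW c c' u n a x)) (c'.m.adW c'.W a) := fun a =>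
    ((h.cW a).clm adT).congr (fun _ _ => .of_forall fun _ => rfl)
      fun x _ => (adT_skw (h.adm.conn.sk a x)).symm
  obtain ⟨s', h1, h2⟩ := h.tr hg (V := fun n => (c n).m.A) (V' := c'.m.A) (T := fun n x => cj (u n x))
    (A := WA c) (A₁ := fun n a x => adT (g.tW c c' u n a x)) (A' := c'.m.adW c'.W)
    (fun a => (con_adW h.adm.conn).sm a) k1
    (fun _ hx => (h.nr hg ha hx).mono fun q hq => ⟨⟨sa_cj hq.su, hq.cj_le ha⟩,
      itw_cj hq.itw hq.su fun a => (ha _).conn.sk a _⟩) hs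
  exact ⟨s', h1, h2⟩

end tr

theorem OK.gx (ha : ∀ n, (c n).Adm (g.B n) (g.G n)) {U : Set M} (hU : U ⊆ g.Pᶜ) (x : M) :
    Gx g.B g.G c (g.F U x) :=
  ⟨hg.B, hg.G, fun n => (ha n).ok, fun n => (ha n).conn, fun n => (ha n).sm, fun n => (ha n).pos,
    Shi84.gb hg hU⟩

namespace Hyp
variable (h : g.Hyp c)
include h

theorem cons (x : M) {p : Sy ι X → Prop} (hp : Ev (g.fb c (g.F g.Pᶜ x)) (g.bs c) p) :
    ∃ L₁ L₂, Cons (g.fb c (g.F g.Pᶜ x)) L₂ ∧ Kat (g.fb c (g.F g.Pᶜ x)) L₂ ∧ p L₁ ∧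
      Th31.Sb (g.fb c (g.F g.Pᶜ x)) L₁ L₂ :=
  let ⟨_, h1, h2, h3⟩ := h.C x
  Th31.cons_th (hg.gx h.adm subset_rfl x) (h.Φ x) (h.D x) h1 h2 h3 hp

theorem fin (K : Set M) (hK : IsCompact K) : (g.S c ∩ K).Finite :=
  Shi84.an_fin' hg (fun x => let ⟨_, L, a, b, _⟩ := h.cons hg x (p := fun _ => True) (.of fun _ _ => trivial)
    ⟨L, a, b⟩) h.en K hK

/-- controlled sections have bounded jets off the exceptional set -/
theorem cb {V : α → Type} [∀ n, NormedAddCommGroup (V n)] [∀ n, NormedSpace ℝ (V n)]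
    {A : ∀ n, ι → X n → V n →L[ℝ] V n} {s : ∀ n, X n → V n} {σ : ℕ → ℕ → ℕ × ℕ} {x : M}
    (hs : PF (g.fb c (g.F g.Pᶜ x)) (g.bs c) σ A s) : g.CB c (g.S c) x A s :=
  let ⟨_, _, h1, h2, h3, h4⟩ := h.cons hg x hs.ev
  Wt.cb ((h4.w (h3 3 le_rfl (by omega))).up (C' := (g.fb c (g.F (g.S c)ᶜ x)).cx _ 3) rfl
    (map_mono (nF_mono sub_S)) fun _ _ _ => le_rfl) (Shi84.an_jb hg h1 h2 (h.en x))

theorem cbF (x : M) (s : ι × ι) : g.CB c (g.S c) x (WA c) (gF' g.G c s) :=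
  h.cb hg (σ := fun _ => sU 4) (pf_iff.2 (.of fun _ hL _ _ _ => (hg.gx h.adm subset_rfl x).wt_F hL s))

theorem cbΦ (x : M) : g.CB c (g.S c) x (WV c) fun n => (c n).Φ :=
  h.cb hg (σ := sW) (pf_iff.2 (.of fun _ hL _ _ _ => (hg.gx h.adm subset_rfl x).wt_Φ hL (h.Φ x)))

end Hyp

/-- **the core of COMP** -/
theorem OK.core (ga : g.Ga c) : g.Core c :=
  ⟨fun _ => Shi84.gb hg subset_rfl,
    fun h => ga _ h.adm subset_union_left (h.fin hg) (h.cbF hg) (h.cbΦ hg),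
    fun h _ _ l _ _ hs => l.trV hg h.adm fun x => h.cb hg (hs x),
    fun h _ _ l _ _ hs => l.trA hg h.adm fun x => h.cb hg (hs x)⟩

theorem OK.bk (ga : g.Ga c) (ht : ∃ C, g.G₀.F.Tame C) (ha : ∀ n, (c n).Adm (g.B n) (g.G n))
    (hΦ : g.UB fun n => (c n).Φ) : g.Bk c :=
  ⟨hg, hg.core ga, Shi84.int hg, Shi84.fat hg, Shi84.unq ht.choose_spec, ht, ha, hΦ⟩

/-! ### coefficients -/

/-- fields which come from a family converging on all of `M` -/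
theorem OK.fc {f : ∀ n, X n → N} {f₁ : α → M → N} {f' : M → N} (sm : ∀ n, Sm I (f n)) (bd : g.UB f)
    (sm' : Sm I₀ f') (e : ∀ n, ∀ y ∈ (g.ψ n).source, f n (g.ψ n y) = f₁ n y)
    (cv : Cv I₀ g.l univ f₁ f') : g.FC c f f' :=
  ⟨fun x => Shi84.cs_of_mb hg subset_rfl sm e fun k => cv.mb k x trivial, bd, sm',
    (cv.mono le_rfl (subset_univ _)).congr (fun y hy => (hg.src y hy).mono fun _ hq => e _ _ hq)
      fun _ _ => rfl⟩

/-- functions which are a fixed smooth function over the sources -/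
theorem OK.fd {f : ∀ n, X n → ℝ} {f' : M → ℝ} (sm : ∀ n, Sm I (f n)) (sm' : Sm I₀ f')
    (bd : ∀ a, g.UB fun n => (g.G n).F.D a (f n))
    (e : ∀ n, ∀ y ∈ (g.ψ n).source, f n (g.ψ n y) = f' y) : g.FD c f f' := fun a =>
  hg.fc (fun n => (g.G n).F.sm_D (sm n) a) (bd a) (g.G₀.F.sm_D sm' a) (fun n _ hy =>
    ((hg.rel n).D hy a (((g.ψ n).open_source.eventually_mem hy).mono fun z hz => (e n z hz).symm)).symm)
    (hg.cv_D isOpen_univ (Cv.fixed' sm') a)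

end Gs

end Crest.Agent.X212.Cmp73
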