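import Crest.Agent.X212.Cmp73.Top
import Crest.Agent.X212.Pat85.Fj

/-!
# X212 / COMP (helper73), part 20: local energy, the splitting into core and necks
-/

set_option autoImplicit false
set_option linter.unusedSectionVars false
open Set Filter Topology Function MeasureTheory
open scoped ContDiff Manifold InnerProductSpace NNReal ENNReal

noncomputable section
namespace Crest.Agent.X212.Cmp73

open An An.Job M Nd18 Abel74 Eqv71 Cyl58
open Fin37 (core cE Pm)

theorem int_split {M K : Type} [MeasurableSpace M] [Fintype K] {μ : Measure M} {f : M → ℝ}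
    {T : K → Set M} {O : Set M} (hf : Integrable f μ) (hO : MeasurableSet O)
    (hT : ∀ i, MeasurableSet (T i)) (d : Pairwise (Disjoint on T)) :
    ∫ x in O, f x ∂μ = ∫ x in O ∩ (⋃ i, T i)ᶜ, f x ∂μ + ∑ i, ∫ x in O ∩ T i, f x ∂μ := by
  rw [← integral_inter_add_diff (MeasurableSet.iUnion hT) hf.integrableOn, add_comm, inter_iUnion,
    integral_iUnion_fintype (fun i => hO.inter (hT i))
      (fun i j e => (d e).mono inter_subset_right inter_subset_right) fun _ => hf.integrableOn]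
  rfl

/-- limits in two steps -/
theorem eq_of_ev {α : Type} {l : Filter α} [l.NeBot] {f : α → ℝ → ℝ} {g : ℝ → ℝ} {a b : ℝ}
    (h1 : ∀ ε > 0, ∀ᶠ R in atTop, ∀ᶠ i in l, |a - f i R| ≤ ε)
    (h2 : ∀ᶠ R in atTop, Tendsto (fun i => f i R) l (𝓝 (g R))) (h3 : Tendsto g atTop (𝓝 b)) : a = b :=
  eq_of_forall_dist_le fun ε hε => le_of_tendsto (tendsto_const_nhds.dist h3)
    (((h1 ε hε).and h2).mono fun _ h => le_of_tendsto (tendsto_const_nhds.dist h.2) h.1)

theorem tend_of_ev {α : Type} {l : Filter α} {f : α → ℝ → ℝ} {g : ℝ → ℝ} {a : α → ℝ} {b : ℝ}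
    (h1 : ∀ ε > 0, ∀ᶠ R in atTop, ∀ᶠ i in l, |a i - f i R| ≤ ε)
    (h2 : ∀ᶠ R in atTop, Tendsto (fun i => f i R) l (𝓝 (g R))) (h3 : Tendsto g atTop (𝓝 b)) :
    Tendsto a l (𝓝 b) := Metric.tendsto_nhds.2 fun ε hε => by
  have e : 0 < ε / 3 := by positivity
  obtain ⟨R, k1, k2, k3⟩ := ((h1 _ e).and (h2.and (Metric.tendsto_nhds.1 h3 _ e))).exists
  filter_upwards [k1, Metric.tendsto_nhds.1 k2 _ e] with i a1 a2
  linarith [dist_triangle4 (a i) (f i R) (g R) b, Real.dist_eq (a i) (f i R)]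

section gen
variable {E : Type} [NormedAddCommGroup E] [NormedSpace ℝ E] [FiniteDimensional ℝ E]
  [MeasurableSpace E] [BorelSpace E]
  {HM : Type} [TopologicalSpace HM] {I : ModelWithCorners ℝ E HM} [I.Boundaryless]
  {E' : Type} [NormedAddCommGroup E'] [NormedSpace ℝ E'] [FiniteDimensional ℝ E']
  [MeasurableSpace E'] [BorelSpace E']
  {H' : Type} [TopologicalSpace H'] {I' : ModelWithCorners ℝ E' H'} [I'.Boundaryless]
  {E₀ : Type} [NormedAddCommGroup E₀] [NormedSpace ℝ E₀] [FiniteDimensional ℝ E₀]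
  [MeasurableSpace E₀] [BorelSpace E₀]
  {H₀ : Type} [TopologicalSpace H₀] {I₀ : ModelWithCorners ℝ E₀ H₀} [I₀.Boundaryless]
  {M : Type} [TopologicalSpace M] [ChartedSpace H₀ M] [IsManifold I₀ ∞ M] [MeasurableSpace M]
  [T2Space M] [BorelSpace M] [SecondCountableTopology M]
  {ι lam : Type} [Fintype ι] [Fintype lam] {α : Type}
  {X : α → Type} [∀ n, TopologicalSpace (X n)] [∀ n, ChartedSpace HM (X n)]
  [∀ n, IsManifold I ∞ (X n)] [∀ n, MeasurableSpace (X n)] [∀ n, T2Space (X n)]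
  [∀ n, BorelSpace (X n)] [∀ n, SecondCountableTopology (X n)]
  {Z : α → Type} [∀ n, TopologicalSpace (Z n)] [∀ n, ChartedSpace H' (Z n)]
  [∀ n, IsManifold I' ∞ (Z n)] [∀ n, MeasurableSpace (Z n)] [∀ n, T2Space (Z n)]
  [∀ n, BorelSpace (Z n)] [∀ n, SecondCountableTopology (Z n)] {r : ℕ} {g : Gs I I₀ M ι lam X}

theorem Gs.WR.en {c : ∀ n, Cfg (X n) ι lam r} {w : ∀ n, X n → ℝ} (hw : g.WR w) {C : ℝ}
    (h : ∀ n, ∫⁻ x, ENNReal.ofReal ((w n x * ‖g.Fg c n x‖) ^ 2) ∂(g.G n).F.μ ≤ ENNReal.ofReal C)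
    (x : M) : (g.fb c (g.F g.Pᶜ x)).En := by
  obtain ⟨m, w', hw', k⟩ := hw
  have d0 : 0 < w' x / 2 := half_pos (hw'.pos x)
  refine ⟨(ENNReal.ofReal ((w' x / 2)⁻¹ ^ 2) * ENNReal.ofReal C).toNNReal,
    {p | w' x / 2 ≤ |w p.1 p.2|}, ((k x).and (nF_le (tendsto_snd.eventually
      (hw'.sm.continuous.continuousAt.eventually (le_mem_nhds (half_lt_self (hw'.pos x))))))).mono
        fun q hq => hq.2.trans hq.1, fun n => ?_⟩
  rw [ENNReal.coe_toNNReal (by finiteness)]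
  refine (setLIntegral_mono' (measurableSet_le measurable_const (m n).abs) fun y hy => ?_).trans
    ((setLIntegral_le_lintegral _ _).trans ((lintegral_const_mul' _ _ ENNReal.ofReal_ne_top).trans_le
      (mul_le_mul_right (h n) _)))
  rw [← ENNReal.ofReal_mul (sq_nonneg _), ← mul_pow, ← mul_assoc, mul_pow]
  refine ENNReal.ofReal_le_ofReal (le_mul_of_one_le_left (sq_nonneg _) ?_)
  rw [← sq_abs, abs_mul, abs_of_pos (inv_pos.2 d0)]
  exact one_le_pow₀ ((one_le_inv_mul₀ d0).2 hy)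

theorem lint_le {M : Type} [TopologicalSpace M] [ChartedSpace HM M] [IsManifold I ∞ M]
    [MeasurableSpace M] {y : Cfg M ι lam r} {F : Fr I M ι} {w : M → M → ℝ} {C : ℝ} (h : y.Le F w C)
    (x : M) : ∫⁻ z, ENNReal.ofReal ((w x z * ‖y.m.Fg F y.W z‖) ^ 2) ∂F.μ ≤ ENNReal.ofReal (C ^ 2) :=
  (ofReal_integral_eq_lintegral_ofReal (h.int x) (.of_forall fun _ => sq_nonneg _)).symm.trans_le
    (ENNReal.ofReal_le_ofReal (h.F x))

theorem Up.OK.en {h : Up I' Z g r} (k : h.OK) {w : ∀ n, Z n → Z n → ℝ} {x : ∀ n, Z n} {C : ℝ}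
    (hw : g.WR fun n => w n (x n) ∘ h.φ n) (m : ∀ n, Continuous (h.φ n))
    (le : ∀ n, (h.y n).Le (h.G n).F (w n) C) : ∀ z, (g.fb h.x (g.F g.Pᶜ z)).En :=
  hw.en fun n => by
    refine le_trans ?_ ((setLIntegral_le_lintegral (h.O n) _).trans (lint_le (le n) (x n)))
    have a := ((le n).int (x n)).aemeasurable.ennreal_ofReal.restrict (s := h.O n)
    rw [← (k.pb n).kg.μ, Measure.restrict_univ] at a ⊢
    refine ((lintegral_congr fun z => ?_).trans (lintegral_map' a (m n).aemeasurable).symm).le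
    rw [(k.pb n).nF]; rfl

end gen

theorem preconn {E3 : Type} [NormedAddCommGroup E3] [NormedSpace ℝ E3] [FiniteDimensional ℝ E3]
    [MeasurableSpace E3] [BorelSpace E3]
    {H3 : Type} [TopologicalSpace H3] {I3 : ModelWithCorners ℝ E3 H3} [I3.Boundaryless]
    {Y : Type} [TopologicalSpace Y] [ChartedSpace H3 Y] [IsManifold I3 ∞ Y] [MeasurableSpace Y]
    [T2Space Y] [BorelSpace Y] [SecondCountableTopology Y] [CompactSpace Y] [ConnectedSpace Y] {κ lam : Type} [Fintype κ] [Fintype lam] {D : YD I3 Y κ lam}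
    {E : Type} [NormedAddCommGroup E] [NormedSpace ℝ E] [FiniteDimensional ℝ E]
    [MeasurableSpace E] [BorelSpace E] {HM : Type} [TopologicalSpace HM] {I : ModelWithCorners ℝ E HM}
    {M : Type} [TopologicalSpace M] [ChartedSpace HM M] [IsManifold I ∞ M] [MeasurableSpace M]
    {B : Base M (Option κ) lam} {G : Geo I M (Option κ) lam} (K : Nk D B G) :
    IsPreconnected K.ψ.target := by
  rw [← K.ψ.image_source_eq_target]
  refine IsPreconnected.image ?_ _ K.ψ.continuousOn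
  rw [K.src]
  exact isPreconnected_univ.prod (OrdConnected.isPreconnected ⟨fun _ h _ h' _ k =>
    ⟨fun a ha => (h.1 a ha).trans_le k.1, fun a ha => k.2.trans_lt (h'.2 a ha)⟩⟩)

variable {Wi : Type} {X : Mf 4} {A κ lam : Type} [Fintype A] [Fintype κ] [Fintype lam]
  [DecidableEq lam] {M : Mark X A κ} {W : World M} {N : ML M lam}
  {Λ : Lns W N} {A' h : Type} [Fintype A'] [DecidableEq A'] [Fintype h] {r n : ℕ}
  {J : Job Wi Λ A' h r n} {c : M.Cl} {s : A' → ℝ} {R : ℝ}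

variable (J c s R) in
/-- the deep part of a neck -/
def Tn (i : A × Option Bool) : Set (W.Z c).M :=
  {z | ∃ ha : J.Ac c s i, z ∈ Nka63.O (J.K c i.1 i.2 _ ha) R}

theorem Tn_pos {i} (ha : J.Ac c s i) : Tn J c s R i = Nka63.O (J.K c i.1 i.2 _ ha) R :=
  Set.ext fun _ => ⟨fun k => k.2, fun k => ⟨ha, k⟩⟩

theorem Tn_neg {i} (ha : ¬J.Ac c s i) : Tn J c s R i = ∅ := eq_empty_of_forall_notMem fun _ k => ha k.1

theorem isOpen_Tn (i) : IsOpen (Tn J c s R i) := by
  by_cases ha : J.Ac c s i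
  · rw [Tn_pos ha]; exact Nka63.isOpen_O _
  · rw [Tn_neg ha]; exact isOpen_empty

theorem core_eq : core J c s R = (⋃ i, Tn J c s R i)ᶜ := Set.ext fun _ =>
  ⟨fun k e => let ⟨i, ha, e⟩ := mem_iUnion.1 e; k ⟨i, ha⟩ e, fun k i e => k (mem_iUnion.2 ⟨i.1, i.2, e⟩)⟩

theorem isClosed_core : IsClosed (core J c s R) :=
  core_eq (J := J) ▸ (isOpen_iUnion isOpen_Tn).isClosed_compl

theorem core_mono : Monotone (core J c s) := fun _ _ e _ k i e' => k i (Nka63.O_mono _ e e')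

variable (hJ : J.OK)
include hJ

theorem Tn_none {a : A} (hR : nl ((J.Θ s).2 a) ≤ 2 * R) : Tn J c s R (a, none) = ∅ :=
  eq_empty_of_forall_notMem fun z ⟨ha, k⟩ => by
    have k := Nka63.mem_Dq.1 k
    linarith [k.1 0 (hJ.nk _ _ _ _ ha).lo, k.2 _ (hJ.nk _ _ _ _ ha).hi]

theorem iUnion_core : ⋃ R, core J c s R = univ := eq_univ_of_forall fun z => by
  obtain ⟨R, hR⟩ := (finite_range fun i : Fin37.Ix J c s => |(Fin37.nk J i).tm z|).bddAbove
  refine mem_iUnion.2 ⟨R, fun i k => ?_⟩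
  have k := Nka63.mem_Dq.1 k
  have e := abs_le.1 (hR (mem_range_self i))
  have h1 := (hJ.nk _ _ _ _ i.2).lo
  have h2 := (hJ.nk _ _ _ _ i.2).hi
  by_cases e' : i.1.2 = some true
  · linarith [k.2 0 (h2.trans (by rw [e']; rfl))]
  · rw [if_neg e'] at h1
    linarith [k.1 0 h1]

theorem tend_core {f : (W.Z c).M → ℝ} (hf : Integrable f (J.G c s).F.μ) {O : Set (W.Z c).M}
    (hO : MeasurableSet O) : Tendsto (fun R => ∫ x in O ∩ core J c s R, f x ∂(J.G c s).F.μ) atTop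
      (𝓝 (∫ x in O, f x ∂(J.G c s).F.μ)) := by
  have := tendsto_setIntegral_of_monotone (s := fun R => O ∩ core J c s R)
    (fun _ => hO.inter isClosed_core.measurableSet)
    (fun _ _ e => inter_subset_inter_right _ (core_mono e)) hf.integrableOn
  rwa [← inter_iUnion, iUnion_core hJ, inter_univ] at this

theorem split (h : Pm J c s) (hR : 0 ≤ R) {f : (W.Z c).M → ℝ} (hf : Integrable f (J.G c s).F.μ)
    {O : Set (W.Z c).M} (hO : MeasurableSet O) : ∫ x in O, f x ∂(J.G c s).F.μ =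
      ∫ x in O ∩ core J c s R, f x ∂(J.G c s).F.μ +
        ∑ a, ∑ e, ∫ x in O ∩ Tn J c s R (a, e), f x ∂(J.G c s).F.μ := by
  rw [core_eq, ← Fintype.sum_prod_type' fun a e => ∫ x in O ∩ Tn J c s R (a, e), f x ∂(J.G c s).F.μ]
  exact int_split hf hO (fun i => (isOpen_Tn i).measurableSet) fun i j e =>
    disjoint_left.2 fun z ⟨ha, k⟩ ⟨hb, k'⟩ => disjoint_left.1 (Pat85.dj hJ c s h (i := ⟨i, ha⟩)
      (j := ⟨j, hb⟩) fun e' => e (congrArg Subtype.val e')) (Nka63.O_sub _ hR k) (Nka63.O_sub _ hR k')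

theorem int_of {f : (W.Z c).M → ℝ} (hf : Continuous f) (h : Pm J c s)
    (k : ∀ i, IntegrableOn f (Tn J c s R i) (J.G c s).F.μ) : Integrable f (J.G c s).F.μ := by
  have := (J.G c s).F.fin
  rw [← integrableOn_univ, ← union_compl_self (⋃ i, Tn J c s R i), ← core_eq]
  exact (integrableOn_finite_iUnion.2 k).union
    (hf.continuousOn.integrableOn_compact (Pat85.cpt hJ c s h R))

end Crest.Agent.X212.Cmp73
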