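import Crest.Agent.X212.Cmp73.Sys

/-!
# X212 / COMP (helper73), part 7: the scalar inequalities for the jet sizes of a consistent system
-/

set_option autoImplicit false
set_option linter.unusedSectionVars false
open Set Filter Topology Function MeasureTheory
open scoped ContDiff Manifold InnerProductSpace NNReal

noncomputable section
namespace Crest.Agent.X212.Cmp73

open An (Sm)
open Wz78 (nab curv SA Frm)
open Sob92 (dv)
open Mp86 (Lop)

variable {E : Type} [NormedAddCommGroup E] [NormedSpace ℝ E] {HM : Type} [TopologicalSpace HM]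
  {I : ModelWithCorners ℝ E HM} {ι : Type} [Fintype ι]

theorem sq_le_of_quad {D : ι → ℝ} {h G : ℝ} (h0 : 0 ≤ h) (G0 : 0 ≤ G)
    (e : ∀ θ : ι → ℝ, ∑ a, θ a * D a ≤ (∑ a, θ a ^ 2) * h + G) : ∑ a, D a ^ 2 ≤ 4 * h * G := by
  have s0 : 0 ≤ ∑ a, D a ^ 2 := Finset.sum_nonneg fun _ _ => sq_nonneg _
  have := discrim_le_zero (a := (∑ a, D a ^ 2) * h) (b := -∑ a, D a ^ 2) (c := G) fun t => by
    have := e fun a => t * D a
    simp only [mul_pow, mul_assoc, ← Finset.mul_sum, ← sq] at this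
    nlinarith
  rw [discrim] at this
  rcases s0.eq_or_lt with h1 | h1
  · rw [← h1]; positivity
  · exact le_of_mul_le_mul_left (by nlinarith) h1

section one
variable {N : Type} [TopologicalSpace N] [ChartedSpace HM N] [IsManifold I ∞ N]
  {V : Type} [NormedAddCommGroup V] [InnerProductSpace ℝ V]
  {e : ι → (x : N) → TangentSpace I x} {A : ι → N → V →L[ℝ] V} {μ : ℝ}

theorem sm_lin {κ : Type} [Fintype κ] {f : κ → N → ℝ} (c : κ → ℝ) (hf : ∀ i, Sm I (f i)) :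
    Sm I fun x => ∑ i, c i * f i x := fun x => SA.sum _ fun i _ => SA.mul contMDiffAt_const (hf i x)

theorem dv_lin {κ : Type} [Fintype κ] {f : κ → N → ℝ} (c : κ → ℝ) (hf : ∀ i, Sm I (f i))
    (v : (x : N) → TangentSpace I x) (x : N) :
    dv I v (fun x => ∑ i, c i * f i x) x = ∑ i, c i * dv I v (f i) x := by
  rw [Wz78.dv_sum' _ fun i => SA.mul contMDiffAt_const (hf i x)]
  exact Finset.sum_congr rfl fun i _ => by
    rw [Wz78.dv_mul contMDiffAt_const (hf i x), dv_cst, zero_mul, zero_add]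

theorem Lop_lin (he : SmV I e) {κ : Type} [Fintype κ] {f : κ → N → ℝ} (c : κ → ℝ)
    (hf : ∀ i, Sm I (f i)) (x : N) :
    Lop I e 0 (fun x => ∑ i, c i * f i x) x = ∑ i, c i * Lop I e 0 (f i) x := by
  have h1 : ∀ a, Mp86.VF I 1 (e a) x := fun a => (he a x).of_le (by simp)
  rw [Mp86.Lop_sum _ h1 fun i _ => (SA.mul contMDiffAt_const (hf i x)).of_le (by norm_cast)]
  exact Finset.sum_congr rfl fun i _ => Mp86.Lop_mul _ h1 ((hf i x).of_le (by norm_cast))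

theorem hs_succ (r : ℕ) (s : N → V) : hs I e A μ (r + 1) s = fun x => ∑ i : Option ι,
    i.elim 1 (fun _ => (μ ^ 4)⁻¹) * i.elim (fun x => ‖s x‖ ^ 2)
      (fun a => hs I e A μ r (nab I e A a s)) x := by
  funext x; simp [hs, Fintype.sum_option, Finset.mul_sum]

variable (he : SmV I e) (hA : ∀ a, Sm I (A a))
include he hA

theorem sm_hs : ∀ (r : ℕ) {s : N → V}, Sm I s → Sm I (hs I e A μ r s)
  | 0, _, h => fun x => Mp86.cm_normSq (h x)
  | r + 1, _, h => by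
    rw [hs_succ]
    exact sm_lin _ fun i => match i with
      | none => fun x => Mp86.cm_normSq (h x)
      | some a => sm_hs r (sm_nab he hA h a)

theorem sm_hs' (r : ℕ) {s : N → V} (h : Sm I s) (i : Option ι) : Sm I (i.elim (fun x => ‖s x‖ ^ 2)
    fun a => hs I e A μ r (nab I e A a s)) := match i with
  | none => fun x => Mp86.cm_normSq (h x)
  | some a => sm_hs he hA r (sm_nab he hA h a)

theorem dv_hs (r : ℕ) {s : N → V} (h : Sm I s) (v : (x : N) → TangentSpace I x) (x : N) :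
    dv I v (hs I e A μ (r + 1) s) x = dv I v (fun x => ‖s x‖ ^ 2) x +
      (μ ^ 4)⁻¹ * ∑ a, dv I v (hs I e A μ r (nab I e A a s)) x := by
  rw [hs_succ, dv_lin _ (sm_hs' he hA r h)]
  simp [Fintype.sum_option, Finset.mul_sum]

variable (sk : ∀ a x v w, ⟪A a x v, w⟫_ℝ = -⟪v, A a x w⟫_ℝ)
include sk

theorem grad_hs (θ : ι → ℝ) (x : N) : ∀ (r : ℕ) {s : N → V}, Sm I s →
    ∑ a, θ a * dv I (e a) (hs I e A μ r s) x ≤
      (∑ a, θ a ^ 2) * hs I e A μ r s x + ∑ a, hs I e A μ r (nab I e A a s) x := by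
  have h0 : ∀ {s : N → V}, Sm I s → ∑ a, θ a * dv I (e a) (fun x => ‖s x‖ ^ 2) x ≤
      (∑ a, θ a ^ 2) * ‖s x‖ ^ 2 + ∑ a, ‖nab I e A a s x‖ ^ 2 := fun {s} h => by
    rw [Finset.sum_mul, ← Finset.sum_add_distrib]
    refine Finset.sum_le_sum fun a _ => ?_
    have h1 := Mp86.dv_inner_cd (v := e a) (sk a x) (SA.md (h x)) (SA.md (h x))
    simp only [real_inner_self_eq_norm_sq] at h1
    have h2 := norm_sub_sq_real (θ a • s x) (nab I e A a s x)
    rw [real_inner_smul_left, norm_smul, mul_pow, Real.norm_eq_abs, sq_abs] at h2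
    rw [h1, real_inner_comm]
    change θ a * (⟪s x, nab I e A a s x⟫_ℝ + ⟪s x, nab I e A a s x⟫_ℝ) ≤ _
    nlinarith [sq_nonneg ‖θ a • s x - nab I e A a s x‖]
  intro r
  induction r with
  | zero => exact fun h => h0 h
  | succ r ih =>
    intro s h
    have h1 := mul_le_mul_of_nonneg_left (Finset.sum_le_sum fun b (_ : b ∈ Finset.univ) =>
      ih (sm_nab he hA h b)) (show 0 ≤ (μ ^ 4)⁻¹ by positivity)
    have h2 := h0 h
    rw [Finset.sum_comm] at h1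
    simp only [dv_hs he hA r h]
    simp only [hs, mul_add, Finset.sum_add_distrib, ← Finset.mul_sum, mul_left_comm _ (μ ^ 4)⁻¹] at h1 ⊢
    linarith

variable (hμ : 0 < μ)
include hμ

theorem Lop_hs (x : N) : ∀ (r : ℕ) {s : N → V} {Λ : ℝ}, Sm I s →
    (∀ v : List ι, v.length ≤ r → ‖L0 I e A (Dw I e A v s) x‖ ≤ μ ^ (2 * v.length) * Λ) →
    2 * ∑ a, hs I e A μ r (nab I e A a s) x -
      2 * (1 + Fintype.card ι) ^ r * Λ * √(hs I e A μ r s x) ≤ Lop I e 0 (hs I e A μ r s) x := by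
  have h0 : ∀ {s : N → V} {Λ : ℝ}, Sm I s → ‖L0 I e A s x‖ ≤ Λ → 2 * ∑ a, ‖nab I e A a s x‖ ^ 2 -
      2 * Λ * ‖s x‖ ≤ Lop I e 0 (fun x => ‖s x‖ ^ 2) x := fun {s Λ} h hΛ => by
    rw [Mp86.Lop_normSq (A := A) (fun a => (he a x).of_le (by simp))
      (fun a => (hA a x).of_le (by simp)) (fun a => .of_forall (sk a)) ((h x).of_le (by norm_cast))]
    have h1 : Mp86.LA I e 0 A s x = L0 I e A s x := by
      simp only [Mp86.LA, L0, Pi.zero_apply, zero_smul, add_zero]; rfl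
    have h2 := abs_real_inner_le_norm (L0 I e A s x) (s x)
    have h3 := mul_le_mul_of_nonneg_right hΛ (norm_nonneg (s x))
    rw [h1]
    change _ ≤ _ + 2 * ∑ a, ‖nab I e A a s x‖ ^ 2
    linarith [neg_abs_le ⟪L0 I e A s x, s x⟫_ℝ]
  have m4 : μ ^ 4 * (μ ^ 4)⁻¹ = 1 := mul_inv_cancel₀ (by positivity)
  intro r
  induction r with
  | zero =>
    intro s Λ h hΛ
    simp only [hs, Real.sqrt_sq (norm_nonneg _), pow_zero, mul_one]
    exact h0 h (by simpa [Dw] using hΛ [] le_rfl)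
  | succ r ih =>
    intro s Λ h hΛ
    have b0 : ‖L0 I e A s x‖ ≤ Λ := by simpa [Dw] using hΛ [] (Nat.zero_le _)
    have Λ0 : 0 ≤ Λ := (norm_nonneg _).trans b0
    set H := √(hs I e A μ (r + 1) s x)
    have H0 : 0 ≤ H := Real.sqrt_nonneg _
    have b1 : ‖s x‖ ≤ H := Real.le_sqrt_of_sq_le (le_add_of_nonneg_right (mul_nonneg (by positivity)
      (Finset.sum_nonneg fun _ _ => hs_nonneg _ _ _)))
    have b2 : ∀ b, √(hs I e A μ r (nab I e A b s) x) ≤ μ ^ 2 * H := fun b => by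
      refine Real.sqrt_le_iff.2 ⟨by positivity, ?_⟩
      rw [mul_pow, Real.sq_sqrt (hs_nonneg _ _ _), hs, mul_add, ← pow_mul, ← mul_assoc, m4, one_mul]
      exact le_add_of_nonneg_of_le (by positivity) (Finset.single_le_sum
        (f := fun a => hs I e A μ r (nab I e A a s) x) (fun _ _ => hs_nonneg _ _ _) (by simp))
    have h1 := mul_le_mul_of_nonneg_left (Finset.sum_le_sum fun b (_ : b ∈ Finset.univ) =>
      (show 2 * ∑ a, hs I e A μ r (nab I e A a (nab I e A b s)) x -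
        μ ^ 4 * (2 * (1 + Fintype.card ι) ^ r * Λ * H) ≤ _ from le_trans (by
          have := mul_le_mul_of_nonneg_left (b2 b)
            (show 0 ≤ 2 * (1 + Fintype.card ι : ℝ) ^ r * (μ ^ 2 * Λ) by positivity)
          linarith)
        (ih (Λ := μ ^ 2 * Λ) (sm_nab he hA h b) fun v hv =>
          (hΛ (b :: v) (by simpa using hv)).trans_eq (by rw [List.length_cons]; ring))))
      (show 0 ≤ (μ ^ 4)⁻¹ by positivity)
    have h2 := h0 h b0
    rw [hs_succ (I := I) r s, Lop_lin he _ (sm_hs' he hA r h)]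
    simp only [Fintype.sum_option, Option.elim, one_mul, ← Finset.mul_sum, hs,
      Finset.sum_add_distrib]
    simp only [Finset.sum_sub_distrib, ← Finset.mul_sum, Finset.sum_const, Finset.card_univ,
      nsmul_eq_mul] at h1
    have h3 : (1 : ℝ) ≤ (1 + Fintype.card ι) ^ r := one_le_pow₀ (by simp)
    have h4 := mul_le_mul_of_nonneg_left b1 Λ0
    have h5 := mul_le_mul_of_nonneg_right h3 (mul_nonneg Λ0 H0)
    have h6 : ∀ a c : ℝ, (μ ^ 4)⁻¹ * (2 * a - μ ^ 4 * c) = 2 * ((μ ^ 4)⁻¹ * a) - c :=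
      fun a c => by field_simp
    rw [h6] at h1
    rw [pow_succ (1 + Fintype.card ι : ℝ)]
    linarith

omit he sk hμ in
theorem L0_nab {P : ι → ι → N → ℝ} {c : ι → ι → ι → N → ℝ} (F : Frm I e P c) {u : N → V}
    (h : Sm I u) (a : ι) (x : N) : L0 I e A (nab I e A a u) x = nab I e A a (L0 I e A u) x +
      ∑ b, (curv I e c A b a x (nab I e A b u x) + ∑ k, c b a k x • nab I e A k (nab I e A b u) x +
        nab I e A b (fun y => curv I e c A b a y (u y) + ∑ k, c b a k y • nab I e A k u y) x) := by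
  have sN := fun b => sm_nab F.se hA h b
  have h1 := fun b (w : N → V) (hw : Sm I w) y => F.nab_comm (fun a => hA a y) b a (hw y)
  unfold L0
  rw [Wz78.nab_sum a _ fun b => sm_nab F.se hA (sN b) b x, ← Finset.sum_add_distrib]
  refine Finset.sum_congr rfl fun b _ => ?_
  simp only [← h1 b _ (sN b), ← h1 b _ h, sub_add_cancel]
  rw [Wz78.nab_sub b (sm_nab F.se hA (sN a) b x) (sm_nab F.se hA (sN b) a x)]
  abel

end one

theorem ev_unif {Q J : Type} {F : Filter Q} {S : Set J} (hS : S.Finite) {g u : J → Q → ℝ → ℝ}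
    {p : Q → ℝ → Prop} (u0 : ∀ j q μ, p q μ → 0 ≤ u j q μ)
    (h : ∀ j ∈ S, ∃ K, 0 ≤ K ∧ ∀ᶠ q in F, ∀ μ, p q μ → g j q μ ≤ K * u j q μ) :
    ∃ K, 0 ≤ K ∧ ∀ᶠ q in F, ∀ μ, p q μ → ∀ j ∈ S, g j q μ ≤ K * u j q μ := by
  choose! K K0 hK using h
  obtain ⟨M, hM⟩ := (hS.image K).bddAbove
  refine ⟨max M 0, le_max_right _ _, ((eventually_all_finite hS).2 hK).mono
    fun q hq μ hμ j hj => (hq j hj μ hμ).trans (mul_le_mul_of_nonneg_right ?_ (u0 j q μ hμ))⟩
  exact (hM (mem_image_of_mem _ hj)).trans (le_max_left _ _)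

variable {α : Type} {X : α → Type} [∀ n, TopologicalSpace (X n)] [∀ n, ChartedSpace HM (X n)]
  [∀ n, IsManifold I ∞ (X n)] [∀ n, MeasurableSpace (X n)] {b : Fb I ι X} {L : Sy ι X} {dw : ℕ}
  {μ : ℝ} {n : α}

theorem H_gr (hμ : 0 < μ) (r : ℕ) (x : X n) : μ ^ 4 * (b.H L dw μ (r + 1) n x - b.H L dw μ 0 n x) =
    ∑ i, ((μ ^ (L.f i).d dw) ^ 2)⁻¹ * ∑ a, hs I (b.e n) ((L.f i).A n) μ r
      (nab I (b.e n) ((L.f i).A n) a ((L.f i).s n)) x := by
  simp only [Fb.H, ← Finset.sum_sub_distrib, Finset.mul_sum _ _ (μ ^ 4)]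
  refine Finset.sum_congr rfl fun i _ => ?_
  simp only [hs]; field_simp; ring

theorem H_one (L : Sy ι X) (dw dw' r : ℕ) : b.H L dw 1 r = b.H L dw' 1 r := by
  funext n x; simp [Fb.H]

theorem hs_le_H (hμ : 0 < μ) (i : L.κ) (r : ℕ) (x : X n) :
    √(hs I (b.e n) ((L.f i).A n) μ r ((L.f i).s n) x) ≤ μ ^ (L.f i).d dw * √(b.H L dw μ r n x) := by
  refine Real.sqrt_le_iff.2 ⟨by positivity, ?_⟩
  rw [mul_pow, Real.sq_sqrt (b.H_nonneg ..), ← inv_mul_le_iff₀ (by positivity)]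
  exact Finset.single_le_sum (f := fun i => ((μ ^ (L.f i).d dw) ^ 2)⁻¹ *
    hs I (b.e n) ((L.f i).A n) μ r ((L.f i).s n) x)
    (fun _ _ => mul_nonneg (by positivity) (hs_nonneg _ _ _)) (Finset.mem_univ i)

/-- Laplacians of the jets of a field -/
theorem Fld.O3.lapD {f : Fld ι X} {d : ℕ} (hc : ∀ a a' k, b.CS fun n => b.c n a a' k)
    (h : f.O3 b L) (hf : Wt (b.cx L 3) f.A (sU d) f.s) {ϖ : ℕ → ℕ}
    (hl : Wt (b.cx L 3) f.A (fun k => (k + 1, ϖ k)) fun n => L0 I (b.e n) (f.A n) (f.s n))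
    (v : List ι) : Wt (b.cx L 3) f.A (fun k => (k + v.length + 1,
      max (ϖ (k + v.length)) (d + 4 + 2 * (k + v.length))))
      fun n => L0 I (b.e n) (f.A n) (Dw I (b.e n) (f.A n) v (f.s n)) := by
  induction v using List.reverseRecOn with
  | nil => exact hl.mono fun k => ⟨le_rfl, le_max_left _ _⟩
  | append_singleton v a ih =>
    choose R hR eR using h.crv
    have hu := hf.Dw v
    have cw := fun a a' k => (hc a a' k).wt L 3 0
    have e : ∀ k, k + (v ++ [a]).length = k + 1 + v.length := fun k => by simp; omega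
    simp only [e, Dw_concat]
    have := (ih.D a).add (Wt.sum (σ := fun k => (k + 1 + v.length + 1, max (ϖ (k + 1 + v.length))
      (d + 4 + 2 * (k + 1 + v.length)))) h.sA fun b' => (((hR b' a).app h.sA (hu.D b') ?_).add
      (Wt.sum h.sA fun k => (cw b' a k).smul ((hu.D b').D k) ?_)).add (((((hR b' a).app h.sA
        (τ := fun k => (k + v.length + 1, d + 4 + 2 * (k + v.length))) hu ?_).add
          (Wt.sum h.sA fun k => (cw b' a k).smul (hu.D k) ?_)).D b').mono ?_))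
    · refine this.congr fun n x => ?_
      refine (L0_nab (h.sA n) (b.frm n) (hu.sm n) a x).trans ?_
      have e1 := fun b' => eR b' a n (v ++ [b']) x
      simp only [Dw_concat] at e1
      simp only [show (b.cx L 3).e = b.e from rfl, eR, e1]
    all_goals
      first | intro i j | intro i
      simp only [sU, Prod.mk_add_mk, Prod.mk_le_mk, Pi.zero_apply, zero_add]
      omega

namespace Cons
variable (hc : Cons b L)
include hc

theorem sm_H (dw : ℕ) (μ : ℝ) (r : ℕ) (n : α) : Sm I (b.H L dw μ r n) :=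
  sm_lin _ fun i => sm_hs (b.frm n).se ((hc.ok i).sA n) r ((hc.ok i).sm n)

/-- (E4) -/
theorem grad (hμ : 0 < μ) (r : ℕ) (x : X n) : ∑ a, dv I (b.e n a) (b.H L dw μ r n) x ^ 2 ≤
    4 * b.H L dw μ r n x * (μ ^ 4 * (b.H L dw μ (r + 1) n x - b.H L dw μ 0 n x)) := by
  rw [H_gr hμ]
  refine sq_le_of_quad (b.H_nonneg ..) (Finset.sum_nonneg fun _ _ => mul_nonneg (by positivity)
    (Finset.sum_nonneg fun _ _ => hs_nonneg _ _ _)) fun θ => ?_
  unfold Fb.H
  simp only [dv_lin _ fun i => sm_hs (b.frm n).se ((hc.ok i).sA n) r ((hc.ok i).sm n),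
    Finset.mul_sum _ _ (θ _), Finset.mul_sum _ _ (∑ _, _)]
  rw [Finset.sum_comm, ← Finset.sum_add_distrib]
  refine Finset.sum_le_sum fun i _ => ?_
  simp only [mul_left_comm _ ((μ ^ (L.f i).d dw) ^ 2)⁻¹, ← Finset.mul_sum, ← mul_add]
  exact mul_le_mul_of_nonneg_left (grad_hs (b.frm n).se ((hc.ok i).sA n) ((hc.ok i).sk n) θ x r
    ((hc.ok i).sm n)) (by positivity)

theorem Lop_H (hμ : 0 < μ) (r : ℕ) (x : X n) {Λ : ℝ} (Λ0 : 0 ≤ Λ)
    (h : ∀ i (v : List ι), v.length ≤ r → ‖L0 I (b.e n) ((L.f i).A n) (Dw I (b.e n) ((L.f i).A n) v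
      ((L.f i).s n)) x‖ ≤ μ ^ (2 * v.length) * (μ ^ (L.f i).d dw * Λ)) :
    2 * (μ ^ 4 * (b.H L dw μ (r + 1) n x - b.H L dw μ 0 n x)) - 2 * (1 + Fintype.card ι) ^ r *
      Fintype.card L.κ * Λ * √(b.H L dw μ r n x) ≤ Lop I (b.e n) 0 (b.H L dw μ r n) x := by
  rw [H_gr hμ]
  refine le_trans ?_ (Lop_lin (b.frm n).se _
    (fun i => sm_hs (b.frm n).se ((hc.ok i).sA n) r ((hc.ok i).sm n)) x).ge
  rw [show ∀ a c d e : ℝ, a * c * d * e = c * (a * d * e) from fun _ _ _ _ => by ring,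
    ← nsmul_eq_mul, ← Finset.card_univ, ← Finset.sum_const, Finset.mul_sum,
    ← Finset.sum_sub_distrib]
  refine Finset.sum_le_sum fun i _ => le_trans ?_ (mul_le_mul_of_nonneg_left (Lop_hs (b.frm n).se
    ((hc.ok i).sA n) ((hc.ok i).sk n) hμ x r ((hc.ok i).sm n) (h i)) (by positivity))
  have h1 := mul_le_mul_of_nonneg_left (hs_le_H (b := b) (dw := dw) hμ i r x) (show 0 ≤
    ((μ ^ (L.f i).d dw) ^ 2)⁻¹ * (2 * (1 + Fintype.card ι : ℝ) ^ r * (μ ^ (L.f i).d dw * Λ)) by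
      positivity)
  have h2 : ∀ a c : ℝ, ((μ ^ (L.f i).d dw) ^ 2)⁻¹ * (a * (μ ^ (L.f i).d dw * Λ)) *
      (μ ^ (L.f i).d dw * c) = a * Λ * c := fun a c => by field_simp
  rw [h2] at h1
  linarith

theorem core (h3 : 3 ≤ dw) (h4 : dw ≤ 3) (r r' : ℕ) (hr : r' ≤ r + 1) (R : ℝ) :
    ∃ K, 0 ≤ K ∧ ∀ᶠ q in b.F, ∀ μ, 1 ≤ μ → (μ = 1 ∨ r' = 0 ∨ r' = 1 ∧ dw = 3) →
      b.H L dw μ r q.1 q.2 ≤ R → ∀ i (v : List ι), v.length ≤ r' → ‖L0 I (b.e q.1) ((L.f i).A q.1)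
        (Dw I (b.e q.1) ((L.f i).A q.1) v ((L.f i).s q.1)) q.2‖ ≤ μ ^ (2 * v.length) *
          (μ ^ (L.f i).d dw * (K * μ ^ 4 * bt (fun r => √(b.H L dw μ r q.1 q.2)) r (r' + 1 - r))) := by
  have e3 : 3 = dw := by omega
  have b1 := fun (q : Σ n, X n) μ d => one_le_bt (r := r)
    (fun r => Real.sqrt_nonneg (b.H L dw μ r q.1 q.2)) d
  obtain ⟨K, K0, hK⟩ := ev_unif (F := b.F) ((finite_univ (α := L.κ)).prod
    (List.finite_length_le ι r')) (p := fun q μ => 1 ≤ μ ∧ (μ = 1 ∨ r' = 0 ∨ r' = 1 ∧ dw = 3) ∧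
      b.H L dw μ r q.1 q.2 ≤ R) (g := fun j q _ => ‖L0 I (b.e q.1) ((L.f j.1).A q.1)
        (Dw I (b.e q.1) ((L.f j.1).A q.1) j.2 ((L.f j.1).s q.1)) q.2‖)
      (u := fun j q μ => μ ^ (2 * j.2.length + (L.f j.1).d dw + 4) *
        bt (fun r => √(b.H L dw μ r q.1 q.2)) r (r' + 1 - r))
      (fun j q μ hμ => mul_nonneg (pow_nonneg (by linarith [hμ.1]) _) (zero_le_one.trans (b1 q μ _)))
      fun ⟨i, v⟩ hj => by
    have hv : v.length ≤ r' := hj.2
    subst e3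
    obtain ⟨ϖ, a0, a1, hl⟩ := (hc.ok i).lap
    obtain ⟨K, K0, hK⟩ := ((hc.ok i).lapD hc.c (wt_fld i (hc.ok i).sA (hc.ok i).sm) hl v).bd
      [] r √R (by simp; omega)
    refine ⟨K, K0, hK.mono fun q hq μ ⟨m1, m2, m3⟩ =>
      (hq μ m1 (Real.sqrt_le_sqrt m3)).trans ?_⟩
    simp only [List.length_nil, zero_add, mul_assoc]
    refine mul_le_mul_of_nonneg_left (mul_le_mul ?_ ?_ (zero_le_one.trans (b1 q μ _)) (by positivity)) K0
    · rcases m2 with rfl | m2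
      · simp
      · refine pow_le_pow_right₀ m1 (max_le ?_ (by omega))
        rcases (by omega : v.length = 0 ∨ v.length = 1) with e | e <;> rw [e] <;> omega
    · exact (mul_one _).ge.trans (bt_mul (r := r) (fun r => Real.sqrt_nonneg (b.H L 3 μ r q.1 q.2))
        (a := v.length + 1 - r) (b := 0) (c := r' + 1 - r) (by omega) (by omega))
  exact ⟨K, K0, hK.mono fun q hq μ m1 m2 m3 i v hv =>
    (hq μ ⟨m1, m2, m3⟩ (i, v) ⟨trivial, hv⟩).trans_eq (by ring)⟩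

/-- (E1), (E2) -/
theorem ine (r : ℕ) (R : ℝ) : ∃ K, 0 ≤ K ∧ ∀ᶠ q in b.F, ∀ μ, 1 ≤ μ → (μ = 1 ∨ r = 0) →
    b.H L 3 μ r q.1 q.2 ≤ R →
      μ ^ 4 * (2 * b.H L 3 μ (r + 1) q.1 q.2 - K * (1 + √(b.H L 3 μ (r + 1) q.1 q.2))) ≤
        Lop I (b.e q.1) 0 (b.H L 3 μ r q.1) q.2 ∧
      μ ^ 4 * (2 * b.H L 3 μ (r + 2) q.1 q.2 - K * (1 + √(b.H L 3 μ (r + 1) q.1 q.2)) *
        ((1 + √(b.H L 3 μ (r + 1) q.1 q.2)) ^ 2 + √(b.H L 3 μ (r + 2) q.1 q.2))) ≤
        Lop I (b.e q.1) 0 (b.H L 3 μ (r + 1) q.1) q.2 := by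
  obtain ⟨K, K0, hK⟩ := hc.core (dw := 3) le_rfl (by omega) r r (by omega) R
  obtain ⟨K', K0', hK'⟩ := hc.core (dw := 3) le_rfl (by omega) r (r + 1) le_rfl R
  set c : ℝ := 2 * (1 + Fintype.card ι) ^ r * Fintype.card L.κ * K * √R
  set c' : ℝ := 2 * (1 + Fintype.card ι) ^ (r + 1) * Fintype.card L.κ * K'
  have c0 : 0 ≤ c := by positivity
  have c0' : 0 ≤ c' := by positivity
  refine ⟨2 * |R| + c + c', by positivity, (hK.and hK').mono fun q hq μ m1 m2 m3 => ?_⟩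
  have hμ : 0 < μ := by linarith
  have e1 := hc.Lop_H hμ r q.2 (by
    rw [Nat.add_sub_cancel_left, bt]; positivity) (hq.1 μ m1 (m2.imp_right .inl) m3)
  have e2 := hc.Lop_H hμ (r + 1) q.2 (by
    rw [add_assoc, Nat.add_sub_cancel_left]; simp only [bt]; positivity) (hq.2 μ m1 (m2.imp_right fun _ => by omega) m3)
  rw [Nat.add_sub_cancel_left, bt] at e1
  rw [add_assoc r 1 1, Nat.add_sub_cancel_left] at e2
  simp only [bt] at e2
  have h0 : b.H L 3 μ 0 q.1 q.2 ≤ |R| := ((monotone_nat_of_le_succ fun r =>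
    b.H_mono L 3 μ r q.1 q.2) (Nat.zero_le r)).trans (m3.trans (le_abs_self _))
  have h1 := Real.sqrt_le_sqrt m3
  have R0 := abs_nonneg R
  set J1 := √(b.H L 3 μ (r + 1) q.1 q.2)
  set J2 := √(b.H L 3 μ (r + 2) q.1 q.2)
  have j1 : 0 ≤ J1 := Real.sqrt_nonneg _
  have j2 : 0 ≤ J2 := Real.sqrt_nonneg _
  have m4 : 0 < μ ^ 4 := by positivity
  refine ⟨le_trans ?_ e1, le_trans ?_ e2⟩
  · have := mul_le_mul_of_nonneg_left h1 (show 0 ≤ 2 * (1 + Fintype.card ι : ℝ) ^ r *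
      Fintype.card L.κ * K * (1 + J1) by positivity)
    have : 2 * b.H L 3 μ 0 q.1 q.2 + 2 * (1 + Fintype.card ι : ℝ) ^ r * Fintype.card L.κ * K *
      (1 + J1) * √(b.H L 3 μ r q.1 q.2) ≤ (2 * |R| + c + c') * (1 + J1) := by
      simp only [c]; nlinarith [mul_nonneg c0' j1, mul_nonneg R0 j1]
    linarith [mul_le_mul_of_nonneg_left this m4.le]
  · have b1 : 1 ≤ (1 + J1) ^ 2 + J2 := by nlinarith
    set B := (1 + J1) ^ 2 + J2
    have b2 : 1 ≤ (1 + J1) * B := by nlinarith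
    have : 2 * b.H L 3 μ 0 q.1 q.2 + c' * B * J1 ≤ (2 * |R| + c + c') * (1 + J1) * B := by
      nlinarith [mul_le_mul_of_nonneg_left b2 R0, mul_nonneg c0 (zero_le_one.trans b2),
        mul_nonneg c0' (zero_le_one.trans b1)]
    linarith [mul_le_mul_of_nonneg_left this m4.le]

end Cons

end Crest.Agent.X212.Cmp73
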