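import Crest.Agent.X212.Cmp73.Sys

/-!
# X212 / COMP (helper73), part 6: uniform charts, balls, the statements BERN, EPS, DEC
-/

set_option autoImplicit false
set_option linter.unusedSectionVars false
open Set Filter Topology Function MeasureTheory Metric
open scoped ContDiff Manifold InnerProductSpace NNReal

noncomputable section
namespace Crest.Agent.X212.Cmp73

open An (Sm)
open Sob92 (dv)
open Mp86 (Lop)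

variable {E : Type} [NormedAddCommGroup E] [NormedSpace ℝ E] {HM : Type} [TopologicalSpace HM]
  {I : ModelWithCorners ℝ E HM} {ι : Type} [Fintype ι]
  {E' : Type} [NormedAddCommGroup E'] [NormedSpace ℝ E']

variable (I) in
/-- a chart that is uniform with the constant `K` over the set `T` -/
structure Ch {N : Type} [TopologicalSpace N] [ChartedSpace HM N] [MeasurableSpace N]
    (e : ι → (x : N) → TangentSpace I x) (μ : Measure N) (κ : OpenPartialHomeomorph N E')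
    (T : Set E') (K : ℝ) : Prop where
  tgt : T ⊆ κ.target
  sm : ContMDiffOn I 𝓘(ℝ, E') ∞ κ κ.source
  sm' : ContMDiffOn 𝓘(ℝ, E') I ∞ κ.symm κ.target
  d1 : ∀ z ∈ T, ∀ a, ‖dv I (e a) κ (κ.symm z)‖ ≤ K
  d2 : ∀ z ∈ T, ∀ a a', ‖dv I (e a) (dv I (e a') κ) (κ.symm z)‖ ≤ K
  sp : ∀ z ∈ T, ∀ v : E', ∃ θ : ι → ℝ, ∑ a, θ a • dv I (e a) κ (κ.symm z) = v ∧
    ∀ a, |θ a| ≤ K * ‖v‖
  vol : ∀ z s, 0 < s → ball z s ⊆ T → ENNReal.ofReal (s ^ 4 / K) ≤ μ (κ.symm '' ball z s)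

variable {α : Type} {X : α → Type} [∀ n, TopologicalSpace (X n)] [∀ n, ChartedSpace HM (X n)]
  [∀ n, IsManifold I ∞ (X n)] [∀ n, MeasurableSpace (X n)]
  (b : Fb I ι X) (L : Sy ι X) (κ : ∀ n, OpenPartialHomeomorph (X n) E')

/-- a filter of balls (index, centre, radius) on which the bounds of `b.F` hold -/
structure Bl (𝓑 : Filter (α × E' × ℝ)) : Prop where
  sub : ∀ D ∈ b.F, ∀ᶠ p in 𝓑, ∀ z ∈ closedBall p.2.1 p.2.2, (⟨p.1, (κ p.1).symm z⟩ : Σ n, X n) ∈ D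
  ch : ∃ K, 0 < K ∧ ∀ᶠ p in 𝓑, 0 < p.2.2 ∧ p.2.2 ≤ 1 ∧
    Ch I (b.e p.1) (b.μ p.1) (κ p.1) (closedBall p.2.1 p.2.2) K

/-- BERN: one more derivative at the centre -/
def Bern (𝓑 : Filter (α × E' × ℝ)) : Prop := ∀ (r : ℕ) (R : ℝ), ∃ C, ∀ᶠ p in 𝓑,
  (∀ z ∈ closedBall p.2.1 p.2.2, b.H L 3 1 r p.1 ((κ p.1).symm z) ≤ R) →
    p.2.2 ^ 2 * b.H L 3 1 (r + 1) p.1 ((κ p.1).symm p.2.1) ≤ C

/-- the energy of a ball -/
def Fb.eb (p : α × E' × ℝ) : ENNReal :=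
  ∫⁻ x in (κ p.1).symm '' closedBall p.2.1 p.2.2, ENNReal.ofReal (b.en p.1 x) ∂b.μ p.1

/-- EPS: small energy bounds the scaled one-jet at the centre -/
def Eps (𝓑 : Filter (α × E' × ℝ)) : Prop := ∃ ε : ℝ≥0, 0 < ε ∧ ∃ C, ∀ᶠ p in 𝓑,
  b.eb κ p ≤ ε → b.H L 3 (√p.2.2)⁻¹ 1 p.1 ((κ p.1).symm p.2.1) ≤ C

/-- refined Kato inequality for a density `h` which is comparable with the energy density -/
def Kat : Prop := (∀ n x, 0 ≤ b.en n x) ∧ ∃ h : ∀ n, X n → ℝ, (∀ n, Sm I (h n)) ∧ (∀ n x, 0 ≤ h n x) ∧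
  ∃ k < (1 : ℝ), ∃ G : ∀ n, X n → ℝ, (∀ n x, 0 ≤ G n x) ∧ ∀ R, ∃ C, ∀ᶠ q in b.F, ∀ μ, 1 ≤ μ →
    b.H L 3 μ 1 q.1 q.2 ≤ R → h q.1 q.2 ≤ C * μ ^ 8 ∧ G q.1 q.2 ≤ C * μ ^ 12 ∧
      h q.1 q.2 ≤ C * (b.en q.1 q.2 + μ ^ 6) ∧ b.en q.1 q.2 ≤ C * (h q.1 q.2 + μ ^ 6) ∧
      2 * G q.1 q.2 - C * √(h q.1 q.2) * (h q.1 q.2 + √(G q.1 q.2) + μ ^ 6 +
        μ ^ 5 * √(μ ^ 4 + b.H L 0 μ 0 q.1 q.2)) ≤ Lop I (b.e q.1) 0 (h q.1) q.2 ∧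
      ∑ a, dv I (b.e q.1 a) (h q.1) q.2 ^ 2 ≤ 4 * k * h q.1 q.2 * G q.1 q.2 +
        C * h q.1 q.2 * (h q.1 q.2 + μ ^ 6 + (μ ^ 4 + b.H L 0 μ 0 q.1 q.2) ^ 2)

/-- the iterated filter at a puncture: first `n → l`, then `z → z₀` -/
def pF (l : Filter α) (z₀ : E') : Filter (α × E') where
  sets := {D | ∃ δ > 0, ∀ δ' > 0, ∀ᶠ n in l, ∀ z, δ' ≤ ‖z - z₀‖ → ‖z - z₀‖ ≤ δ → (n, z) ∈ D}
  univ_sets := ⟨1, one_pos, fun _ _ => .of_forall fun _ _ _ _ => trivial⟩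
  sets_of_superset := fun ⟨δ, h0, h⟩ hs =>
    ⟨δ, h0, fun δ' h1 => (h δ' h1).mono fun _ hn z a c => hs (hn z a c)⟩
  inter_sets := fun ⟨δ, h0, h⟩ ⟨γ, k0, k⟩ => ⟨min δ γ, lt_min h0 k0, fun δ' h1 =>
    ((h δ' h1).and (k δ' h1)).mono fun _ hn z a c =>
      ⟨hn.1 z a (c.trans (min_le_left _ _)), hn.2 z a (c.trans (min_le_right _ _))⟩⟩

/-- the points of `X n` over the iterated filter -/
def gF (l : Filter α) (z₀ : E') : Filter (Σ n, X n) :=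
  (pF l z₀).map fun p => ⟨p.1, (κ p.1).symm p.2⟩

/-- the balls of radius `‖z - z₀‖ / 2` over the iterated filter -/
def gB (l : Filter α) (z₀ : E') : Filter (α × E' × ℝ) :=
  (pF l z₀).map fun p => (p.1, p.2, ‖p.2 - z₀‖ / 2)

/-- the hypotheses of DEC at the puncture `z₀` -/
structure Pun (l : Filter α) (z₀ : E') : Prop where
  F : b.F = gF κ l z₀
  cons : Cons b L
  kat : Kat b L
  bl : Bl b κ (gB l z₀)
  en : ∀ ε : ℝ≥0, 0 < ε → ∀ᶠ p in gB l z₀, b.eb κ p ≤ ε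
  Q : ∃ (Q : E' → ℝ) (K : ℝ), ContDiff ℝ ∞ Q ∧ (∀ z, ‖z - z₀‖ ^ 2 ≤ K * Q z ∧ Q z ≤ K * ‖z - z₀‖ ^ 2) ∧
    ∀ η > 0, ∀ᶠ q in b.F,
      |∑ a, dv I (b.e q.1 a) (fun x => Q (κ q.1 x)) q.2 ^ 2 - 4 * Q (κ q.1 q.2)| ≤ η * Q (κ q.1 q.2) ∧
      |Lop I (b.e q.1) 0 (fun x => Q (κ q.1 x)) q.2 - 8| ≤ η

/-- all jets are bounded along the filter (conclusion of DEC) -/
def Fb.JB : Prop := ∀ r, ∃ R, ∀ᶠ q in b.F, b.H L 3 1 r q.1 q.2 ≤ R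

end Crest.Agent.X212.Cmp73
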