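import Crest.Agent.X212.Cmp73.Gpf
import Crest.Agent.X212.Eqv71.Gau

/-!
# X212 / COMP (helper73), part 13: the calculus of limits of fields
-/

set_option autoImplicit false
set_option linter.unusedSectionVars false
open Set Filter Topology Function MeasureTheory
open scoped ContDiff Manifold InnerProductSpace NNReal

noncomputable section
namespace Crest.Agent.X212.Cmp73

open An Eqv71
open Wz78 (nab curv lap dir SA)
open Sob92 (dv)

theorem ev_ev_prod {α M : Type} [TopologicalSpace M] {l : Filter α} {x : M} {p : α → M → Prop}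
    (h : ∀ᶠ q in l ×ˢ 𝓝 x, p q.1 q.2) : ∀ᶠ q in l ×ˢ 𝓝 x, ∀ᶠ y in 𝓝 q.2, p q.1 y := by
  obtain ⟨s, hs, t, ht, k⟩ := eventually_prod_iff.1 h
  exact (hs.prod_mk ht.eventually_nhds).mono fun q hq => hq.2.mono fun y hy => k hq.1 hy

theorem closed_of_fin {M : Type} [TopologicalSpace M] [T2Space M] [WeaklyLocallyCompactSpace M]
    {S : Set M} (h : ∀ K, IsCompact K → (S ∩ K).Finite) : IsOpen Sᶜ :=
  isOpen_iff_mem_nhds.2 fun x hx => by
    obtain ⟨K, hK, k⟩ := exists_compact_mem_nhds x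
    filter_upwards [k, (h K hK).isClosed.isOpen_compl.mem_nhds fun a => hx a.1] with y h1 h2 h3
    exact h2 ⟨h3, h1⟩

section adT
variable {κ κ' : Type} [Fintype κ] [DecidableEq κ] [Fintype κ'] [DecidableEq κ']

/-- `ξ ↦ A ξ + ξ Aᵗ` -/
def adT : CL (En κ) (En (κ × κ)) :=
  ((ContinuousLinearMap.compL ℝ (HS κ) (En κ) (HS κ) hsL).comp
    ((ContinuousLinearMap.compL ℝ (HS κ) (En κ) (En κ)).flip opL)).comp
      (ContinuousLinearMap.mul ℝ (En κ) + (ContinuousLinearMap.mul ℝ (En κ)).flip ∘L trnL)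

theorem adT_apply (A : En κ) (ξ : HS κ) : adT A ξ = hsL (A * opL ξ + opL ξ * trn A) := rfl

theorem adT_skw {A : En κ} (h : Skw A) : adT A = adc A := ContinuousLinearMap.ext fun ξ => by
  rw [adT_apply, trn_of_skw h, Wz78.adc_apply, mul_neg, sub_eq_add_neg]

variable {E : Type} [NormedAddCommGroup E] [NormedSpace ℝ E] [FiniteDimensional ℝ E]
  [MeasurableSpace E] [BorelSpace E] {HM : Type} [TopologicalSpace HM]
  {I : ModelWithCorners ℝ E HM} {M : Type} [TopologicalSpace M] [ChartedSpace HM M]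
  [IsManifold I ∞ M] [MeasurableSpace M] {ι : Type} [Fintype ι] {e : ι → (x : M) → TangentSpace I x}
  {A : ι → M → En κ} {A' : ι → M → En κ'} {u : M → CL (Eu κ) (Eu κ')} {x : M}

theorem itw_cj (h : Itw I e A A' u x) (hu : SA I u x) (hA : ∀ a, Skw (A a x)) :
    Itw I e (fun a y => adc (A a y)) (fun a y => adT (A' a y)) (fun y => cj (u y)) x := fun a => by
  ext1 ξ
  have h1 : dv I (e a) (fun y => cj (u y)) x ξ = hsL (dv I (e a) u x ∘L opL ξ ∘L trn (u x)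
      + u x ∘L opL ξ ∘L trn (dv I (e a) u x)) := by
    have k := Sob92.dv_app (e := e a) (sa_cj hu).md (mdifferentiableAt_const (c := ξ))
    rw [Sob92.dv_const, Pi.zero_apply, map_zero, add_zero] at k
    have hc : SA I (fun _ : M => opL ξ) x := contMDiffAt_const
    rw [← k]
    simp only [cj_apply]
    rw [Sob92.dv_clm hsL (sa_comp hu (sa_comp hc (sa_trn hu))).md,
      dv_ccomp hu (sa_comp hc (sa_trn hu)), dv_ccomp hc (sa_trn hu), Sob92.dv_const, Pi.zero_apply,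
      ContinuousLinearMap.zero_comp, zero_add, dv_trn hu]
  have h2 : trn (u x ∘L A a x - A' a x ∘L u x) = -(A a x ∘L trn (u x)) - trn (u x) ∘L trn (A' a x) := by
    have := map_sub trnL (u x ∘L A a x) (A' a x ∘L u x)
    change trn _ = trn _ - trn _ at this
    rw [this, trn_comp, trn_comp, trn_of_skw (hA a), ContinuousLinearMap.neg_comp]
  rw [_root_.add_apply, h1, eq_sub_of_add_eq (h a), h2]
  simp only [ContinuousLinearMap.comp_apply, Wz78.adc_apply, adT_apply, cj_apply, Wz78.opL_hsL,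
    ← map_add]
  congr 1
  ext1 w
  simp only [ContinuousLinearMap.comp_apply, _root_.add_apply, _root_.sub_apply, _root_.neg_apply,
    mul_apply_eq_comp, map_sub, map_neg]
  abel

end adT

variable {E : Type} [NormedAddCommGroup E] [NormedSpace ℝ E] [FiniteDimensional ℝ E]
  [MeasurableSpace E] [BorelSpace E]
  {HM : Type} [TopologicalSpace HM] {I : ModelWithCorners ℝ E HM} [I.Boundaryless]
  {E₀ : Type} [NormedAddCommGroup E₀] [NormedSpace ℝ E₀] [FiniteDimensional ℝ E₀]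
  [MeasurableSpace E₀] [BorelSpace E₀]
  {H₀ : Type} [TopologicalSpace H₀] {I₀ : ModelWithCorners ℝ E₀ H₀} [I₀.Boundaryless]
  {M : Type} [TopologicalSpace M] [ChartedSpace H₀ M] [IsManifold I₀ ∞ M] [MeasurableSpace M]
  [T2Space M] [BorelSpace M] [SecondCountableTopology M]
  {ι lam : Type} [Fintype ι] [Fintype lam] {α : Type}
  {X : α → Type} [∀ n, TopologicalSpace (X n)] [∀ n, ChartedSpace HM (X n)]
  [∀ n, IsManifold I ∞ (X n)] [∀ n, MeasurableSpace (X n)] [∀ n, T2Space (X n)]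
  [∀ n, BorelSpace (X n)] {r : ℕ}

include I₀ in
theorem dense_of_fin (h4 : Module.finrank ℝ E₀ = 4) {S : Set M}
    (h : ∀ K, IsCompact K → (S ∩ K).Finite) : Dense Sᶜ := fun x => by
  have := Manifold.locallyCompact_of_finiteDimensional (M := M) I₀
  have : Nontrivial E₀ := Module.nontrivial_of_finrank_pos (R := ℝ) (by omega)
  have hn : (𝓝[≠] x).NeBot := by
    have h1 : (𝓝[≠] (extChartAt I₀ x x)).NeBot := Module.punctured_nhds_neBot ℝ E₀ _
    refine (h1.map (extChartAt I₀ x).symm).mono ?_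
    refine tendsto_nhdsWithin_iff.2 ⟨?_, ?_⟩
    · have := (continuousAt_extChartAt_symm (I := I₀) x).tendsto
      rw [extChartAt_to_inv] at this
      exact this.mono_left nhdsWithin_le_nhds
    · filter_upwards [self_mem_nhdsWithin, nhdsWithin_le_nhds (extChartAt_target_mem_nhds (I := I₀) x)]
        with y h2 h3 h4
      exact h2 (by rw [← (extChartAt I₀ x).right_inv h3, show _ = x from h4]; rfl)
  obtain ⟨K, hK, k⟩ := exists_compact_mem_nhds x
  refine mem_closure_iff_frequently.2 (Eventually.frequently (f := 𝓝[≠] x) ?_ |>.filter_mono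
    nhdsWithin_le_nhds)
  filter_upwards [self_mem_nhdsWithin, nhdsWithin_le_nhds k, nhdsWithin_le_nhds
    (((h K hK).subset diff_subset (t := (S ∩ K) \ {x})).isClosed.isOpen_compl.mem_nhds fun a => a.2 rfl)]
    with y h1 h2 h3 h4
  exact h3 ⟨⟨h4, h2⟩, h1⟩

namespace Gs
variable {g : Gs I I₀ M ι lam X} {c : ∀ n, Cfg (X n) ι lam r} {c' : Cfg M ι lam r} {S : Set M}
  {u : ∀ n, M → CL (c n).m.V c'.m.V}

variable (g c c' u) in
/-- the transported connection -/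
def tW (n : α) (a : ι) (x : M) : En (Fin c'.m.N) := c'.W a x - g.dA c c' u a n x

variable (g c c' u) in
/-- the pointwise content of the gauge `u n` at `y` -/
structure Nr (n : α) (y : M) : Prop where
  src : y ∈ (g.ψ n).source
  su : SA I₀ (u n) y
  P : ∀ a b, (g.B n).P a b (g.ψ n y) = g.B₀.P a b y
  be : BE (g.B n) (g.ψ n y) g.B₀ y (fun b a => g.B₀.P b a y) (g.B₀.l y)
  me : ME (c n).m (g.ψ n y) c'.m y (fun b a => g.B₀.P b a y) (g.B₀.l y) (u n y)
  ρ : ∀ b v, c'.m.ρ b y (u n y v) = u n y ((c n).m.ρ b (g.ψ n y) v)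
  j : ∀ s v, c'.m.j y s (u n y v) = u n y ((c n).m.j (g.ψ n y) s v)
  itw : Itw I₀ (g.H n).F.e (fun a y => (c n).W a (g.ψ n y)) (g.tW c c' u n) (u n) y

theorem OK.P_eq (hg : g.OK) {n : α} {y : M} (hy : y ∈ (g.ψ n).source) (a b : ι) :
    (g.B n).P a b (g.ψ n y) = g.B₀.P a b y := by
  rw [← (hg.G n).P, ← (hg.rel n).P hy, (hg.H n).P]

theorem OK.sd_eq (hg : g.OK) {n : α} {y : M} (hy : y ∈ (g.ψ n).source) (s t : ι × ι) :
    (g.B n).sd (g.ψ n y) s t = g.B₀.sd y s t := by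
  simp only [Base.sd, Base.a2, Base.st, hg.P_eq hy, hg.bo n y hy]

theorem OK.cv_D (hg : g.OK) {N : Type} [NormedAddCommGroup N] [NormedSpace ℝ N]
    [FiniteDimensional ℝ N] {O : Set M} (hO : IsOpen O) {f : α → M → N} {f' : M → N}
    (h : Cv I₀ g.l O f f') (a : ι) : Cv I₀ g.l O (fun n => (g.H n).F.D a (f n)) (g.G₀.F.D a f') :=
  h.dv hO (fun k x _ => (hg.e a).mb k x) fun x _ => (hg.e a).pt x

theorem OK.cv_dv (hg : g.OK) (a : ι) :
    Cv I₀ g.l g.Pᶜ (fun n x => (g.G n).F.dv a (g.ψ n x)) (g.G₀.F.dv a) :=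
  ((Cv.sum fun b => Cv.sum fun k => (hg.c b a k).mul (Cv.fixed' (hg.B₀.sP k b))).mono le_rfl
    (subset_univ _)).congr (fun x hx => (hg.src x hx).mono fun q hq => by
      rw [← (hg.rel _).dv hq (hg.H _).vol (hg.G _).vol, Met55.dv_vol (hg.H _).vol, (hg.H _).P])
    fun x _ => by rw [Met55.dv_vol hg.G₀.vol, hg.G₀.P]

namespace Lim
variable (h : g.Lim c c' S u)
include h

theorem op : IsOpen Sᶜ := have := Manifold.locallyCompact_of_finiteDimensional (M := M) I₀; closed_of_fin h.fin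

theorem sub : Sᶜ ⊆ g.Pᶜ := compl_subset_compl.2 h.P

theorem cW (a : ι) : Cv I₀ g.l Sᶜ (fun n => g.tW c c' u n a) (c'.W a) :=
  ((Cv.fixed' (h.adm.conn.cc.sm a)).sub (h.A a)).congr (fun _ _ => .of_forall fun _ => rfl)
    fun _ _ => (sub_zero _).symm

variable (hg : g.OK) (ha : ∀ n, (c n).Adm (g.B n) (g.G n))
include hg

theorem ext {N : Type} [TopologicalSpace N] [T2Space N] {f f' : M → N} (h1 : Continuous f)
    (h2 : Continuous f') (e : ∀ x ∉ S, f x = f' x) : f = f' :=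
  h1.ext_on (dense_of_fin (I₀ := I₀) hg.h4 h.fin) h2 e

include ha

theorem nr {x : M} (hx : x ∉ S) : ∀ᶠ q in (g.l : Filter α) ×ˢ 𝓝 x, g.Nr c c' u q.1 q.2 := by
  obtain ⟨O, hO, hxO, k⟩ := h.iso x hx
  filter_upwards [k.prod_mk (hO.mem_nhds hxO), hg.src x (h.sub hx)] with ⟨n, y⟩ ⟨k, hy⟩ hs
  have P := hg.P_eq hs
  have b := BE.refl hg.B₀ y
  have i := k.iso y hy
  have ρ : ∀ b, c'.m.ρ b y ∘L u n y = u n y ∘L (c n).m.ρ b (g.ψ n y) := k.ρ y hy
  have j : ∀ s, c'.m.j y s ∘L u n y = u n y ∘L (c n).m.j (g.ψ n y) s := k.j y hy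
  have uu : trn (u n y) ∘L u n y = (c n).m.p (g.ψ n y) := by rw [← Pj41.ad_trn]; exact i.src
  refine ⟨hs, k.su y hy, P, ⟨fun a a' => (b.UU a a').trans (P a a').symm, b.UU', fun _ _ _ _ => ?_,
    b.vv.trans (hg.bl n y hs).symm, b.vv', by rw [hg.il]; exact b.il⟩,
    ⟨uu, by rw [← Pj41.ad_trn]; exact i.tgt, (k.J y hy).symm, fun b => ?_,
    fun s => by rw [h.adm.ok.jl]; exact j s⟩, fun b v => congrArg (fun T => T v) (ρ b),
    fun s v => congrArg (fun T => T v) (j s), fun a => ?_⟩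
  · simp only [hg.bo n y hs]; exact b.o ..
  · simp only [← P]; rw [((ha n).ok.cl _).proj b]; exact ρ b
  · have sp : SA I₀ (fun z => (c n).m.p (g.ψ n z)) y := (hg.rel n).sm hs ((ha n).ok.sp _)
    have e1 : dv I₀ ((g.H n).F.e a) (u n) y = dv I₀ ((g.H n).F.e a) (u n) y ∘L (c n).m.p (g.ψ n y) +
        u n y ∘L dv I₀ ((g.H n).F.e a) (fun z => (c n).m.p (g.ψ n z)) y := by
      rw [← dv_ccomp (k.su y hy) sp]
      exact Sob92.dv_congr ((hO.eventually_mem hy).mono fun z hz => (k.iso z hz).idem.symm)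
    have e2 := (hg.rel n).D hs a (u := fun z => (c n).m.p (g.ψ n z)) (.of_forall fun _ => rfl)
    have e3 := eq_neg_of_add_eq_zero_left ((ha n).conn.cc.par a (g.ψ n y))
    rw [Pre.D_def, Pre.D_def, e3] at e2
    have e4 : u n y ∘L (c n).m.p (g.ψ n y) = u n y := i.idem
    rw [e2] at e1
    ext1 v
    have f1 := congrArg (fun T => T v) e1
    have f4 := fun w => congrArg (fun T => T w) e4
    have f5 := congrArg (fun T => T v) uu
    simp only [tW, dA, Pre.D_def, ContinuousLinearMap.comp_apply, _root_.add_apply, _root_.sub_apply,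
      _root_.neg_apply, mul_apply_eq_comp, map_sub, map_neg] at f1 f4 f5 ⊢
    rw [f5, f4, f1, f4]
    abel

omit ha in
/-- covariant derivatives -/
theorem cv_nab {V : α → Type} [∀ n, NormedAddCommGroup (V n)] [∀ n, NormedSpace ℝ (V n)]
    {V' : Type} [NormedAddCommGroup V'] [NormedSpace ℝ V'] [FiniteDimensional ℝ V']
    {T : ∀ n, M → V n →L[ℝ] V'} {A : ∀ n, ι → X n → V n →L[ℝ] V n} {A₁ : α → ι → M → V' →L[ℝ] V'}
    {A' : ι → M → V' →L[ℝ] V'} (hA : ∀ a, Cv I₀ g.l Sᶜ (fun n => A₁ n a) (A' a))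
    (hT : ∀ x ∉ S, ∀ᶠ q in (g.l : Filter α) ×ˢ 𝓝 x, SA I₀ (T q.1) q.2 ∧
      Itw I₀ (g.H q.1).F.e (fun a y => A q.1 a (g.ψ q.1 y)) (A₁ q.1) (T q.1) q.2)
    {s : ∀ n, X n → V n} {s' : M → V'} (sm : ∀ n, Sm I (s n))
    (hs : Cv I₀ g.l Sᶜ (fun n x => T n x (s n (g.ψ n x))) s') (a : ι) :
    Cv I₀ g.l Sᶜ (fun n x => T n x (nab I (g.G n).F.e (A n) a (s n) (g.ψ n x)))
      (nab I₀ g.G₀.F.e A' a s') :=
  ((hg.cv_D h.op hs a).add ((hA a).app hs)).congr (fun x hx =>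
    ((hT x hx).and (hg.src x (h.sub hx))).mono fun q hq => by
      rw [← (hg.rel q.1).nab hq.2 (A := fun a y => A q.1 a (g.ψ q.1 y)) a
        (u := fun y => s q.1 (g.ψ q.1 y)) rfl (.of_forall fun _ => rfl),
        ← hq.1.2.nab hq.1.1.md (SA.md ((hg.rel q.1).sm hq.2 (sm _ _)))]
      rfl) fun _ _ => rfl

/-- the curvature -/
theorem Fg (s : ι × ι) : g.LA c c' S u (fun n x => g.Fg c n x s) fun x => c'.m.Fg g.G₀.F c'.W x s := by
  have spg := Std94.sm_pg hg.B₀ h.adm.ok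
  have D := fun a b => hg.cv_D h.op (h.cW b) a
  have k := (((D s.1 s.2).sub (D s.2 s.1)).add (((h.cW s.1).mul (h.cW s.2)).sub
    ((h.cW s.2).mul (h.cW s.1)))).sub
      (Cv.sum fun k => ((hg.c s.1 s.2 k).mono le_rfl (subset_univ _)).smul (h.cW k))
  refine ⟨Wz78.sm_Fg hg.G₀ h.adm.conn spg s, ((Cv.fixed' spg).app (k.clm hsL)).congr
    (fun x hx => ?_) fun _ _ => rfl⟩
  filter_upwards [ev_ev_prod (h.nr hg ha hx),
    eventually_all.2 fun a => ((h.cW a).mb 0 x hx).smooth] with ⟨n, y⟩ h1 h2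
  have h0 := h1.self_of_nhds
  have k1 := itw_curv (Wz78.frm (g.H n).F) (h1.mono fun _ hz => hz.itw) h0.su
    (fun a => (hg.rel n).sm h0.src ((ha n).conn.cc.sm a _)) h2 s.1 s.2
  rw [(hg.rel n).curv h0.src (A' := (c n).W) fun _ => .of_forall fun _ => rfl] at k1
  have k2 : curv I₀ (g.H n).F.e (g.H n).F.c (g.tW c c' u n) s.1 s.2 y * c'.m.p y =
      u n y ∘L curv I (g.G n).F.e (g.G n).F.c (c n).W s.1 s.2 (g.ψ n y) ∘L trn (u n y) := by
    rw [← h0.me.uu', ← ContinuousLinearMap.comp_assoc, ← k1]; rfl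
  change cj (u n y) ((c n).m.pg _ (hsL _)) = c'.m.pg y (hsL (curv I₀ (g.H n).F.e (g.H n).F.c
    (g.tW c c' u n) s.1 s.2 y))
  rw [← Wz78.pg_mul_p (m := c'.m), k2, ← cj_hsL,
    h0.me.pg h0.be (hg.B n) hg.B₀ (ha n).ok h.adm.ok]

end Lim

section clc
variable (h : g.Lim c c' S u) (hg : g.OK) (ha : ∀ n, (c n).Adm (g.B n) (g.G n))
  {s : ∀ n, X n → (c n).m.V} {s' : M → c'.m.V} {ξ : ∀ n, X n → (c n).m.A} {ξ' : M → c'.m.A}
include h hg ha

theorem LV.nab (k : g.LV c c' S u s s') (sm : ∀ n, Sm I (s n)) (a : ι) :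
    g.LV c c' S u (fun n => nab I (g.G n).F.e (c n).W a (s n)) (nab I₀ g.G₀.F.e c'.W a s') :=
  ⟨Wz78.sm_nab (fun a => h.adm.conn.cc.sm a) a k.sm, h.cv_nab hg (A := fun n => (c n).W) h.cW
    (fun _ hx => (h.nr hg ha hx).mono fun _ hq => ⟨hq.su, hq.itw⟩) sm k.cv a⟩

theorem LA.nab (k : g.LA c c' S u ξ ξ') (sm : ∀ n, Sm I (ξ n)) (a : ι) :
    g.LA c c' S u (fun n => nab I (g.G n).F.e ((c n).m.adW (c n).W) a (ξ n))
      (nab I₀ g.G₀.F.e (c'.m.adW c'.W) a ξ') :=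
  ⟨Wz78.sm_nab (fun a => (con_adW h.adm.conn).sm a) a k.sm,
    h.cv_nab hg (A := fun n => (c n).m.adW (c n).W) (T := fun n x => cj (u n x))
      (A₁ := fun n a x => adT (g.tW c c' u n a x))
      (fun a => ((h.cW a).clm adT).congr (fun _ _ => .of_forall fun _ => rfl)
        fun x _ => (adT_skw (h.adm.conn.sk a x)).symm)
      (fun _ hx => (h.nr hg ha hx).mono fun q hq =>
        ⟨sa_cj hq.su, itw_cj hq.itw hq.su fun a => (ha _).conn.sk a _⟩) sm k.cv a⟩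

theorem LV.lap (k : g.LV c c' S u s s') (sm : ∀ n, Sm I (s n)) :
    g.LV c c' S u (fun n => lap I (g.G n).F.e (g.G n).F.dv (c n).W (s n))
      (lap I₀ g.G₀.F.e g.G₀.F.dv c'.W s') :=
  ⟨Wz78.sm_lap (fun a => h.adm.conn.cc.sm a) k.sm, (Cv.sum fun a =>
    ((k.nab h hg ha sm a).nab h hg ha (fun n => Wz78.sm_nab (fun a => (ha n).conn.cc.sm a) a (sm n))
      a).cv.add (((hg.cv_dv a).mono le_rfl h.sub).smul (k.nab h hg ha sm a).cv)).neg.congr
    (fun _ _ => .of_forall fun _ => by simp only [Wz78.lap, map_neg, map_sum, map_add, map_smul])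
    fun _ _ => rfl⟩

theorem LA.lap (k : g.LA c c' S u ξ ξ') (sm : ∀ n, Sm I (ξ n)) :
    g.LA c c' S u (fun n => lap I (g.G n).F.e (g.G n).F.dv ((c n).m.adW (c n).W) (ξ n))
      (lap I₀ g.G₀.F.e g.G₀.F.dv (c'.m.adW c'.W) ξ') :=
  ⟨Wz78.sm_lap (fun a => (con_adW h.adm.conn).sm a) k.sm, (Cv.sum fun a =>
    ((k.nab h hg ha sm a).nab h hg ha
      (fun n => Wz78.sm_nab (fun a => (con_adW (ha n).conn).sm a) a (sm n))
      a).cv.add (((hg.cv_dv a).mono le_rfl h.sub).smul (k.nab h hg ha sm a).cv)).neg.congr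
    (fun _ _ => .of_forall fun _ => by simp only [Wz78.lap, map_neg, map_sum, map_add, map_smul])
    fun _ _ => rfl⟩

/-- natural endomorphisms -/
theorem LV.map (k : g.LV c c' S u s s') {T : ∀ n, X n → En (Fin (c n).m.N)} {T₁ : α → M → En (Fin c'.m.N)}
    {T' : M → En (Fin c'.m.N)} (sT : Sm I₀ T') (hT : Cv I₀ g.l Sᶜ T₁ T')
    (e : ∀ n y v, g.Nr c c' u n y → T₁ n y (u n y v) = u n y (T n (g.ψ n y) v)) :
    g.LV c c' S u (fun n x => T n x (s n x)) fun x => T' x (s' x) :=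
  ⟨sT.clm_apply k.sm, (hT.app k.cv).congr
    (fun _ hx => (h.nr hg ha hx).mono fun _ hq => (e _ _ _ hq).symm) fun _ _ => rfl⟩

theorem LV.dir (k : g.LV c c' S u s s') (sm : ∀ n, Sm I (s n)) :
    g.LV c c' S u (fun n => dir I (g.G n).F.e (c n).m.ρ (c n).W (s n))
      (dir I₀ g.G₀.F.e c'.m.ρ c'.W s') :=
  have k := fun a => (k.nab h hg ha sm a).map h hg ha (T := fun n => (c n).m.ρ a) (h.adm.ok.sρ a)
    (Cv.fixed' (h.adm.ok.sρ a)) fun _ _ _ hq => hq.ρ ..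
  ⟨fun x => SA.sum _ fun a _ => (k a).sm x, (Cv.sum fun a => (k a).cv).congr
    (fun _ _ => .of_forall fun _ => map_sum ..) fun _ _ => rfl⟩

theorem LV.q {t : ∀ n, X n → (c n).m.V} {t' : M → c'.m.V} (k : g.LV c c' S u s s')
    (k' : g.LV c c' S u t t') :
    g.LA c c' S u (fun n x => (c n).m.q x (s n x) (t n x)) fun x => c'.m.q x (s' x) (t' x) :=
  have spg := Std94.sm_pg hg.B₀ h.adm.ok
  ⟨spg.clm_apply (((rkL (κ := Fin c'.m.N)).contDiff.contMDiff.comp k.sm).clm_apply k'.sm),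
    ((Cv.fixed' spg).app (k.cv.bil rkL k'.cv)).congr (fun _ hx => (h.nr hg ha hx).mono fun _ hq =>
      (hq.me.q hq.be (hg.B _) hg.B₀ (ha _).ok h.adm.ok _ _).symm) fun _ _ => rfl⟩

theorem LA.p2 {η : ∀ n, X n → Fm (ι × ι) (c n).m.A} {η' : M → Fm (ι × ι) c'.m.A}
    (k : ∀ t, g.LA c c' S u (fun n x => η n x t) fun x => η' x t) (t : ι × ι) :
    g.LA c c' S u (fun n x => (c n).m.p2 (g.B n) x (η n x) t) fun x => c'.m.p2 g.B₀ x (η' x) t := by
  have spg := Std94.sm_pg hg.B₀ h.adm.ok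
  have sd : ∀ t', Sm I₀ fun x => g.B₀.sd x t t' := fun t' =>
    ((((((hg.B₀.sP _ _).mul (hg.B₀.sP _ _)).sub ((hg.B₀.sP _ _).mul (hg.B₀.sP _ _))).div_const 2).add
      ((hg.B₀.so _ _ _ _).div_const 2)).div_const 2)
  simp only [Md.p2, Wz78.idx_apply]
  refine ⟨fun x => SA.sum _ fun a _ => SA.smul (sd a x) ((spg x).clm_apply ((k a).sm x)),
    (Cv.sum fun a => (Cv.fixed' (sd a)).smul ((Cv.fixed' spg).app (k a).cv)).congr
      (fun _ hx => (h.nr hg ha hx).mono fun _ hq => ?_) fun _ _ => rfl⟩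
  simp only [map_sum, map_smul, hg.sd_eq hq.src, hq.me.pg hq.be (hg.B _) hg.B₀ (ha _).ok h.adm.ok]

theorem LV.le (k : g.LV c c' S u s s') (p : ∀ n x, (c n).m.p x (s n x) = s n x) {C : ℝ}
    (b : ∀ᶠ n in (g.l : Filter α), ∀ x, ‖s n x‖ ≤ C) (x : M) : ‖s' x‖ ≤ C :=
  (isClosed_le k.sm.continuous.norm continuous_const).closure_subset_iff.2 (fun y hy =>
    k.cv.mem_closed hy (isClosed_le continuous_norm continuous_const)
      (((h.nr hg ha hy).curry.and b).mono fun n hn =>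
        (hn.1.self_of_nhds.me.norm (p _ _)).trans_le (hn.2 _))) (dense_of_fin (I₀ := I₀) hg.h4 h.fin x)

theorem Nr.norm_cj {n : α} {y : M} (k : g.Nr c c' u n y) {a : (c n).m.A}
    (p : a ∈ (c n).m.gS (g.ψ n y)) : ‖cj (u n y) a‖ = ‖a‖ := by
  rw [norm_eq_sqrt_real_inner, k.me.inner_cj _ p, ← norm_eq_sqrt_real_inner]

theorem LA.le (k : g.LA c c' S u ξ ξ') (p : ∀ n x, ξ n x ∈ (c n).m.gS x) {C : ℝ}
    (b : ∀ᶠ n in (g.l : Filter α), ∀ x, ‖ξ n x‖ ≤ C) (x : M) : ‖ξ' x‖ ≤ C :=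
  (isClosed_le k.sm.continuous.norm continuous_const).closure_subset_iff.2 (fun y hy =>
    k.cv.mem_closed hy (isClosed_le continuous_norm continuous_const)
      (((h.nr hg ha hy).curry.and b).mono fun n hn =>
        (hn.1.self_of_nhds.norm_cj h hg ha (p _ _)).trans_le (hn.2 _))) (dense_of_fin (I₀ := I₀) hg.h4 h.fin x)

omit ha

theorem LV.unique {s'' : M → c'.m.V} (k : g.LV c c' S u s s') (k' : g.LV c c' S u s s'') : s' = s'' :=
  h.ext hg k.sm.continuous k'.sm.continuous fun _ hx => k.cv.unique k'.cv hx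

theorem LA.unique {ξ'' : M → c'.m.A} (k : g.LA c c' S u ξ ξ') (k' : g.LA c c' S u ξ ξ'') : ξ' = ξ'' :=
  h.ext hg k.sm.continuous k'.sm.continuous fun _ hx => k.cv.unique k'.cv hx

omit h hg

theorem LV.add {t : ∀ n, X n → (c n).m.V} {t' : M → c'.m.V} (k : g.LV c c' S u s s')
    (k' : g.LV c c' S u t t') : g.LV c c' S u (fun n x => s n x + t n x) fun x => s' x + t' x :=
  ⟨k.sm.add k'.sm, (k.cv.add k'.cv).congr (fun _ _ => .of_forall fun _ => map_add ..) fun _ _ => rfl⟩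

theorem LA.add {t : ∀ n, X n → (c n).m.A} {t' : M → c'.m.A} (k : g.LA c c' S u ξ ξ')
    (k' : g.LA c c' S u t t') : g.LA c c' S u (fun n x => ξ n x + t n x) fun x => ξ' x + t' x :=
  ⟨k.sm.add k'.sm, (k.cv.add k'.cv).congr (fun _ _ => .of_forall fun _ => map_add ..) fun _ _ => rfl⟩

theorem LV.smul {f : ∀ n, X n → ℝ} {f' : M → ℝ} (sf : Sm I₀ f')
    (hf : Cv I₀ g.l Sᶜ (fun n x => f n (g.ψ n x)) f') (k : g.LV c c' S u s s') :
    g.LV c c' S u (fun n x => f n x • s n x) fun x => f' x • s' x :=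
  ⟨sf.smul k.sm, (hf.smul k.cv).congr (fun _ _ => .of_forall fun _ => map_smul ..) fun _ _ => rfl⟩

theorem LA.smul {f : ∀ n, X n → ℝ} {f' : M → ℝ} (sf : Sm I₀ f')
    (hf : Cv I₀ g.l Sᶜ (fun n x => f n (g.ψ n x)) f') (k : g.LA c c' S u ξ ξ') :
    g.LA c c' S u (fun n x => f n x • ξ n x) fun x => f' x • ξ' x :=
  ⟨sf.smul k.sm, (hf.smul k.cv).congr (fun _ _ => .of_forall fun _ => map_smul ..) fun _ _ => rfl⟩

theorem LV.sum {κ : Type} [Fintype κ] {t : κ → ∀ n, X n → (c n).m.V} {t' : κ → M → c'.m.V}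
    (k : ∀ i, g.LV c c' S u (t i) (t' i)) :
    g.LV c c' S u (fun n x => ∑ i, t i n x) fun x => ∑ i, t' i x :=
  ⟨fun x => SA.sum _ fun i _ => (k i).sm x, (Cv.sum fun i => (k i).cv).congr
    (fun _ _ => .of_forall fun _ => map_sum ..) fun _ _ => rfl⟩

theorem LA.sum {κ : Type} [Fintype κ] {t : κ → ∀ n, X n → (c n).m.A} {t' : κ → M → c'.m.A}
    (k : ∀ i, g.LA c c' S u (t i) (t' i)) :
    g.LA c c' S u (fun n x => ∑ i, t i n x) fun x => ∑ i, t' i x :=
  ⟨fun x => SA.sum _ fun i _ => (k i).sm x, (Cv.sum fun i => (k i).cv).congr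
    (fun _ _ => .of_forall fun _ => map_sum ..) fun _ _ => rfl⟩

end clc

end Gs

end Crest.Agent.X212.Cmp73
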