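import Crest.Agent.X212.Cmp73.Wq
import Crest.Agent.X212.Cmp73.Lvc
import Crest.Agent.X212.Mon62.REx

/-!
# X212 / COMP (helper73), part 14: the calculus of convergent fields
-/

set_option autoImplicit false
set_option linter.unusedSectionVars false
open Set Filter Topology Function MeasureTheory
open scoped ContDiff Manifold InnerProductSpace NNReal ENNReal

noncomputable section
namespace Crest.Agent.X212.Cmp73

open An Eqv71
open Wz78 (nab lap dir SA)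

section germ
variable {E : Type} [NormedAddCommGroup E] [NormedSpace ℝ E] {HM : Type} [TopologicalSpace HM]
  {I : ModelWithCorners ℝ E HM} {ι : Type} [Fintype ι]

theorem Dw_congr {N : Type} [TopologicalSpace N] [ChartedSpace HM N] [IsManifold I ∞ N]
    {V : Type} [NormedAddCommGroup V] [NormedSpace ℝ V] {e : ι → (x : N) → TangentSpace I x}
    {A : ι → N → V →L[ℝ] V} {x : N} :
    ∀ (v : List ι) {u w : N → V}, u =ᶠ[𝓝 x] w → Dw I e A v u x = Dw I e A v w x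
  | [], _, _, h => h.eq_of_nhds
  | a :: v, _, _, h => Dw_congr v (h.eventually_nhds.mono fun _ hy => Wz78.nab_congr a hy)

variable {α : Type} {X : α → Type} [∀ n, TopologicalSpace (X n)] [∀ n, ChartedSpace HM (X n)]
  [∀ n, IsManifold I ∞ (X n)] {V : α → Type} [∀ n, NormedAddCommGroup (V n)]
  [∀ n, NormedSpace ℝ (V n)] {A : ∀ n, ι → X n → V n →L[ℝ] V n} {s t : ∀ n, X n → V n}

theorem Wt.congr_ev {C : Ctx I ι X} {σ : ℕ → ℕ × ℕ} (h : Wt C A σ s) (sm : ∀ n, Sm I (t n))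
    (e : ∀ᶠ q in C.F, t q.1 =ᶠ[𝓝 q.2] s q.1) : Wt C A σ t :=
  ⟨h.sA, sm, fun v => (h.bd v).of_le (e.mono fun _ hq => (congrArg norm (Dw_congr v hq)).le)⟩

theorem PF.congr_ev [∀ n, MeasurableSpace (X n)] {b : Fb I ι X} {L₀ : Sy ι X} {σ : ℕ → ℕ → ℕ × ℕ}
    (h : PF b L₀ σ A s) (sm : ∀ n, Sm I (t n)) (e : ∀ᶠ q in b.F, t q.1 =ᶠ[𝓝 q.2] s q.1) :
    PF b L₀ σ A t := h.one fun _ _ _ _ _ h => h.congr_ev sm e

end germ

variable {E : Type} [NormedAddCommGroup E] [NormedSpace ℝ E] [FiniteDimensional ℝ E]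
  [MeasurableSpace E] [BorelSpace E]
  {HM : Type} [TopologicalSpace HM] {I : ModelWithCorners ℝ E HM} [I.Boundaryless]
  {E₀ : Type} [NormedAddCommGroup E₀] [NormedSpace ℝ E₀] [FiniteDimensional ℝ E₀]
  [MeasurableSpace E₀] [BorelSpace E₀]
  {H₀ : Type} [TopologicalSpace H₀] {I₀ : ModelWithCorners ℝ E₀ H₀} [I₀.Boundaryless]
  {M : Type} [TopologicalSpace M] [ChartedSpace H₀ M] [IsManifold I₀ ∞ M] [MeasurableSpace M]
  [T2Space M] [BorelSpace M] [SecondCountableTopology M]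
  {ι lam : Type} [Fintype ι] [Fintype lam] {α : Type}
  {X : α → Type} [∀ n, TopologicalSpace (X n)] [∀ n, ChartedSpace HM (X n)]
  [∀ n, IsManifold I ∞ (X n)] [∀ n, MeasurableSpace (X n)] [∀ n, T2Space (X n)]
  [∀ n, BorelSpace (X n)] {r m : ℕ} {N : Type} [NormedAddCommGroup N] [NormedSpace ℝ N]

omit [T2Space M] [BorelSpace M] [SecondCountableTopology M] in
theorem norm_rho {B : Base M ι lam} {m : Md M ι lam} (hB : B.OK I₀) (H : m.OK I₀ B) (a : ι) (x : M) :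
    ‖m.ρ a x‖ ≤ 1 := by
  classical
  refine ContinuousLinearMap.opNorm_le_bound _ zero_le_one fun v => ?_
  have := Mp86.norm_cl (hB.pr x) (H.cl x) (fun a => H.ρsk a x) (H.psym x) (H.pidem x) (Pi.single a 1) v
  simp only [Pi.single_apply, ite_smul, one_smul, zero_smul, Finset.sum_ite_eq', Finset.mem_univ,
    if_true, ite_pow, one_pow, ne_eq, OfNat.ofNat_ne_zero, not_false_eq_true, zero_pow, one_mul] at this
  rw [one_mul]; exact (abs_le_of_sq_le_sq' this (norm_nonneg _)).2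

namespace Gs
variable {g : Gs I I₀ M ι lam X} {c : ∀ n, Cfg (X n) ι lam r}

theorem ev_F {U : Set M} {x : M} {p : ∀ n, X n → Prop} (h : ∀ᶠ n in (g.l : Filter α), ∀ y, p n y) :
    ∀ᶠ q in g.F U x, p q.1 q.2 :=
  eventually_map.2 (nF_le ((h.prod_inl _).mono fun _ hq => hq _))

/-- properties near the points off `P` hold on neighbourhoods upstairs -/
theorem OK.ev_nhds (hg : g.OK) {p : ∀ n, X n → Prop}
    (h : ∀ y ∉ g.P, ∀ᶠ q in (g.l : Filter α) ×ˢ 𝓝 y, p q.1 (g.ψ q.1 q.2)) (x : M) :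
    ∀ᶠ q in g.F g.Pᶜ x, ∀ᶠ z in 𝓝 q.2, p q.1 z :=
  eventually_map.2 (ev_nF.2 (eventually_nhdsWithin_of_forall fun y hy =>
    ((ev_ev_prod (p := fun n y => p n (g.ψ n y)) (h y hy)).and (hg.src y hy)).mono fun q hq => by
      rw [← (g.ψ q.1).map_nhds_eq hq.2]; exact hq.1))

namespace UB
variable {V W U : α → Type} [∀ n, NormedAddCommGroup (V n)] [∀ n, NormedAddCommGroup (W n)]
  [∀ n, NormedAddCommGroup (U n)] {s s' : ∀ n, X n → V n} {t : ∀ n, X n → W n} {u : ∀ n, X n → U n}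

theorem bd [∀ n, NormedSpace ℝ (V n)] (h : g.UB s) (U : Set M) (x : M) : (g.fb c (g.F U x)).Bd s :=
  h.imp fun _ => ev_F

theorem of_le (h : g.UB s) (e : ∀ n x, ‖t n x‖ ≤ ‖s n x‖) : g.UB t :=
  h.imp fun _ k => k.mono fun n hn x => (e n x).trans (hn x)

theorem cst {C : ℝ} (e : ∀ n x, ‖t n x‖ ≤ C) : g.UB t := ⟨C, .of_forall e⟩

theorem mul (h : g.UB s) (h' : g.UB t) (e : ∀ n x, ‖u n x‖ ≤ ‖s n x‖ * ‖t n x‖) : g.UB u :=
  let ⟨C, k⟩ := h; let ⟨C', k'⟩ := h'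
  ⟨C * C', (k.and k').mono fun n hn x => (e n x).trans
    (mul_le_mul (hn.1 x) (hn.2 x) (norm_nonneg _) ((norm_nonneg _).trans (hn.1 x)))⟩

theorem add' (h : g.UB s) (h' : g.UB t) (e : ∀ n x, ‖u n x‖ ≤ ‖s n x‖ + ‖t n x‖) : g.UB u :=
  let ⟨C, k⟩ := h; let ⟨C', k'⟩ := h'
  ⟨C + C', (k.and k').mono fun n hn x => (e n x).trans (add_le_add (hn.1 x) (hn.2 x))⟩

theorem add (h : g.UB s) (h' : g.UB s') : g.UB fun n x => s n x + s' n x :=
  h.add' h' fun _ _ => norm_add_le _ _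

theorem fm {κ : Type} [Fintype κ] {η : ∀ n, X n → Fm κ (V n)} (h : ∀ i, g.UB fun n x => η n x i) :
    g.UB η := by
  choose C k using h
  refine ⟨∑ i, C i, (eventually_all.2 k).mono fun n hn x => (abs_le_of_sq_le_sq' ?_
    (Finset.sum_nonneg fun i _ => (norm_nonneg _).trans (hn i x))).2⟩
  rw [PiLp.norm_sq_eq_of_L2]
  exact (Finset.sum_le_sum fun i _ => pow_le_pow_left₀ (norm_nonneg _) (hn i x) 2).trans
    (Finset.sum_sq_le_sq_sum_of_nonneg fun i _ => (norm_nonneg _).trans (hn i x))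

end UB

theorem Bk.gx (k : g.Bk c) (x : M) : Gx g.B g.G c (g.F g.Pᶜ x) :=
  ⟨k.ok.B, k.ok.G, fun n => (k.adm n).ok, fun n => (k.adm n).conn, fun n => (k.adm n).sm,
    fun n => (k.adm n).pos, k.core.gb x⟩

theorem sub_S : (g.S c)ᶜ ⊆ g.Pᶜ := compl_subset_compl.2 subset_union_left

/-! ### functions -/

section QS
variable {f f₁ : ∀ n, X n → ℝ} {f' f₁' : Cfg M ι lam r → M → ℝ}

theorem FC.qs {f' : M → ℝ} (h : g.FC c f f') : g.QS c f fun _ => f' :=
  ⟨fun x => (h.cb x).pf, h.bd, fun _ _ _ => ⟨h.sm, h.cv.mono le_rfl sub_S⟩⟩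

theorem FC.le (hg : g.OK) {f : ∀ n, X n → N} {f' : M → N} (h : g.FC c f f') : ∃ C, ∀ x, ‖f' x‖ ≤ C :=
  h.bd.imp fun _ k x => (isClosed_le h.sm.continuous.norm continuous_const).closure_subset_iff.2
    (fun _ hy => h.cv.mem_closed hy (isClosed_le continuous_norm continuous_const) (k.mono fun _ hn => hn _))
    (dense_of_fin (I₀ := I₀) hg.h4 (fun _ _ => hg.fin.inter_of_left _) x)

theorem FC.mul {f' f₁' : M → ℝ} (h : g.FC c f f') (h' : g.FC c f₁ f₁') :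
    g.FC c (fun n x => f n x * f₁ n x) fun x => f' x * f₁' x :=
  ⟨fun x => (h.cb x).mul (h'.cb x) cn00, h.bd.mul h'.bd fun _ _ => norm_mul_le _ _, h.sm.mul h'.sm,
    h.cv.mul h'.cv⟩

theorem QS.congr (h : g.QS c f f') (e : ∀ n x, f₁ n x = f n x) (e' : ∀ b x, f₁' b x = f' b x) :
    g.QS c f₁ f₁' := by
  rwa [show f₁ = f from funext₂ e, show f₁' = f' from funext₂ e']

theorem QS.mul (h : g.QS c f f') (h' : g.QS c f₁ f₁') :
    g.QS c (fun n x => f n x * f₁ n x) fun b x => f' b x * f₁' b x :=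
  ⟨fun x => (h.pf x).smul (h'.pf x), h.bd.mul h'.bd fun _ _ => norm_mul_le _ _, fun b u k =>
    ⟨(h.lim b u k).1.mul (h'.lim b u k).1, (h.lim b u k).2.mul (h'.lim b u k).2⟩⟩

theorem QS.cst {z : α → ℝ} {z' : Cfg M ι lam r → ℝ} {C : ℝ} (h : g.QC c z z')
    (b : ∀ᶠ n in (g.l : Filter α), |z n| ≤ C) : g.QS c (fun n _ => z n) fun b _ => z' b :=
  ⟨fun _ => Fb.CB.pf (Wt.cst (ev_F (p := fun n _ => |z n| ≤ C) (b.mono fun _ h _ => h))),
    ⟨C, b.mono fun _ h _ => h⟩, fun _ _ k => ⟨contMDiff_const, Cv.consts (h _ _ k)⟩⟩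

theorem QS.one : g.QS c (fun _ _ => 1) fun _ _ => 1 :=
  QS.cst (C := 1) (fun _ _ _ => tendsto_const_nhds) (by simp)

end QS

variable (k : g.Bk c) {s t : ∀ n, X n → (c n).m.V} {s' t' : ∀ b : Cfg M ι lam r, M → b.m.V}
  {ξ η : ∀ n, X n → (c n).m.A} {ξ' η' : ∀ b : Cfg M ι lam r, M → b.m.A}
  {f : ∀ n, X n → ℝ} {f' : Cfg M ι lam r → M → ℝ}

/-! ### spinor fields -/

namespace QV

theorem congr (h : g.QV c s s') (e : ∀ n x, t n x = s n x) (e' : ∀ b x, t' b x = s' b x) :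
    g.QV c t t' := by
  rwa [show t = s from funext fun n => funext (e n), show t' = s' from funext fun n => funext (e' n)]

theorem add (h : g.QV c s s') (h' : g.QV c t t') :
    g.QV c (fun n x => s n x + t n x) fun b x => s' b x + t' b x :=
  ⟨fun x => (h.pf x).add (h'.pf x), fun n x => by rw [map_add, h.p, h'.p], h.bd.add h'.bd,
    fun b u k => (h.lim b u k).add (h'.lim b u k)⟩

theorem smul (hf : g.QS c f f') (h : g.QV c s s') :
    g.QV c (fun n x => f n x • s n x) fun b x => f' b x • s' b x :=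
  ⟨fun x => (hf.pf x).smul (h.pf x), fun n x => by rw [map_smul, h.p],
    hf.bd.mul h.bd fun _ _ => (norm_smul _ _).le,
    fun b u k => LV.smul (hf.lim b u k).1 (hf.lim b u k).2 (h.lim b u k)⟩

include k

theorem zero : g.QV c 0 0 :=
  ⟨fun x => .zero (k.gx x).sV, fun _ _ => map_zero _, .cst fun _ _ => norm_zero.le, fun _ _ _ =>
    ⟨contMDiff_const, (Cv.const 0).congr (fun _ _ => .of_forall fun _ => map_zero _) fun _ _ => rfl⟩⟩

theorem fsum {κ : Type*} (T : Finset κ) {w : κ → ∀ n, X n → (c n).m.V}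
    {w' : κ → ∀ b : Cfg M ι lam r, M → b.m.V} (h : ∀ i ∈ T, g.QV c (w i) (w' i)) :
    g.QV c (fun n x => ∑ i ∈ T, w i n x) fun b x => ∑ i ∈ T, w' i b x := by
  classical
  induction T using Finset.induction_on with
  | empty => exact zero k
  | insert a T ha ih =>
    simp only [Finset.sum_insert ha]
    exact (h a (by simp)).add (ih fun i hi => h i (by simp [hi]))

/-- only the values near the points of `M` matter -/
theorem congr_ev (h : g.QV c s s') (sm : ∀ n, Sm I (t n)) (p : ∀ n x, (c n).m.p x (t n x) = t n x)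
    (bd : g.UB t) (e : ∀ y ∉ g.P, ∀ᶠ q in (g.l : Filter α) ×ˢ 𝓝 y, t q.1 (g.ψ q.1 q.2) = s q.1 (g.ψ q.1 q.2)) :
    g.QV c t s' :=
  ⟨fun x => (h.pf x).congr_ev sm (k.ok.ev_nhds (p := fun n y => t n y = s n y) e x), p, bd,
    fun b u l => ⟨(h.lim b u l).sm, (h.lim b u l).cv.congr
      (fun y hy => (e y (sub_S hy)).mono fun _ hq => by rw [hq]) fun _ _ => rfl⟩⟩

theorem Φ : g.QV c (fun n => (c n).Φ) fun b => b.Φ :=
  ⟨fun x => PF.wP (pf_iff.2 (.of fun _ hL _ _ _ => (k.gx x).wt_Φ hL (k.Φ.bd _ x))),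
    fun n x => by rw [← (k.adm n).pos, ← mul_apply_eq_comp, Wz78.p_pp (k.adm n).ok], k.Φ,
    fun _ _ l => ⟨l.lim.adm.sm, l.lim.Φ⟩⟩

theorem map (h : g.QV c s s') {T : ∀ n, X n → En (Fin (c n).m.N)}
    {T' : ∀ b : Cfg M ι lam r, M → En (Fin b.m.N)} (cb : ∀ x, (g.fb c (g.F g.Pᶜ x)).CB (WE c) T)
    (bd : g.UB T) (p : ∀ n x v, (c n).m.p x v = v → (c n).m.p x (T n x v) = T n x v)
    (lim : ∀ b u, g.LB c b u → Sm I₀ (T' b) ∧ ∃ T₁, Cv I₀ g.l (g.S c)ᶜ T₁ (T' b) ∧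
      ∀ n y v, g.Nr c b u n y → T₁ n y (u n y v) = u n y (T n (g.ψ n y) v)) :
    g.QV c (fun n x => T n x (s n x)) fun b x => T' b x (s' b x) :=
  ⟨fun x => (h.pf x).cb (k.gx x).sV (cb x) fun _ => sP_mono, fun n x => p n x _ (h.p n x),
    bd.mul h.bd fun _ _ => ContinuousLinearMap.le_opNorm _ _, fun b u l =>
      let ⟨a1, _, a2, a3⟩ := lim b u l; (h.lim b u l).map l.lim k.ok k.adm a1 a2 a3⟩

theorem ρ (h : g.QV c s s') (a : ι) :
    g.QV c (fun n x => (c n).m.ρ a x (s n x)) fun b x => b.m.ρ a x (s' b x) :=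
  h.map k (T := fun n => (c n).m.ρ a) (T' := fun b => b.m.ρ a) (fun x => (k.gx x).cb_ρ a)
    (.cst fun n => norm_rho (k.ok.B n) (k.adm n).ok a)
    (fun n x v _ => by rw [← mul_apply_eq_comp, ((k.adm n).ok.cl x).pl]) fun _ _ l =>
      ⟨l.lim.adm.ok.sρ a, _, Cv.fixed' (l.lim.adm.ok.sρ a), fun _ _ _ hq => hq.ρ ..⟩

theorem J (h : g.QV c s s') : g.QV c (fun n x => (c n).m.J (s n x)) fun b x => b.m.J (s' b x) :=
  h.map k (T := fun n _ => (c n).m.J) (T' := fun b _ => b.m.J) (fun x => (k.gx x).cb_J)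
    (.cst fun n _ => norm_J (k.adm n).ok.Jsq (k.adm n).ok.Jsk)
    (fun n x v hv => by rw [← mul_apply_eq_comp, ← (k.adm n).ok.Jp, mul_apply_eq_comp, hv])
    fun _ _ _ => ⟨contMDiff_const, _, Cv.const _, fun _ _ _ hq => hq.me.J_apply _⟩

theorem pm (h : g.QV c s s') :
    g.QV c (fun n x => (c n).m.pm (g.B n) x (s n x)) fun b x => b.m.pm g.B₀ x (s' b x) :=
  h.map k (T := fun n => (c n).m.pm (g.B n)) (T' := fun b => b.m.pm g.B₀) (fun x => (k.gx x).cb_pm)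
    (.cst fun n _ => norm_proj (Wz78.pm_sym (k.ok.B _) (k.adm n).ok _) (Wz78.pm_pm (k.ok.B _) (k.adm n).ok _))
    (fun n x v _ => by rw [← mul_apply_eq_comp, Wz78.p_pm (k.adm n).ok]) fun _ _ l =>
      have := Wz78.sm_pm l.lim.adm.ok k.ok.B₀
      ⟨this, _, Cv.fixed' this, fun n _ _ hq => hq.me.pm hq.be (k.ok.B n) k.ok.B₀ (k.adm n).ok _⟩

theorem j (h : g.QV c s s') {σ : ∀ n, X n → Eu lam} {σ' : M → Eu lam} (hσ : g.FC c σ σ') :
    g.QV c (fun n x => (c n).m.j x (σ n x) (s n x)) fun b x => b.m.j x (σ' x) (s' b x) :=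
  h.map k (T := fun n x => (c n).m.j x (σ n x)) (T' := fun b x => b.m.j x (σ' x))
    (fun x => (k.gx x).cb_j (hσ.cb x)) (hσ.bd.of_le fun n x => ContinuousLinearMap.opNorm_le_bound _
      (norm_nonneg _) (Mp86.norm_j (k.ok.B n) (k.adm n).ok x _))
    (fun n x v _ => by rw [← mul_apply_eq_comp, (k.adm n).ok.pj]) fun _ _ l =>
      ⟨l.lim.adm.ok.sj.clm_apply hσ.sm, _, (Cv.fixed' l.lim.adm.ok.sj).app (hσ.cv.mono le_rfl sub_S),
        fun _ _ _ hq => hq.j ..⟩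

theorem cl (h : g.QV c s s') {a : ∀ n, X n → ℝ} {a' : M → ℝ} (ha : g.FD c a a') :
    g.QV c (fun n x => ∑ i, (g.G n).F.D i (a n) x • (c n).m.ρ i x (s n x))
      fun b x => ∑ i, g.G₀.F.D i a' x • b.m.ρ i x (s' b x) :=
  fsum k _ fun i _ => smul (ha i).qs (h.ρ k i)

theorem cs (h : g.QV c s s') {z : α → ℂ} {z' : Cfg M ι lam r → ℂ} (hz : g.QC c z z') {C : ℝ}
    (b : ∀ n, ‖z n‖ ≤ C) :
    g.QV c (fun n x => cs (c n).m.J (z n) (s n x)) fun b x => cs b.m.J (z' b) (s' b x) :=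
  (smul (.cst (fun _ _ l => (Complex.continuous_re.tendsto _).comp (hz _ _ l))
    (.of_forall fun n => (Complex.abs_re_le_norm _).trans (b n))) h).add
  (smul (.cst (fun _ _ l => (Complex.continuous_im.tendsto _).comp (hz _ _ l))
    (.of_forall fun n => (Complex.abs_im_le_norm _).trans (b n))) (h.J k))

theorem res (h : g.QV c s s') (e : ∀ n, Rs (g.G n).F (c n).W (s n) (t n))
    (p : ∀ n x, (c n).m.p x (t n x) = t n x) : g.QV c t fun b => g.G₀.F.res b.W (s' b) := by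
  have bd : g.UB t := h.bd.imp fun C hC => hC.mono fun n hn => (e n).le C hn
  have sm := fun n => (e n).sm
  have pf : ∀ x, g.Pf c x (WV c) t := fun x => have a := k.gx x
    (PF.res (g := fun n => (g.G n).F.dv) a.gb.c a.gb.dv a.kV sm (bd.bd _ x)
      (fun _ _ _ => a.crv_V Sy.Le.rfl sm p) (fun n => (e n).eq) (h.pf x).pL).wP
  refine ⟨pf, p, bd, fun b u l => ?_⟩
  obtain ⟨t', ht⟩ := k.core.V l.hyp b u l.lim _ t pf
  obtain ⟨C, hC⟩ := bd
  obtain ⟨_, hT⟩ := k.tame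
  have e1 := (ht.add (ht.lap l.lim k.ok k.adm sm)).unique l.lim k.ok
    (by simpa only [(e _).eq] using h.lim b u l)
  rwa [Mp86.res_eq (Mp86.bumps_of_tame _ hT) (Mp86.mc_W l.lim.adm.conn)
    ⟨ht.sm, ⟨C, ht.le l.lim k.ok k.adm p hC⟩, congrFun e1⟩]

theorem inner (h : g.QV c s s') (h' : g.QV c t t') :
    g.QS c (fun n x => ⟪s n x, t n x⟫_ℝ) fun b x => ⟪s' b x, t' b x⟫_ℝ :=
  ⟨fun x => (h.pf x).two (h'.pf x) fun _ _ _ _ _ a b => Wt.inner (k.gx x).kV a b cn_P,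
    h.bd.mul h'.bd fun _ _ => norm_inner_le_norm _ _, fun b u l =>
    ⟨((innerSL ℝ : b.m.V →L[ℝ] b.m.V →L[ℝ] ℝ).contDiff.contMDiff.comp (h.lim b u l).sm).clm_apply
      (h'.lim b u l).sm, ((h.lim b u l).cv.bil (innerSL ℝ) (h'.lim b u l).cv).congr
      (fun _ hy => (l.lim.nr k.ok k.adm hy).mono fun _ hq =>
        ((hq.me.inner _ _).trans (by rw [h'.p])).symm) fun _ _ => rfl⟩⟩

/-- integrals against a section of the line with compact support -/
theorem hm (h : g.QV c s s') (h' : g.QV c t t') {σ : ∀ n, X n → Eu lam} {σ' : M → Eu lam}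
    (hσ : g.FK c σ σ') :
    g.QC c (fun n => ∫ x, hm (c n).m.J ((c n).m.j x (σ n x) (s n x)) (t n x) ∂(g.G n).F.μ)
      fun b => ∫ x, hm b.m.J (b.m.j x (σ' x) (s' b x)) (t' b x) ∂g.G₀.F.μ := fun b u l => by
  obtain ⟨K, hK, hP, k1, k2⟩ := hσ.K
  have e : ∀ {κ : Type} [Fintype κ] (J : En κ) (v w : Eu κ),
      An.hm J v w = ⟪v, w⟫_ℝ • (1 : ℂ) - ⟪v, J w⟫_ℝ • Complex.I := fun J v w => by
    apply Complex.ext <;> simp [An.hm]
  cases isEmpty_or_nonempty M with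
  | inl _ =>
    simp only [integral_of_isEmpty]
    refine tendsto_const_nhds.congr' (k2.mono fun n hn => ?_)
    simp [fun x => hn x (by simp [eq_empty_of_isEmpty K]), e]
  | inr hM =>
    obtain ⟨x₀⟩ := hM
    have a1 := (h.j k hσ.toFC).inner k h'
    have a2 := (h.j k hσ.toFC).inner k (h'.J k)
    obtain ⟨C, hC⟩ := a1.bd.add' a2.bd (u := fun n x => An.hm (c n).m.J ((c n).m.j x (σ n x) (s n x)) (t n x))
      fun n x => by rw [e]; exact (norm_sub_le _ _).trans (by simp)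
    simp only [e] at hC ⊢
    refine k.int _ l.lim.P l.lim.fin _ _ K C hK hP (fun n => (((a1.pf x₀).sm n).continuous.smul
      continuous_const).sub (((a2.pf x₀).sm n).continuous.smul continuous_const))
      (((a1.lim b u l).1.continuous.smul continuous_const).sub
        ((a2.lim b u l).1.continuous.smul continuous_const))
      (((a1.lim b u l).2.smul (Cv.const _)).sub ((a2.lim b u l).2.smul (Cv.const _)))
      (fun x hx => by simp [k1 x hx]) ((hC.and k2).mono fun n hn => ⟨hn.1, fun x hx => by simp [hn.2 x hx]⟩)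

end QV

/-! ### sections of `g` -/

namespace QA

theorem congr (h : g.QA c ξ ξ') (e : ∀ n x, η n x = ξ n x) (e' : ∀ b x, η' b x = ξ' b x) :
    g.QA c η η' := by
  rwa [show η = ξ from funext fun n => funext (e n), show η' = ξ' from funext fun n => funext (e' n)]

theorem add (h : g.QA c ξ ξ') (h' : g.QA c η η') :
    g.QA c (fun n x => ξ n x + η n x) fun b x => ξ' b x + η' b x :=
  ⟨fun x => (h.pf x).add (h'.pf x), fun n x => add_mem (h.p n x) (h'.p n x), h.bd.add h'.bd,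
    fun b u k => (h.lim b u k).add (h'.lim b u k)⟩

theorem smul (hf : g.QS c f f') (h : g.QA c ξ ξ') :
    g.QA c (fun n x => f n x • ξ n x) fun b x => f' b x • ξ' b x :=
  ⟨fun x => (hf.pf x).smul (h.pf x), fun n x => Submodule.smul_mem _ _ (h.p n x),
    hf.bd.mul h.bd fun _ _ => (norm_smul _ _).le,
    fun b u k => LA.smul (hf.lim b u k).1 (hf.lim b u k).2 (h.lim b u k)⟩

include k

theorem zero : g.QA c 0 0 :=
  ⟨fun x => .zero (k.gx x).sA, fun _ _ => zero_mem _, .cst fun _ _ => norm_zero.le, fun _ _ _ =>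
    ⟨contMDiff_const, (Cv.const 0).congr (fun _ _ => .of_forall fun _ => map_zero _) fun _ _ => rfl⟩⟩

theorem fsum {κ : Type*} (T : Finset κ) {w : κ → ∀ n, X n → (c n).m.A}
    {w' : κ → ∀ b : Cfg M ι lam r, M → b.m.A} (h : ∀ i ∈ T, g.QA c (w i) (w' i)) :
    g.QA c (fun n x => ∑ i ∈ T, w i n x) fun b x => ∑ i ∈ T, w' i b x := by
  classical
  induction T using Finset.induction_on with
  | empty => exact zero k
  | insert a T ha ih =>
    simp only [Finset.sum_insert ha]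
    exact (h a (by simp)).add (ih fun i hi => h i (by simp [hi]))

theorem congr_ev (h : g.QA c ξ ξ') (sm : ∀ n, Sm I (η n)) (p : ∀ n x, η n x ∈ (c n).m.gS x)
    (bd : g.UB η) (e : ∀ y ∉ g.P, ∀ᶠ q in (g.l : Filter α) ×ˢ 𝓝 y, η q.1 (g.ψ q.1 q.2) = ξ q.1 (g.ψ q.1 q.2)) :
    g.QA c η ξ' :=
  ⟨fun x => (h.pf x).congr_ev sm (k.ok.ev_nhds (p := fun n y => η n y = ξ n y) e x), p, bd,
    fun b u l => ⟨(h.lim b u l).sm, (h.lim b u l).cv.congr
      (fun y hy => (e y (sub_S hy)).mono fun _ hq => by rw [hq]) fun _ _ => rfl⟩⟩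

theorem q (h : g.QV c s s') (h' : g.QV c t t') :
    g.QA c (fun n x => (c n).m.q x (s n x) (t n x)) fun b x => b.m.q x (s' b x) (t' b x) :=
  ⟨fun x => (h.pf x).two (h'.pf x) fun _ _ _ _ _ a b => (k.gx x).wt_q a b cn_P,
    fun _ _ => Wz78.q_mem .., h.bd.mul h'.bd fun _ _ => Wz78.norm_q ..,
    fun b u l => (h.lim b u l).q l.lim k.ok k.adm (h'.lim b u l)⟩

theorem p2 {θ : ∀ n, X n → Fm (ι × ι) (c n).m.A} {θ' : ∀ b : Cfg M ι lam r, M → Fm (ι × ι) b.m.A}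
    (h : ∀ i, g.QA c (fun n x => θ n x i) fun b x => θ' b x i) (i : ι × ι) :
    g.QA c (fun n x => (c n).m.p2 (g.B n) x (θ n x) i) fun b x => b.m.p2 g.B₀ x (θ' b x) i :=
  ⟨fun x => pf_iff.2 ((Ev.all fun i => ((h i).pf x).ev).mono fun _ _ a dw h3 h4 =>
      (k.gx x).wt_p2 sP_mono (fun i => a i dw h3 h4) i), fun _ _ => Wz78.p2_mem ..,
    (UB.fm fun i => (h i).bd).of_le fun n x => (PiLp.norm_apply_le _ i).trans (Mp86.proj_le
      (Wz78.inner_p2 (k.ok.B n)) (ContinuousLinearMap.ext (Wz78.p2_p2 (k.ok.B n))) _).2.2,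
    fun b u l => LA.p2 l.lim k.ok k.adm (fun i => (h i).lim b u l) i⟩

theorem nem (h : g.QA c ξ ξ') {φ : ℝ → ℝ} (hφ : ContDiff ℝ ∞ φ) :
    g.QS c (fun n x => φ (‖ξ n x‖ ^ 2)) fun b x => φ (‖ξ' b x‖ ^ 2) := by
  refine ⟨fun x => (PF.nem (f := fun n y => ‖ξ n y‖ ^ 2) (((h.pf x).two (h.pf x)
    fun _ _ _ _ _ a b => Wt.inner (k.gx x).kA a b cn_P).congr fun _ _ =>
      (real_inner_self_eq_norm_sq _).symm) isClosed_univ (fun _ _ => trivial)
    (fun _ _ => hφ.contDiffAt) (QS.one.pf x)).congr fun _ _ => (mul_one _).symm, ?_, fun b u l => ?_⟩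
  · obtain ⟨C, hC⟩ := h.bd
    obtain ⟨K, hK⟩ := (isCompact_Icc (a := 0) (b := C ^ 2)).exists_bound_of_continuousOn
      hφ.continuous.continuousOn
    exact ⟨K, hC.mono fun n hn x => hK _ ⟨sq_nonneg _, pow_le_pow_left₀ (norm_nonneg _) (hn x) 2⟩⟩
  · have a : ContDiff ℝ ∞ fun v : b.m.A => φ (‖v‖ ^ 2) := hφ.comp (contDiff_norm_sq ℝ)
    exact ⟨a.contMDiff.comp (h.lim b u l).sm, ((h.lim b u l).cv.post_smooth a).congr (fun y hy =>
      (l.lim.nr k.ok k.adm hy).mono fun _ hq => by rw [hq.norm_cj l.lim k.ok k.adm (h.p _ _)])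
      fun _ _ => rfl⟩

theorem lim_res {b : Cfg M ι lam r} {u : ∀ n, M → CL (c n).m.V b.m.V} (l : g.LB c b u)
    {ξ₁ η₁ : M → b.m.A} (h : g.LA c b (g.S c) u ξ ξ₁) (h' : g.LA c b (g.S c) u η η₁)
    (sm : ∀ n, Sm I (η n))
    (e : ∀ n x, η n x + lap I (g.G n).F.e (g.G n).F.dv (WA c n) (η n) x = ξ n x) (x : M) :
    η₁ x + lap I₀ g.G₀.F.e g.G₀.F.dv (b.m.adW b.W) η₁ x = ξ₁ x :=
  congrFun ((h'.add (h'.lap l.lim k.ok k.adm sm)).unique l.lim k.ok (by simpa only [e] using h)) x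

theorem res (h : g.QA c ξ ξ') (e : ∀ n, Rs (g.G n).F (WA c n) (ξ n) (η n))
    (p : ∀ n x, η n x ∈ (c n).m.gS x) : g.QA c η fun b => g.G₀.F.res (b.m.adW b.W) (ξ' b) := by
  have bd : g.UB η := h.bd.imp fun C hC => hC.mono fun n hn => (e n).le C hn
  have sm := fun n => (e n).sm
  have pf : ∀ x, g.Pf c x (WA c) η := fun x => have a := k.gx x
    (PF.res (g := fun n => (g.G n).F.dv) a.gb.c a.gb.dv a.kA sm (bd.bd _ x)
      (fun _ _ _ => a.crv_A Sy.Le.rfl sm p) (fun n => (e n).eq) (h.pf x).pL).wP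
  refine ⟨pf, p, bd, fun b u l => ?_⟩
  obtain ⟨t', ht⟩ := k.core.A l.hyp b u l.lim _ η pf
  obtain ⟨C, hC⟩ := bd
  obtain ⟨_, hT⟩ := k.tame
  rwa [Mp86.res_eq (Mp86.bumps_of_tame _ hT) (Mp86.mc_adW l.lim.adm.conn) ⟨ht.sm,
    ⟨C, ht.le l.lim k.ok k.adm p hC⟩, lim_res k l (h.lim b u l) ht sm fun n => (e n).eq⟩]

/-- the seed `G G (f F(da, dd))` -/
theorem cv {w : ∀ n, X n → ℝ} (hw : g.WR w) {K : ℝ≥0} {a d : ∀ n, X n → ℝ} {f' a' d' : M → ℝ}
    (hf : g.FC c f f') (ha : g.FD c a a') (hd : g.FD c d d')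
    (e : ∀ n, Cv2 (c n) (g.G n).F K (w n) (cvS (c n) (g.G n).F (f n) (a n) (d n)) (ξ n) (η n)) :
    g.QA c η fun b => g.G₀.F.res (b.m.adW b.W) (g.G₀.F.res (b.m.adW b.W) (cvS b g.G₀.F f' a' d')) := by
  obtain ⟨wm, w', hw', hle⟩ := hw
  have hφ := fun s : ι × ι => (hf.mul (ha s.1)).mul (hd s.2)
  have bd : g.UB η := .cst fun n => (e n).bd
  have l4 : ∀ x, (g.fb c (g.F g.Pᶜ x)).L4 ξ := fun x => by
    have h0 := half_pos (hw'.pos x)
    refine ⟨(w' x / 2)⁻¹.toNNReal ^ 4 * K, {q | w' x / 2 ≤ |w q.1 q.2|}, mem_map.2 ?_, fun n => ?_⟩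
    · filter_upwards [hle x, nF_le ((hw'.sm.continuous.tendsto x |>.eventually
        (le_mem_nhds (half_lt_self (hw'.pos x)))).prod_inr _)] with q h1 h2 using h2.trans h1
    refine (setLIntegral_mono' (g := fun y => ((w' x / 2)⁻¹.toNNReal : ℝ≥0∞) ^ 4 * ‖w n y • ξ n y‖ₑ ^ 4)
      (measurableSet_le measurable_const (wm n).abs) fun y hy => ?_).trans
      ((setLIntegral_le_lintegral _ _).trans ?_)
    · rw [← mul_pow, ← ofReal_norm_eq_enorm, ← ofReal_norm_eq_enorm]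
      refine pow_le_pow_left' (le_of_le_of_eq (ENNReal.ofReal_le_ofReal ?_)
        (ENNReal.ofReal_mul (inv_nonneg.2 h0.le))) 4
      rw [le_inv_mul_iff₀ h0, norm_smul]
      exact mul_le_mul_of_nonneg_right hy (norm_nonneg _)
    · rw [lintegral_const_mul' _ _ (by simp)]
      push_cast
      exact mul_le_mul_right (e n).l4 _
  have p1 : ∀ x, PF (g.fb c (g.F g.Pᶜ x)) (g.bs c) (fun _ => sU 4) (WA c) ξ := fun x =>
    have a := k.gx x
    PF.res4 (g := fun n => (g.G n).F.dv) a.gb.dv a.kA (fun n => (e n).sm₁) (l4 x)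
      (fun _ _ _ => a.crv_A Sy.Le.rfl (fun n => (e n).sm₁) fun n => (e n).m₁) (fun n => (e n).e₁)
      (.sum a.sA fun s => PF.cs ((hφ s).cb x) (pf_iff.2 (.of fun _ hL _ _ _ => a.wt_F hL s))
        fun _ => sU_mono 4)
  have p2 : ∀ x, g.Pf c x (WA c) η := fun x => have a := k.gx x
    (PF.res (g := fun n => (g.G n).F.dv) a.gb.c a.gb.dv a.kA (fun n => (e n).sm) (bd.bd _ x)
      (fun _ _ _ => a.crv_A Sy.Le.rfl (fun n => (e n).sm) fun n => (e n).m) (fun n => (e n).e)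
      (p1 x).uL).wP
  refine ⟨p2, fun n => (e n).m, bd, fun b u l => ?_⟩
  obtain ⟨ξ₁, h1⟩ := k.core.A l.hyp b u l.lim _ ξ p1
  obtain ⟨η₁, h2⟩ := k.core.A l.hyp b u l.lim _ η p2
  obtain ⟨_, hT⟩ := k.tame
  have mc := Mp86.mc_adW l.lim.adm.conn
  have hs : g.LA c b (g.S c) u (fun n => cvS (c n) (g.G n).F (f n) (a n) (d n)) (cvS b g.G₀.F f' a' d') :=
    LA.sum fun s => LA.smul (hφ s).sm ((hφ s).cv.mono le_rfl sub_S) (l.lim.Fg k.ok k.adm s)
  have e1 := lim_res k l hs h1 (fun n => (e n).sm₁) fun n => (e n).e₁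
  choose C hC using fun s => (hφ s).le k.ok
  obtain ⟨C', hC'⟩ := l.bf
  have hv := Mp86.res_spec (Mon62.exists_res_sm hT mc.sm mc.sk hs.sm ⟨∑ s, C s * C', fun x =>
    norm_sum_le_of_le _ fun s _ => (norm_smul _ _).trans_le (mul_le_mul (hC s x)
      ((PiLp.norm_apply_le _ s).trans (hC' x)) (norm_nonneg _) ((norm_nonneg _).trans (hC s x)))⟩)
  set v := g.G₀.F.res (b.m.adW b.W) (cvS b g.G₀.F f' a' d')
  obtain ⟨v1, ⟨R, v2⟩, v3⟩ := Mp86.isRes_smul mc.sm (-1) hv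
  have en : ∀ {V : Type} [NormedAddCommGroup V] (z : V), ENNReal.ofReal ((‖z‖ ^ 2) ^ 2) = ‖z‖ₑ ^ 4 :=
    fun z => by rw [← pow_mul, ENNReal.ofReal_pow (norm_nonneg _), ofReal_norm_eq_enorm]
  have f1 := k.fat _ l.lim.P l.lim.fin (fun n y => ‖w n y • ξ n y‖ₑ ^ 4) _ _ K
    (((Cv.fixed' hw'.sm).smul h1.cv).post_smooth ((contDiff_norm_sq ℝ).pow 2))
    (fun y hy => ((l.lim.nr k.ok k.adm hy).and (le_nF (sub_S hy) (hle y))).mono fun q hq => by
      rw [← en, norm_smul, norm_smul, hq.1.norm_cj l.lim k.ok k.adm ((e _).m₁ _)]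
      refine ENNReal.ofReal_le_ofReal (pow_le_pow_left₀ (sq_nonneg _) (pow_le_pow_left₀ (by positivity)
        (mul_le_mul_of_nonneg_right ?_ (norm_nonneg _)) 2) 2)
      rw [Real.norm_of_nonneg (hw'.pos _).le]; exact hq.2)
    (.of_forall fun n => (e n).l4)
  simp only [en] at f1
  have e2 := k.unq _ _ w' (fun x => ξ₁ x + (-1 : ℝ) • v x) mc hw' (h1.sm.add v1) (fun x => by
    rw [Mp86.lap_add mc.sm h1.sm v1, add_add_add_comm, e1, v3]; simp) (by
    refine (lintegral_mono (g := fun x => 8 * (‖w' x • ξ₁ x‖ₑ ^ 4 + ENNReal.ofReal R ^ 4 * ‖w' x‖ₑ ^ 4))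
      fun x => ?_).trans_lt ?_
    · have := ENNReal.rpow_add_le_mul_rpow_add_rpow ‖w' x • ξ₁ x‖ₑ (ENNReal.ofReal R * ‖w' x‖ₑ)
        (p := 4) (by norm_num)
      rw [show (4 : ℝ) - 1 = 3 by norm_num] at this
      simp only [ENNReal.rpow_ofNat, mul_pow, show (2 : ℝ≥0∞) ^ 3 = 8 by norm_num] at this
      refine le_trans (pow_le_pow_left' ?_ 4) this
      rw [smul_add]
      refine (enorm_add_le _ _).trans (add_le_add_right ?_ _)
      rw [enorm_smul, mul_comm, ← ofReal_norm_eq_enorm]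
      exact mul_le_mul_left (ENNReal.ofReal_le_ofReal (v2 x)) _
    · rw [lintegral_const_mul' _ _ (by simp), lintegral_add_left (f := fun x => ‖w' x • ξ₁ x‖ₑ ^ 4)
        ((hw'.sm.smul h1.sm).continuous.enorm.measurable.pow_const 4), lintegral_const_mul' _ _ (by simp)]
      exact ENNReal.mul_lt_top (by simp) (ENNReal.add_lt_top.2
        ⟨f1.trans_lt ENNReal.coe_lt_top, ENNReal.mul_lt_top (by simp [ENNReal.pow_lt_top]) hw'.l4⟩))
  obtain rfl : ξ₁ = v := funext fun x => by simpa [add_neg_eq_zero] using congrFun e2 x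
  rwa [Mp86.res_eq (Mp86.bumps_of_tame _ hT) mc ⟨h2.sm, ⟨K, h2.le l.lim k.ok k.adm (fun n => (e n).m)
    (.of_forall fun n => (e n).bd)⟩, lim_res k l h1 h2 (fun n => (e n).sm) fun n => (e n).e⟩]

end QA

end Gs

end Crest.Agent.X212.Cmp73
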