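import Crest.Agent.X212.Shi84.Nc
import Crest.Agent.X212.Loc66.Lim
import Crest.Agent.X212.Pj41.Grl
import Crest.Agent.X212.Nka63.B

/-!
# X212 / COMP (helper73), part 22: the level lost in a limit of `Gs`
-/

set_option autoImplicit false
set_option linter.unusedSectionVars false
open Set Filter Topology Function MeasureTheory
open scoped ContDiff Manifold InnerProductSpace NNReal ENNReal

noncomputable section
namespace Crest.Agent.X212.Cmp73

open An Pj41 Shi84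

variable {E : Type} [NormedAddCommGroup E] [NormedSpace ℝ E] [FiniteDimensional ℝ E]
  [MeasurableSpace E] [BorelSpace E]
  {HM : Type} [TopologicalSpace HM] {I : ModelWithCorners ℝ E HM} [I.Boundaryless]
  {E₀ : Type} [NormedAddCommGroup E₀] [NormedSpace ℝ E₀] [FiniteDimensional ℝ E₀]
  [MeasurableSpace E₀] [BorelSpace E₀]
  {H₀ : Type} [TopologicalSpace H₀] {I₀ : ModelWithCorners ℝ E₀ H₀} [I₀.Boundaryless]
  {M : Type} [TopologicalSpace M] [ChartedSpace H₀ M] [IsManifold I₀ ∞ M] [MeasurableSpace M]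
  [T2Space M] [BorelSpace M] [SecondCountableTopology M] {ι lam : Type} [Fintype ι] [Fintype lam]

theorem setInt_img {M' : Type} [TopologicalSpace M'] [ChartedSpace HM M'] [IsManifold I ∞ M']
    [MeasurableSpace M'] [BorelSpace M'] [T2Space M'] [SecondCountableTopology M'] {F : Pre I₀ M ι} {F' : Pre I M' ι}
    {φ : OpenPartialHomeomorph M M'} (h : Iso F F' φ) {L : Set M} (hL : MeasurableSet L)
    (hL' : MeasurableSet (φ '' L)) (hs : L ⊆ φ.source) (f : M' → ℝ) :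
    ∫ y in φ '' L, f y ∂F'.μ = ∫ x in L, f (φ x) ∂F.μ := by
  have := Nka63.setIntegral_comp h ((φ '' L).indicator f)
  rw [setIntegral_indicator hL', inter_eq_right.2 (image_subset_iff.2 fun _ hx => φ.map_source (hs hx)),
    setIntegral_congr_fun φ.open_source.measurableSet (g := L.indicator fun x => f (φ x)) fun x hx => ?_,
    setIntegral_indicator hL, inter_eq_right.2 hs] at this
  · exact this.symm
  · by_cases e : x ∈ L
    · rw [indicator_of_mem e, indicator_of_mem (mem_image_of_mem _ e)]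
    · rw [indicator_of_notMem e, indicator_of_notMem]
      exact fun ⟨z, hz, k⟩ => e (φ.injOn (hs hz) hx k ▸ hz)

variable {α : Type} {X : α → Type} [∀ n, TopologicalSpace (X n)] [∀ n, ChartedSpace HM (X n)]
  [∀ n, IsManifold I ∞ (X n)] [∀ n, MeasurableSpace (X n)] [∀ n, T2Space (X n)]
  [∀ n, BorelSpace (X n)] [∀ n, SecondCountableTopology (X n)] {r : ℕ}

namespace Gs
variable (g : Gs I I₀ M ι lam X) (c : ∀ n, Cfg (X n) ι lam r)

/-- the density of the level -/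
abbrev kd (n : α) : X n → ℝ := (c n).m.kd (g.B n) (g.G n).F (c n).W

/-- the self-dual energy density -/
abbrev sd (n : α) (x : X n) : ℝ := ‖(c n).m.p2 (g.B n) x (g.Fg c n x)‖ ^ 2

abbrev pm (n : α) : Md M ι lam := cmM (g.ψ n) (c n).m

abbrev pW (n : α) : (g.pm c n).Cn := fun a x => (c n).W a (g.ψ n x)

variable {g c} {b : Cfg M ι lam r} {S O L : Set M} {u : ∀ n, M → CL (c n).m.V b.m.V} {n : α} {x : M}
  (hg : g.OK)
include hg

theorem OK.grel (n : α) : GRel g.B₀ (g.H n) (g.B n) (g.G n) (g.ψ n) (g.ψ n).source :=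
  ⟨hg.rel n, fun a b _ hx => (hg.P_eq hx a b).symm, fun a b c d x hx => (hg.bo n x hx a b c d).symm,
    fun x hx => (hg.bl n x hx).symm, (hg.il n).symm, fun a x hx => (hg.la n x hx a).symm⟩

theorem OK.ev_src (hL : IsCompact L) (hP : L ⊆ g.Pᶜ) : ∀ᶠ n in (g.l : Filter α), L ⊆ (g.ψ n).source :=
  ev_compact hL (p := fun n x => x ∈ (g.ψ n).source) fun x hx => hg.src x (hP hx)

theorem OK.Fg_eq (hx : x ∈ (g.ψ n).source) :
    (g.pm c n).Fg (g.H n).F (g.pW c n) x = g.Fg c n (g.ψ n x) := (hg.rel n).Fg hx _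

theorem OK.kd_eq (hx : x ∈ (g.ψ n).source) :
    (g.pm c n).kd g.B₀ (g.H n).F (g.pW c n) x = g.kd c n (g.ψ n x) := by
  have : g.B₀.st x = (g.B n).st (g.ψ n x) := funext₂ fun s t => by simp only [Base.st, hg.bo n x hx]
  simp only [Md.kd, hg.Fg_eq hx, this]

theorem OK.p2_eq (hx : x ∈ (g.ψ n).source) : (g.pm c n).p2 g.B₀ x = (c n).m.p2 (g.B n) (g.ψ n x) := by
  have : g.B₀.sd x = (g.B n).sd (g.ψ n x) := funext₂ fun s t => (hg.sd_eq hx s t).symm
  simp only [Md.p2, this, cm_pg]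

theorem OK.int_kd (hL : IsCompact L) (hs : L ⊆ (g.ψ n).source) {T : Set M} (hT : MeasurableSet T)
    (hT' : MeasurableSet (g.ψ n '' (L ∩ T))) :
    ∫ x in L ∩ T, (g.pm c n).kd g.B₀ (g.H n).F (g.pW c n) x ∂(g.H n).F.μ =
      ∫ y in g.ψ n '' (L ∩ T), g.kd c n y ∂(g.G n).F.μ := by
  rw [setInt_img ((hg.rel n).iso (hg.H n).vol (hg.G n).vol) (hL.measurableSet.inter hT) hT'
    (inter_subset_left.trans hs)]
  exact setIntegral_congr_fun (hL.measurableSet.inter hT) fun x hx => hg.kd_eq (hs hx.1)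

theorem OK.nhd (hL : IsCompact L) (hP : L ⊆ g.Pᶜ) :
    ∃ O, IsOpen O ∧ L ⊆ O ∧ closure O ⊆ g.Pᶜ ∧ IsCompact (closure O) :=
  have := Manifold.locallyCompact_of_finiteDimensional (M := M) I₀
  exists_open_between_and_isCompact_closure hL hg.fin.isClosed.isOpen_compl hP

variable (ha : ∀ n, (c n).Adm (g.B n) (g.G n))
include ha

theorem Lim.bub (h : g.Lim c b S u) (hO : IsOpen O) (hc : IsCompact (closure O))
    (hP : closure O ⊆ g.Pᶜ) : Loc66.Bub g.l g.B₀ O S g.H g.G₀ (g.pm c) (g.pW c) b.m b.W u where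
  hB := hg.B₀
  hG := hg.G₀
  hm := h.adm.ok
  hW := h.adm.conn
  hO := hO
  hS := isOpen_compl_iff.1 (h.op)
  ok := (hg.ev_src hc hP).mono fun n hn =>
    have k := (hg.grel n).mono hO (subset_closure.trans hn)
    ⟨hg.H n, k.okOn_iff.2 (OK.on (ha n).ok _), k.connOn_iff.2 (IsConn.on (ha n).conn _)⟩
  F := (fcv hg).mono le_rfl (subset_univ _)
  a a := (hg.a a).mono le_rfl (subset_univ _)
  iso x hx := let ⟨N, a, b, k⟩ := h.iso x hx.2; ⟨N, a.mem_nhds b, k⟩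
  cv a := (h.A a).mono le_rfl fun _ hx => hx.2

theorem OK.en_eq (hO : IsOpen O) (hs : O ⊆ (g.ψ n).source) :
    Loc66.Bub.en g.H (g.pW c) n O = g.en c n O := by
  refine Eq.trans ?_ (li_eq hg (f := fun n y => ‖g.Fg c n y‖ ^ 2) hO
    ((Mp86.sm_Fg (hg.B n) (hg.G n) (ha n).ok (ha n).conn).continuous.norm.pow 2)).symm
  rw [inter_eq_left.2 hs]
  exact setLIntegral_congr_fun hO.measurableSet fun x hx => by rw [hg.Fg_eq (hs hx)]

theorem OK.ep_eq (hO : IsOpen O) (hs : O ⊆ (g.ψ n).source) :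
    Loc66.Bub.ep g.B₀ g.H (g.pW c) n O = li g (g.sd c) n O := by
  refine Eq.trans ?_ (li_eq hg (f := g.sd c) hO ?_).symm
  · rw [inter_eq_left.2 hs]
    exact setLIntegral_congr_fun hO.measurableSet fun x hx => by
      rw [hg.Fg_eq (hs hx), hg.p2_eq (hs hx)]
  · exact ((Std94.sm_p2 (hg.B n) (ha n).ok).clm_apply
      (Mp86.sm_Fg (hg.B n) (hg.G n) (ha n).ok (ha n).conn)).continuous.norm.pow 2

omit ha in
theorem OK.shrink (hx : x ∉ g.P) {N : Set M} (hN : N ∈ 𝓝 x) : ∃ K O, IsCompact K ∧ IsOpen O ∧ x ∈ O ∧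
    O ⊆ K ∧ K ⊆ N ∩ g.Pᶜ ∧ ∀ᶠ n in (g.l : Filter α), K ⊆ (g.ψ n).source := by
  have := Manifold.locallyCompact_of_finiteDimensional (M := M) I₀
  obtain ⟨K, k1, k2, k3⟩ := local_compact_nhds (inter_mem hN (hg.fin.isClosed.isOpen_compl.mem_nhds hx))
  exact ⟨K, _, k3, isOpen_interior, mem_interior_iff_mem_nhds.2 k1, interior_subset, k2,
    hg.ev_src k3 fun _ h => (k2 h).2⟩

theorem OK.sd (hx : x ∉ g.P) (h : NC g (g.sd c) x) : Loc66.Bub.Sd g.B₀ g.l g.H (g.pW c) x := fun ε ε0 => by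
  obtain ⟨N, n1, n2⟩ := h ε ε0
  obtain ⟨K, O, -, o1, o2, o3, k1, k2⟩ := hg.shrink hx n1
  exact ⟨O, o1.mem_nhds o2, (n2.and k2).mono fun n hn => (hg.ep_eq ha o1 (o3.trans hn.2)).trans_le
    ((li_mono fun _ h => (k1 (o3 h)).1).trans hn.1)⟩

theorem OK.eb (hx : x ∉ g.P) (h : (g.fb c (g.F g.Pᶜ x)).En) : Loc66.Bub.Eb g.l g.H (g.pW c) x := by
  obtain ⟨C, D, d1, d2⟩ := h
  obtain ⟨N, n1, n2⟩ := nF_compact (p := fun q => (⟨q.1, g.ψ q.1 q.2⟩ : Σ n, X n) ∈ D) d1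
  obtain ⟨K, O, k0, o1, o2, o3, k1, k2⟩ := hg.shrink hx n1
  refine ⟨O, o1.mem_nhds o2, C, ((n2 K k0 k1).and k2).mono fun n hn =>
    (hg.en_eq ha o1 (o3.trans hn.2)).trans_le ((lintegral_mono_set ?_).trans (d2 n))⟩
  rintro _ ⟨y, hy, rfl⟩
  exact hn.1 y (o3 hy.1)

theorem OK.cc (hx : x ∉ g.P) (h : g.Bub c x) : Loc66.Bub.Cc g.l g.H (g.pW c) x := by
  obtain ⟨ε, ε0, k⟩ := h
  refine ⟨ε, ε0, fun N hN => ?_⟩
  obtain ⟨K, O, -, o1, o2, o3, k1, k2⟩ := hg.shrink hx hN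
  exact ((k O (o1.mem_nhds o2)).and k2).mono fun n hn => hn.1.trans
    ((hg.en_eq ha o1 (o3.trans hn.2)).ge.trans (lintegral_mono_set fun _ h => (k1 (o3 h)).1))

omit ha in
/-- **the level of a compact set** -/
theorem Lim.kap (kt : Loc66.KT ι lam) (H : g.Hyp c) (h : g.Lim c b (g.S c) u) (hL : IsCompact L) (hP : L ⊆ g.Pᶜ)
    (hS : L ∩ g.S c ⊆ interior L) (nc : ∀ p ∈ L ∩ g.S c, NC g (g.sd c) p) :
    ∃ k : ℕ, (L ∩ g.S c).encard ≤ k ∧ (L ∩ g.S c = ∅ → k = 0) ∧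
      Tendsto (fun n => ∫ y in g.ψ n '' L, g.kd c n y ∂(g.G n).F.μ) g.l
        (𝓝 (∫ x in L, b.m.kd g.B₀ g.G₀.F b.W x ∂g.G₀.F.μ + k)) := by
  obtain ⟨O, o1, o2, o3, o4⟩ := hg.nhd hL hP
  have f : (O ∩ g.S c).Finite := (h.fin _ o4).subset fun _ k => ⟨k.2, subset_closure k.1⟩
  obtain ⟨k, k1, k2, k3⟩ := (h.bub hg H.adm o1 o4 o3).kap_lim kt hg.h4 hL o2 f hS
    (fun p hp => hg.sd H.adm (hP hp.1) (nc p hp)) fun p hp => hg.eb H.adm (hP hp.1) (H.en p)
  refine ⟨k, ?_, k2, k3.congr' ((hg.ev_src hL hP).mono fun n hn => ?_)⟩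
  · rw [sep_eq_self_iff_mem_true.2 fun p hp => hg.cc H.adm (hP hp.1) (hp.2.resolve_left (hP hp.1))] at k1
    rw [← (f.subset (inter_subset_inter_left _ o2)).cast_ncard_eq]
    exact_mod_cast k1
  · simpa only [inter_univ] using hg.int_kd (c := c) hL hn MeasurableSet.univ (by
      simpa only [inter_univ] using (hL.image_of_continuousOn ((g.ψ n).continuousOn.mono hn)).measurableSet)

end Gs

end Crest.Agent.X212.Cmp73
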