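import Crest.Agent.X212.Cmp73.Up
import Crest.Agent.X212.Th31.Cux
import Crest.Agent.X212.Bki64.Lm
import Crest.Agent.X212.An.Strat

/-!
# X212 / COMP (helper73), part 18: a priori bounds, families with a neck (definitions)
-/

set_option autoImplicit false
set_option linter.unusedSectionVars false
open Set Filter Topology Function MeasureTheory
open scoped ContDiff Manifold InnerProductSpace NNReal ENNReal

noncomputable section
namespace Crest.Agent.X212.Cmp73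

open An Nd18 Abel74
open Mp86 (Wts Dom)
open Dgr80 (LB)

variable {E : Type} [NormedAddCommGroup E] [NormedSpace ℝ E] [FiniteDimensional ℝ E]
  [MeasurableSpace E] [BorelSpace E]
  {HM : Type} [TopologicalSpace HM] {I : ModelWithCorners ℝ E HM} [I.Boundaryless]
  {E3 : Type} [NormedAddCommGroup E3] [NormedSpace ℝ E3] [FiniteDimensional ℝ E3]
  [MeasurableSpace E3] [BorelSpace E3]
  {H3 : Type} [TopologicalSpace H3] {I3 : ModelWithCorners ℝ E3 H3} [I3.Boundaryless]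
  {Y : Type} [TopologicalSpace Y] [ChartedSpace H3 Y] [IsManifold I3 ∞ Y] [T2Space Y]
  [MeasurableSpace Y] [BorelSpace Y] [SecondCountableTopology Y] [CompactSpace Y]
  {κ lam α : Type} [Fintype κ] [Fintype lam] {r m : ℕ}

section one
variable {M : Type} [TopologicalSpace M] [ChartedSpace HM M] [IsManifold I ∞ M] [MeasurableSpace M]
  [T2Space M] [BorelSpace M] [SecondCountableTopology M]

/-- a priori bounds of a configuration -/
structure AG {ι : Type} [Fintype ι] (B : Base M ι lam) (G : Geo I M ι lam) (y : Cfg M ι lam r)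
    (w : M → M → ℝ) (S C : ℝ) : Prop where
  lh : Lh y B G
  z : r = 0 ∨ ‖y.z‖ = 1
  pos : 0 < S
  wts : Wts G.F S w
  le : y.Le G.F w C
  p2 : Dom G.F C fun x => ‖y.m.p2 B x (y.m.Fg G.F y.W x)‖ ^ 2
  nab : Dom G.F C (Mp86.gr2 I G.F.e y.W y.Φ)

/-- a priori bounds on a neck -/
structure AN {D : YD I3 Y κ lam} {B : Base M (Option κ) lam} {G : Geo I M (Option κ) lam}
    (K : Nk D B G) (y : Cfg M (Option κ) lam r) (w : M → M → ℝ) (C : ℝ) : Prop where
  en : LB G.F.μ (fun z => K.cut 3 (K.τ z) * Dgr80.en G.F y K.τ z) C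
  low : ∀ x ∈ K.dp 1, ∀ z ∈ K.dp 1, Real.exp (-(√(1 + (K.tm z - K.tm x) ^ 2) / 4)) ≤ w x z

end one

variable {Z : α → Type} [∀ n, TopologicalSpace (Z n)] [∀ n, ChartedSpace HM (Z n)]
  [∀ n, IsManifold I ∞ (Z n)] [∀ n, MeasurableSpace (Z n)] [∀ n, T2Space (Z n)]
  [∀ n, BorelSpace (Z n)] [∀ n, SecondCountableTopology (Z n)]

variable (I Z) in
/-- a family of solutions with a neck -/
structure NF (D : YD I3 Y κ lam) (r m : ℕ) where
  B : ∀ n, Base (Z n) (Option κ) lam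
  G : ∀ n, Geo I (Z n) (Option κ) lam
  K : ∀ n, Nk D (B n) (G n)
  y : ∀ n, Cfg (Z n) (Option κ) lam r
  τ : ∀ n, Pt (Z n) (Option κ) lam r m
  q : α → YW I3 Y →₀ ℝ
  w : ∀ n, Z n → Z n → ℝ

namespace NF
variable {D : YD I3 Y κ lam} (F : NF I Z D r m) (N : ND Y lam) (l : Filter α) (q₀ : YW I3 Y →₀ ℝ)

structure OK : Prop where
  h3 : Module.finrank ℝ E3 = 3
  con : ConnectedSpace Y
  hD : D.OK
  hN : N.OK D
  sol : ∀ n, (F.y n).Sol (F.B n) (F.G n) (F.τ n)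
  cv : St.Cv l F.q q₀
  loc : ∃ d, ∀ᶠ n in l, ∀ z ∈ (F.K n).dp d,
    (F.τ n).D (F.y n) z = (N.pt (F.K n) (F.q n) : Pt _ _ _ r m).D (F.y n) z ∧
    (F.τ n).C (F.y n) z = (N.pt (F.K n) (F.q n) : Pt _ _ _ r m).C (F.y n) z
  ap : ∃ S C, ∀ n, AG (F.B n) (F.G n) (F.y n) (F.w n) S C ∧ AN (F.K n) (F.y n) (F.w n) C

/-- the configurations in the coordinates of the neck -/
abbrev c (n : α) : Cfg (Y × ℝ) (Option κ) lam r := (F.K n).pb (F.y n)

/-- compactness of deep windows (the input `cmp` of `Nck90.NI`) -/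
def CZ : Prop := ∀ 𝒱 : Ultrafilter (α × ℝ), Tendsto (Prod.fst : α × ℝ → α) 𝒱 l →
  (∀ R, ∀ᶠ p : α × ℝ in 𝒱, p.2 ∈ Dp (F.K p.1).p (F.K p.1).q R) →
  ∃ γ Sg v, Bki64.Lm N D q₀ 𝒱 (ρ := fun _ => r) (fun p : α × ℝ => sh p.2 (F.c p.1)) γ Sg v

end NF

/-- the inputs of `Cqn41.NU.q1`, `q2` -/
structure NQ {E₀ : Type} [NormedAddCommGroup E₀] [NormedSpace ℝ E₀] [FiniteDimensional ℝ E₀]
    [MeasurableSpace E₀] [BorelSpace E₀] {H₀ : Type} [TopologicalSpace H₀]
    {I₀ : ModelWithCorners ℝ E₀ H₀} [I₀.Boundaryless]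
    {E' : Type} [NormedAddCommGroup E'] [NormedSpace ℝ E'] [FiniteDimensional ℝ E']
    [MeasurableSpace E'] [BorelSpace E'] {H' : Type} [TopologicalSpace H']
    {I' : ModelWithCorners ℝ E' H'} [I'.Boundaryless]
    {M : Type} [TopologicalSpace M] [ChartedSpace H₀ M] [IsManifold I₀ ∞ M] [MeasurableSpace M]
    [BorelSpace M] [T2Space M] [SecondCountableTopology M]
    {X : α → Type} [∀ n, TopologicalSpace (X n)] [∀ n, ChartedSpace H' (X n)]
    [∀ n, IsManifold I' ∞ (X n)] [∀ n, MeasurableSpace (X n)] [∀ n, T2Space (X n)]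
    [∀ n, BorelSpace (X n)] [∀ n, SecondCountableTopology (X n)] {J : Type}
    {g : Gs I' I₀ M (Option κ) lam X} {c : ∀ n, Cfg (X n) (Option κ) lam r}
    {p : Cqn41.Up I J Z g c} {D : YD I3 Y κ lam} (ν : Cqn41.NU p D) (N : ND Y lam) : Prop where
  cyc : ν.CYC (Th31.CL g c)
  ew : ν.EW N
  cv : ∀ T : YT Y, T.OK I3 → ν.CVT T

end Crest.Agent.X212.Cmp73
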