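import Crest.Agent.X212.Cmp73.Qcl

/-!
# X212 / COMP (helper73), part 15: convergence of words and terms; limits are solutions
-/

set_option autoImplicit false
set_option linter.unusedSectionVars false
open Set Filter Topology Function MeasureTheory
open scoped ContDiff Manifold InnerProductSpace NNReal ENNReal

noncomputable section
namespace Crest.Agent.X212.Cmp73

open An Eqv71
open Wz78 (nab lap dir SA)
open Wrd81 (wd)

theorem wd_add {τ β : Type*} [AddMonoid β] (f : τ → β) :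
    ∀ l : List τ, wd (fun t s => f t + s) 0 l = (l.map f).sum
  | [] => rfl
  | t :: l => congrArg (f t + ·) (wd_add f l)

theorem wd_add' {τ β γ : Type*} [AddMonoid β] (f : τ → γ → β) (x : γ) :
    ∀ l : List τ, wd (fun t s y => f t y + s y) 0 l x = (l.map fun t => f t x).sum
  | [] => rfl
  | t :: l => congrArg (f t x + ·) (wd_add' f x l)

theorem norm_div_le (a : ℂ) {b : ℝ} (hb : 0 ≤ b) : ‖a / (√(1 + ‖a‖ ^ 2 + b) : ℝ)‖ ≤ 1 := by
  rw [norm_div, Complex.norm_real, Real.norm_of_nonneg (Real.sqrt_nonneg _)]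
  exact div_le_one_of_le₀ (Real.le_sqrt_of_sq_le (by linarith)) (Real.sqrt_nonneg _)

variable {E : Type} [NormedAddCommGroup E] [NormedSpace ℝ E] [FiniteDimensional ℝ E]
  [MeasurableSpace E] [BorelSpace E]
  {HM : Type} [TopologicalSpace HM] {I : ModelWithCorners ℝ E HM} [I.Boundaryless]
  {E₀ : Type} [NormedAddCommGroup E₀] [NormedSpace ℝ E₀] [FiniteDimensional ℝ E₀]
  [MeasurableSpace E₀] [BorelSpace E₀]
  {H₀ : Type} [TopologicalSpace H₀] {I₀ : ModelWithCorners ℝ E₀ H₀} [I₀.Boundaryless]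
  {M : Type} [TopologicalSpace M] [ChartedSpace H₀ M] [IsManifold I₀ ∞ M] [MeasurableSpace M]
  [T2Space M] [BorelSpace M] [SecondCountableTopology M]
  {ι lam : Type} [Fintype ι] [Fintype lam] {α : Type}
  {X : α → Type} [∀ n, TopologicalSpace (X n)] [∀ n, ChartedSpace HM (X n)]
  [∀ n, IsManifold I ∞ (X n)] [∀ n, MeasurableSpace (X n)] [∀ n, T2Space (X n)]
  [∀ n, BorelSpace (X n)] {r m : ℕ}

namespace Gs
variable {g : Gs I I₀ M ι lam X} {c : ∀ n, Cfg (X n) ι lam r}

section HC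
variable {C C' : ∀ n, X n → Fm (ι × ι) (c n).m.A}

theorem HC.of_pf (h : ∀ x s, g.Pf c x (WA c) fun n y => C n y s) : g.HC c C := fun x =>
  ⟨0, fun _ _ _ => zero_mem _, Th31.TH.zero fun n a => (h x (a, a)).sA n a,
    fun s => (h x s).congr fun _ _ => by simp⟩

theorem HC.congr (h : g.HC c C) (e : ∀ n y, C' n y = C n y) : g.HC c C' := by
  rwa [show C' = C from funext fun n => funext (e n)]

theorem HC.add (h : g.HC c C) (h' : g.HC c C') : g.HC c fun n y => C n y + C' n y := fun x =>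
  let ⟨θ, a1, a2, a3⟩ := h x
  let ⟨θ', b1, b2, b3⟩ := h' x
  ⟨fun n y => θ n y + θ' n y, fun n y s => add_mem (a1 n y s) (b1 n y s), a2.add b2,
    fun s => ((a3 s).add (b3 s)).congr fun _ _ => by
      simp only [map_add, PiLp.sub_apply, PiLp.add_apply]; abel⟩

theorem HC.smul (h : g.HC c C) (z : α → ℝ) {K : ℝ} (b : ∀ᶠ n in (g.l : Filter α), |z n| ≤ K) :
    g.HC c fun n y => z n • C n y := fun x =>
  have e := ev_F (x := x) (U := g.Pᶜ) (p := fun n _ => |z n| ≤ K) (b.mono fun _ h _ => h)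
  let ⟨θ, a1, a2, a3⟩ := h x
  ⟨fun n y => z n • θ n y, fun n y s => Submodule.smul_mem _ _ (a1 n y s), a2.smul e,
    fun s => ((a3 s).cs (Wt.cst e) fun _ => sP_mono).congr fun _ _ => by
      simp only [map_smul, PiLp.sub_apply, PiLp.smul_apply, smul_sub]⟩

end HC

variable {D D' : ∀ n, X n → (c n).m.V} {C C' : ∀ n, X n → Fm (ι × ι) (c n).m.A} {S S' : α → Fin m → ℂ}
  {τ τ' : Pt M ι lam r m}

namespace QT

theorem of (h1 : g.QV c D τ.D) (h2 : ∀ s, g.QA c (fun n x => C n x s) fun b x => τ.C b x s)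
    (h3 : ∀ i, g.QC c (fun n => S n i) fun b => τ.S b i) : g.QT c D C S τ :=
  ⟨h1, fun s => (h2 s).lim, .of_pf fun x s => (h2 s).pf x, h3⟩

theorem congr (h : g.QT c D C S τ) (e1 : ∀ n x, D' n x = D n x) (e2 : ∀ n x, C' n x = C n x)
    (e3 : ∀ n i, S' n i = S n i) (e4 : ∀ b x, τ'.D b x = τ.D b x) (e5 : ∀ b x, τ'.C b x = τ.C b x)
    (e6 : ∀ b i, τ'.S b i = τ.S b i) : g.QT c D' C' S' τ' :=
  ⟨h.D.congr e1 e4, by simpa only [e2, e5] using h.L, h.C.congr e2, by simpa only [e3, e6] using h.S⟩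

theorem add (h : g.QT c D C S τ) (h' : g.QT c D' C' S' τ') : g.QT c (fun n x => D n x + D' n x)
    (fun n x => C n x + C' n x) (fun n i => S n i + S' n i) (τ.add τ') :=
  ⟨h.D.add h'.D, fun s b u l => (h.L s b u l).add (h'.L s b u l), h.C.add h'.C,
    fun i b u l => (h.S i b u l).add (h'.S i b u l)⟩

theorem smul (h : g.QT c D C S τ) {z : α → ℝ} {z₀ : ℝ} (hz : Tendsto z g.l (𝓝 z₀)) :
    g.QT c (fun n x => z n • D n x) (fun n x => z n • C n x) (fun n i => z n * S n i)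
      ⟨fun b x => z₀ • τ.D b x, fun b x => z₀ • τ.C b x, fun b i => z₀ * τ.S b i⟩ :=
  have b := (hz.abs.eventually (gt_mem_nhds (lt_add_one _))).mono fun _ => le_of_lt
  ⟨h.D.smul (.cst (fun _ _ _ => hz) b), fun s b u l => (h.L s b u l).smul contMDiff_const (Cv.consts hz),
    h.C.smul z b, fun i b u l => ((Complex.continuous_ofReal.tendsto _).comp hz).mul (h.S i b u l)⟩

variable (k : g.Bk c)
include k

theorem zero : g.QT c 0 0 (0 : α → Fin m → ℂ) ⟨fun _ => 0, fun _ => 0, fun _ => 0⟩ :=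
  of (.zero k) (fun _ => .zero k) fun _ _ _ _ => tendsto_const_nhds

variable {κ : Type*} {D : κ → ∀ n, X n → (c n).m.V} {C : κ → ∀ n, X n → Fm (ι × ι) (c n).m.A}
  {S : κ → α → Fin m → ℂ} {τ : κ → Pt M ι lam r m}

theorem fsum (T : Finset κ) (h : ∀ i ∈ T, g.QT c (D i) (C i) (S i) (τ i)) :
    g.QT c (fun n x => ∑ i ∈ T, D i n x) (fun n x => ∑ i ∈ T, C i n x) (fun n j => ∑ i ∈ T, S i n j)
      ⟨fun b x => ∑ i ∈ T, (τ i).D b x, fun b x => ∑ i ∈ T, (τ i).C b x, fun b j => ∑ i ∈ T, (τ i).S b j⟩ := by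
  classical
  induction T using Finset.induction_on with
  | empty => exact zero k
  | insert a T ha ih =>
    simp only [Finset.sum_insert ha]
    exact (h a (by simp)).add (ih fun i hi => h i (by simp [hi]))

/-- finitely supported coefficients which converge inside a finite stage (`St.Cv`) -/
theorem finsupp {q : α → κ →₀ ℝ} {q₀ : κ →₀ ℝ} (hq : ∃ J : Finset κ, (∀ n i, i ∉ J → q n i = q₀ i) ∧
    ∀ i, Tendsto (fun n => q n i) g.l (𝓝 (q₀ i))) (h : ∀ i, g.QT c (D i) (C i) (S i) (τ i)) :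
    g.QT c (fun n x => (q n).sum fun i a => a • D i n x) (fun n x => (q n).sum fun i a => a • C i n x)
      (fun n j => (q n).sum fun i a => (a : ℂ) * S i n j)
      ⟨fun b x => q₀.sum fun i a => a • (τ i).D b x, fun b x => q₀.sum fun i a => a • (τ i).C b x,
        fun b j => q₀.sum fun i a => (a : ℂ) * (τ i).S b j⟩ := by
  classical
  obtain ⟨J, h1, h2⟩ := hq
  have s0 : q₀.support ⊆ J ∪ q₀.support := Finset.subset_union_right
  have s1 : ∀ n, (q n).support ⊆ J ∪ q₀.support := fun n i hi => by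
    by_cases hJ : i ∈ J
    · simp [hJ]
    · rw [Finsupp.mem_support_iff, h1 n i hJ] at hi; simp [hi]
  exact (fsum k (J ∪ q₀.support) fun i _ => (h i).smul (h2 i)).congr
    (fun n _ => Finsupp.sum_of_support_subset _ (s1 n) _ (by simp))
    (fun n _ => Finsupp.sum_of_support_subset _ (s1 n) _ (by simp))
    (fun n _ => Finsupp.sum_of_support_subset _ (s1 n) _ (by simp))
    (fun b x => q₀.sum_of_support_subset s0 (fun i a => a • (τ i).D b x) (by simp))
    (fun b x => q₀.sum_of_support_subset s0 (fun i a => a • (τ i).C b x) (by simp))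
    fun b j => q₀.sum_of_support_subset s0 (fun i a => (a : ℂ) * (τ i).S b j) (by simp)

end QT

namespace Bk
variable (k : g.Bk c) {w : ∀ n, X n → ℝ} {K : ℝ≥0}
include k

theorem qs {u u'} (h : g.cS c u u') {a : ∀ n, X n → (c n).m.V}
    (ha : ∀ n, vS (c n) (g.G n).F (u n) (a n)) : g.QV c a fun b => b.sw g.G₀.F (u' b) :=
  FL.vw (Q := g.QV c) (op := fun b : Cfg M ι lam r => b.lt g.G₀.F) (.Φ k) (fun _ _ _ _ v ht hs hv => by
    cases ht with
    | mul hf => obtain rfl : v = _ := funext hv; exact hs.smul hf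
    | cl hf => obtain rfl : v = _ := funext hv; exact hs.cl k hf
    | im => obtain rfl : v = _ := funext hv; exact hs.J k
    | G => exact hs.res k (fun n => (hv n).1) fun n => (hv n).2) h ha

theorem qla {l l'} (h : FL (g.cLa c) l l') {s a : ∀ n, X n → (c n).m.A} {s'} (hs : g.QA c s s')
    (ha : ∀ n, VW (vLa (c n) (g.G n).F) (s n) (l n) (a n)) :
    g.QA c a fun b => wd (b.la g.G₀.F) (s' b) (l' b) :=
  FL.vw (Q := g.QA c) (op := fun b : Cfg M ι lam r => b.la g.G₀.F) hs (fun _ _ _ _ v ht hs hv => by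
    cases ht with
    | mul hf => obtain rfl : v = _ := funext hv; exact hs.smul hf
    | G => exact hs.res k (fun n => (hv n).1) fun n => (hv n).2) h ha

theorem qa (hw : g.WR w) {ξ ξ'} (h : g.cA c ξ ξ') {a : ∀ n, X n → (c n).m.A}
    (ha : ∀ n, vA (c n) (g.G n).F K (w n) (ξ n) (a n)) : g.QA c a fun b => b.aw g.G₀.F (ξ' b) := by
  choose s h1 h2 using ha
  cases h with
  | q hu hv hl =>
    choose a b h3 h4 h5 using h1
    obtain rfl : s = _ := funext h5
    exact k.qla hl (.q k (k.qs hu h3) (k.qs hv h4)) h2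
  | cv hf ha hd hl =>
    choose u h3 using h1
    exact k.qla hl (.cv k hw hf ha hd h3) h2

theorem qas (hw : g.WR w) {L L'} (h : FL (g.cA c) L L') {a : ∀ n, X n → (c n).m.A}
    (ha : ∀ n, vAs (c n) (g.G n).F K (w n) (L n) (a n)) : g.QA c a fun b => b.aws g.G₀.F (L' b) :=
  (FL.vw (Q := g.QA c) (op := fun (b : Cfg M ι lam r) ξ (s : M → b.m.A) x => b.aw g.G₀.F ξ x + s x) (.zero k) (fun _ _ _ _ v ht hs hv => by
    choose a h1 h2 using hv
    obtain rfl : v = _ := funext h2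
    exact (k.qa hw ht h1).add hs) h ha).congr (fun _ _ => rfl) fun b x => (wd_add' (b.aw g.G₀.F) x _).symm

theorem qg {s s'} (h : g.cG c s s') {z : α → ℂ} (hz : ∀ n, vG (c n) (g.G n).F (s n) (z n)) :
    g.QC c z fun b => b.sg g.G₀.F (s' b) := by
  cases h with
  | mk hs hu hv =>
    choose a b h1 h2 h3 using hz
    obtain rfl : z = _ := funext h3
    exact (k.qs hu h1).hm k (k.qs hv h2) hs

theorem qco {d d'} (h : g.cC c d d') {z : α → ℂ} (hz : ∀ n, vC (c n) (g.G n).F (d n) (z n)) :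
    g.QC c z (fun b => b.co g.G₀.F (d' b)) ∧ ∀ n, ‖z n‖ ≤ 1 := by
  cases h with
  | z i =>
    obtain rfl : z = _ := funext hz
    exact ⟨fun _ _ l => ((PiLp.continuous_apply 2 _ i).tendsto _).comp l.lim.z, fun n =>
      (k.adm n).z.elim (fun h => (h ▸ i).elim0) fun h => h ▸ PiLp.norm_apply_le _ i⟩
  | @s a a' L L' ha hL =>
    choose x y h1 h2 h3 using hz
    obtain rfl : z = _ := funext h3
    have := FL.vw (σ' := fun _ => ℝ) (Q := fun y y' => (∀ n, 0 ≤ y n) ∧ (∀ b, 0 ≤ y' b) ∧ g.QC c y y')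
      (op := fun (b : Cfg M ι lam r) t s => ‖b.sg g.G₀.F t‖ ^ 2 + s) (s₀' := 0)
      ⟨fun _ => le_rfl, fun _ => le_rfl, fun _ _ _ => tendsto_const_nhds⟩ (fun _ _ _ _ v ht hs hv => by
        choose a h1 h2 using hv
        obtain rfl : v = _ := funext h2
        exact ⟨fun n => add_nonneg (sq_nonneg _) (hs.1 n), fun b => add_nonneg (sq_nonneg _) (hs.2.1 b),
          fun b u l => ((k.qg ht h1 b u l).norm.pow 2).add (hs.2.2 b u l)⟩) hL h2
    simp only [Pi.zero_apply, wd_add] at this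
    refine ⟨fun b u l => (k.qg ha h1 b u l).div ((Complex.continuous_ofReal.tendsto _).comp
      ((((k.qg ha h1 b u l).norm.pow 2).const_add 1).add (this.2.2 b u l)).sqrt) ?_,
      fun n => norm_div_le _ (this.1 n)⟩
    have := this.2.1 b
    exact Complex.ofReal_ne_zero.2 (Real.sqrt_ne_zero'.2 (by positivity))

theorem qj {d d' s s' u u'} (hd : g.cC c d d') (hs : g.FC c s s') (hu : g.cS c u u')
    {a : ∀ n, X n → (c n).m.V} (ha : ∀ n, vJ (c n) (g.G n).F (d n) (s n) (u n) (a n)) :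
    g.QV c a fun b x => cs b.m.J (b.co g.G₀.F (d' b)) (b.m.j x (s' x) (b.sw g.G₀.F (u' b) x)) := by
  choose z b h1 h2 h3 using ha
  obtain rfl : a = _ := funext h3
  exact ((k.qs hu h2).j k hs).cs k (k.qco hd h1).1 (k.qco hd h1).2

theorem qq {d d' s s' u u' v v' l l'} (hd : g.cC c d d') (hs : g.FC c s s') (hu : g.cS c u u')
    (hv : g.cS c v v') (hl : FL (g.cLa c) l l') {ξ : ∀ n, X n → (c n).m.A}
    (ha : ∀ n, vQ (c n) (g.G n).F (d n) (s n) (u n) (v n) (l n) (ξ n)) :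
    g.QA c ξ fun b => wd (b.la g.G₀.F) (b.qj g.G₀.F (d' b) s' (u' b) (v' b)) (l' b) := by
  choose a b h1 h2 h3 using ha
  exact k.qla hl (.q k (k.qj hd hs hu h1) (k.qs hv h2)) h3

theorem qdd {f f' a a' d d' ξ ξ'} (hf : g.QS c f f') (ha : g.FD c a a') (hd : g.FD c d d')
    (h : g.QA c ξ ξ') (s : ι × ι) :
    g.QA c (fun n x => ddS (c n) (g.B n) (g.G n).F (f n) (a n) (d n) (ξ n) x s)
      fun b x => ddS b g.B₀ g.G₀.F (f' b) a' d' (ξ' b) x s :=
  .p2 k (fun i => h.smul ((hf.mul (ha i.1).qs).mul (hd i.2).qs)) s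

/-- **values of convergent terms converge** -/
theorem qt (hw : g.WR w) {T : ∀ n, Tm (X n) lam r m} {T'} (h : g.cT c T T')
    (hv : ∀ n, vT (c n) (g.B n) (g.G n).F K (w n) (T n) (D n) (C n) (S n)) :
    g.QT c D C S (g.pT T') := by
  have z3 : ∀ i : Fin m, g.QC c (fun _ => (0 : Fin m → ℂ) i) fun _ => (0 : Fin m → ℂ) i :=
    fun _ _ _ _ => tendsto_const_nhds
  have sg : ∀ (i : Fin m) {z z'}, g.QC c z z' → ∀ j,
      g.QC c (fun n => (Pi.single i (z n) : Fin m → ℂ) j) fun b => (Pi.single i (z' b) : Fin m → ℂ) j :=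
    fun i z z' hz j b u l => by
      simp only [Pi.single_apply]; split_ifs; exacts [hz b u l, tendsto_const_nhds]
  cases h with
  | lin hu =>
    choose h1 h2 h3 using hv
    choose a h1 h4 using h1
    obtain rfl : D = _ := funext h4
    obtain rfl : C = _ := funext h2
    obtain rfl : S = _ := funext h3
    exact .of ((k.qs hu h1).pm k) (fun _ => .zero k) z3
  | anti hd hs hu =>
    choose h1 h2 h3 using hv
    choose a h1 h4 using h1
    obtain rfl : D = _ := funext h4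
    obtain rfl : C = _ := funext h2
    obtain rfl : S = _ := funext h3
    exact .of ((k.qj hd hs hu h1).pm k) (fun _ => .zero k) z3
  | ad ha hd hξ =>
    choose h2 h1 h3 using hv
    choose a h1 h4 using h1
    obtain rfl : C = _ := funext h4
    obtain rfl : D = _ := funext h2
    obtain rfl : S = _ := funext h3
    exact .of (.zero k) (fun s => (k.qdd QS.one ha hd (k.qa hw hξ h1) s).congr (fun _ _ => rfl)
      fun _ _ => by simp only [ddS, one_mul]; rfl) z3
  | adj hc hs ha hd hu hv' hl =>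
    choose h2 h1 h3 using hv
    choose a h1 h4 using h1
    obtain rfl : C = _ := funext h4
    obtain rfl : D = _ := funext h2
    obtain rfl : S = _ := funext h3
    exact .of (.zero k) (fun s => (k.qdd QS.one ha hd (k.qq hc hs hu hv' hl h1) s).congr (fun _ _ => rfl)
      fun _ _ => by simp only [ddS, one_mul]; rfl) z3
  | adn φ hf ha hd hφ hL =>
    choose h2 h1 h3 using hv
    choose a h1 h4 using h1
    obtain rfl : C = _ := funext h4
    obtain rfl : D = _ := funext h2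
    obtain rfl : S = _ := funext h3
    have := k.qas hw hL h1
    exact .of (.zero k) (fun s => (k.qdd hf ha hd (this.smul (this.nem k hφ)) s).congr (fun _ _ => rfl)
      fun _ _ => by simp only [ddS, smul_smul]; rfl) z3
  | cut i z ha =>
    choose h2 h3 a h1 h4 using hv
    obtain rfl : S = _ := funext h4
    obtain rfl : D = _ := funext h2
    obtain rfl : C = _ := funext h3
    exact .of (.zero k) (fun _ => .zero k) (sg i fun b u l => (k.qg ha h1 b u l).const_mul z)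
  | cz i z j =>
    choose h2 h3 h4 using hv
    obtain rfl : S = _ := funext h4
    obtain rfl : D = _ := funext h2
    obtain rfl : C = _ := funext h3
    exact .of (.zero k) (fun _ => .zero k) (sg i fun b u l =>
      (((PiLp.continuous_apply 2 _ j).tendsto _).comp l.lim.z).const_mul z)

theorem qmu (s : ι × ι) : g.QA c (fun n x => (c n).m.mu (g.B n) x ((c n).Φ x) ((c n).Φ x) s)
    fun b x => b.m.mu g.B₀ x (b.Φ x) (b.Φ x) s :=
  .p2 k (fun i => .q k (.Φ k) (((QV.Φ k).ρ k i.2).ρ k i.1)) s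

variable (h : g.QT c D C S τ) (eD : ∀ n x, dir I (g.G n).F.e (c n).m.ρ (c n).W (c n).Φ x = D n x)
  (eC : ∀ n x, (c n).m.p2 (g.B n) x (g.Fg c n x) - (c n).m.mu (g.B n) x ((c n).Φ x) ((c n).Φ x) = C n x)
include h eD eC

theorem hyp (he : ∀ x, (g.fb c (g.F g.Pᶜ x)).En) : g.Hyp c :=
  ⟨k.adm, k.Φ.bd _, he, fun x => (h.D.pf x).congr eD, h.C.congr eC⟩

/-- limits with bounded curvature solve the limit equations -/
theorem sol (eS : ∀ᶠ n in (g.l : Filter α), ∀ i, S n i = 0) {b : Cfg M ι lam r}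
    {u : ∀ n, M → CL (c n).m.V b.m.V} (l : g.LB c b u) : b.Sol g.B₀ g.G₀ τ := by
  refine ⟨l.lim.adm, fun x => sub_eq_zero.2 (congrFun (LV.unique l.lim k.ok (LV.dir l.lim k.ok k.adm
    ((QV.Φ k).lim b u l) fun n => (k.adm n).sm) (by simpa only [funext (eD _)] using h.D.lim b u l)) x),
    fun x => ?_, fun i => tendsto_nhds_unique (h.S i b u l)
      (tendsto_const_nhds.congr' (eS.mono fun _ hn => (hn i).symm))⟩
  rw [Cfg.eC, sub_sub, sub_eq_zero]
  refine PiLp.ext fun s => congrFun (LA.unique (ξ'' := fun x => (b.m.mu g.B₀ x (b.Φ x) (b.Φ x) + τ.C b x) s)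
    l.lim k.ok (LA.p2 l.lim k.ok k.adm (l.lim.Fg k.ok k.adm) s) ?_) x
  simpa only [← eC, ← PiLp.add_apply, add_sub_cancel] using ((k.qmu s).lim b u l).add (h.L s b u l)

/-- **COMP with words** -/
theorem comp_sol (eS : ∀ᶠ n in (g.l : Filter α), ∀ i, S n i = 0) (he : ∀ x, (g.fb c (g.F g.Pᶜ x)).En) :
    g.Hyp c ∧ ∃ b u, g.Lim c b (g.S c) u ∧
      ((∃ R, ∀ x, ‖b.m.Fg g.G₀.F b.W x‖ ≤ R) → g.LB c b u ∧ b.Sol g.B₀ g.G₀ τ) :=
  have a := k.hyp h eD eC he
  let ⟨b, u, l⟩ := k.core.ex a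
  ⟨a, b, u, l, fun R => ⟨⟨a, l, R⟩, k.sol h eD eC eS ⟨a, l, R⟩⟩⟩

end Bk

end Gs

end Crest.Agent.X212.Cmp73
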