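import Crest.Agent.X212.Pat85.CB
import Crest.Agent.X212.Sob92.Lim
import Crest.Agent.N250.Gr.AA

/-!
# X212 / COMP (helper73), part 1: bounded jets and smooth convergence on a manifold

`MB I l x k f` : jets of order `≤ k` of `f i` are bounded near `x`, eventually along `l`;
`MBOn I l Ω f`; `Cv I l Ω f g` : `MBOn` and pointwise convergence (hence `C^∞_loc` convergence).
-/

set_option autoImplicit false
set_option linter.unusedSectionVars false
open Set Filter Topology Function
open scoped ContDiff Manifold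

noncomputable section
namespace Crest.Agent.X212.Cmp73

open Pat85 Sob92

section flat
variable {α E G : Type} [NormedAddCommGroup E] [NormedSpace ℝ E] [FiniteDimensional ℝ E]
  [NormedAddCommGroup G] [NormedSpace ℝ G] {l : Filter α} {f : α → E → G} {g : E → G}

omit [FiniteDimensional ℝ E] in
/-- values along moving points -/
theorem cb_tendsto {x : E} (h : CB (l ×ˢ 𝓝 x) 1 f) {c : G}
    (hx : Tendsto (fun i => f i x) l (𝓝 c)) :
    Tendsto (fun q : α × E => f q.1 q.2) (l ×ˢ 𝓝 x) (𝓝 c) := by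
  obtain ⟨C, hC⟩ := h
  obtain ⟨pa, hpa, pb, hpb, H⟩ := eventually_prod_iff.1 hC
  obtain ⟨r, hr, hb⟩ := Metric.eventually_nhds_iff_ball.1 hpb
  have h1 : ∀ᶠ q : α × E in l ×ˢ 𝓝 x, ‖f q.1 q.2 - f q.1 x‖ ≤ C * ‖q.2 - x‖ := by
    filter_upwards [hpa.prod_mk (Metric.ball_mem_nhds x hr)] with q hq
    refine (convex_ball x r).norm_image_sub_le_of_norm_fderiv_le (𝕜 := ℝ)
      (fun y hy => (H hq.1 (hb y hy)).1.differentiableAt (by simp)) (fun y hy => ?_)
      (Metric.mem_ball_self hr) hq.2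
    have := (H hq.1 (hb y hy)).2 1 le_rfl
    rwa [norm_iteratedFDeriv_one] at this
  have h2 : Tendsto (fun q : α × E => f q.1 q.2 - f q.1 x) (l ×ˢ 𝓝 x) (𝓝 0) := by
    refine squeeze_zero_norm' h1 ?_
    have : Tendsto (fun q : α × E => C * ‖q.2 - x‖) (l ×ˢ 𝓝 x) (𝓝 (C * ‖x - x‖)) :=
      ((tendsto_snd.sub_const x).norm).const_mul C
    simpa using this
  have h3 := h2.add (hx.comp tendsto_fst)
  simpa using h3

/-- bounded jets and a pointwise limit: the limit is smooth and the derivatives converge -/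
theorem cb_lim [FiniteDimensional ℝ G] [l.NeBot] {U : Set E} (hU : IsOpen U) (h : CBOn l U f)
    (hp : ∀ x ∈ U, Tendsto (fun i => f i x) l (𝓝 (g x))) {x : E} (hx : x ∈ U) :
    ContDiffAt ℝ ∞ g x ∧ Tendsto (fun i => fderiv ℝ (f i) x) l (𝓝 (fderiv ℝ g x)) := by
  have := FiniteDimensional.proper_real E
  obtain ⟨r, hr, hb⟩ := Metric.nhds_basis_closedBall.mem_iff.1 (hU.mem_nhds hx)
  have key : ∀ 𝒰 : Ultrafilter α, (𝒰 : Filter α) ≤ l →
      ContDiffAt ℝ ∞ g x ∧ Tendsto (fun i => fderiv ℝ (f i) x) 𝒰 (𝓝 (fderiv ℝ g x)) := by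
    intro 𝒰 h𝒰
    have hB := fun k => (h.mono h𝒰 Subset.rfl).bound (isCompact_closedBall x r) hb k
    obtain ⟨v, hv, hl⟩ := N250.Gr.sm_lim 𝒰 f (U := Metric.ball x r) Metric.isOpen_ball
      (convex_ball x r) Metric.isBounded_ball
      (by
        obtain ⟨C, hC⟩ := hB 0
        exact hC.mono fun i hi y hy => (hi y (Metric.ball_subset_closedBall hy)).1.contDiffWithinAt)
      (fun k => by
        obtain ⟨C, hC⟩ := hB k
        exact ⟨C, hC.mono fun i hi y hy => (hi y (Metric.ball_subset_closedBall hy)).2 k le_rfl⟩)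
    have e : g =ᶠ[𝓝 x] v := by
      filter_upwards [Metric.ball_mem_nhds x hr] with y hy
      exact tendsto_nhds_unique ((hp y (hb (Metric.ball_subset_closedBall hy))).mono_left h𝒰)
        (hl.val.tendsto_at hy)
    refine ⟨(hv.contDiffAt (Metric.ball_mem_nhds x hr)).congr_of_eventuallyEq e, ?_⟩
    rw [e.fderiv_eq]
    exact hl.d1.tendsto_at (Metric.mem_ball_self hr)
  obtain ⟨𝒰, h𝒰⟩ := Ultrafilter.exists_le l
  exact ⟨(key 𝒰 h𝒰).1, (tendsto_iff_ultrafilter _ _ _).2 fun 𝒱 h𝒱 => (key 𝒱 h𝒱).2⟩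

end flat

variable {E : Type} [NormedAddCommGroup E] [NormedSpace ℝ E]
  {HM : Type} [TopologicalSpace HM] {I : ModelWithCorners ℝ E HM}
  {M : Type} [TopologicalSpace M] [ChartedSpace HM M]
  {α : Type} {F G H : Type} [NormedAddCommGroup F] [NormedSpace ℝ F]
  [NormedAddCommGroup G] [NormedSpace ℝ G] [NormedAddCommGroup H] [NormedSpace ℝ H]

variable (I) in
/-- jets of order `≤ k` bounded near `x`, eventually along `l` -/
def MB (l : Filter α) (x : M) (k : ℕ) (f : α → M → G) : Prop :=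
  CB (l ×ˢ 𝓝 (extChartAt I x x)) k fun i y => f i ((extChartAt I x).symm y)

variable (I) in
/-- all jets bounded near every point of `Ω` -/
def MBOn (l : Filter α) (Ω : Set M) (f : α → M → G) : Prop := ∀ k, ∀ x ∈ Ω, MB I l x k f

variable (I) in
/-- smooth convergence on `Ω` -/
structure Cv (l : Filter α) (Ω : Set M) (f : α → M → G) (g : M → G) : Prop where
  mb : MBOn I l Ω f
  pt : ∀ x ∈ Ω, Tendsto (fun i => f i x) l (𝓝 (g x))

variable [I.Boundaryless] [IsManifold I ∞ M]

omit [IsManifold I ∞ M] in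
theorem tend_symm {x₀ x : M} (hx : x ∈ (chartAt HM x₀).source) :
    Tendsto (extChartAt I x₀).symm (𝓝 (extChartAt I x₀ x)) (𝓝 x) := by
  have h1 : x ∈ (extChartAt I x₀).source := by simpa using hx
  have := (continuousAt_extChartAt_symm' (I := I) h1).tendsto
  rwa [(extChartAt I x₀).left_inv h1] at this

omit [I.Boundaryless] [IsManifold I ∞ M] in
theorem tend_chart {x₀ x : M} (hx : x ∈ (chartAt HM x₀).source) :
    Tendsto (extChartAt I x₀) (𝓝 x) (𝓝 (extChartAt I x₀ x)) :=
  (continuousAt_extChartAt' (I := I) (by simpa using hx)).tendsto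

omit [IsManifold I ∞ M] in
theorem ev_target {x₀ x : M} (hx : x ∈ (chartAt HM x₀).source) :
    ∀ᶠ y in 𝓝 (extChartAt I x₀ x), y ∈ (extChartAt I x₀).target :=
  (isOpen_extChartAt_target x₀).mem_nhds ((extChartAt I x₀).map_source (by simpa using hx))

/-- a function smooth near `x`, read in a chart -/
theorem ev_smooth_chart {x₀ x : M} (hx : x ∈ (chartAt HM x₀).source) {φ : M → G}
    (h : ∀ᶠ y in 𝓝 x, ContMDiffAt I 𝓘(ℝ, G) ∞ φ y) :
    ∀ᶠ y in 𝓝 (extChartAt I x₀ x), ContDiffAt ℝ ∞ (fun y => φ ((extChartAt I x₀).symm y)) y := by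
  filter_upwards [ev_target (I := I) hx, (tend_symm (I := I) hx).eventually h] with y h1 h2
  have h3 : (extChartAt I x₀).symm y ∈ (chartAt HM x₀).source := by
    simpa using (extChartAt I x₀).map_target h1
  have h4 := chart_symm_smoothAt (I := I) h3
  rw [(extChartAt I x₀).right_inv h1] at h4
  exact (h2.comp y h4).contDiffAt

theorem ev_chart_smooth {x₀ x : M} (hx : x ∈ (chartAt HM x₀).source) :
    ∀ᶠ y in 𝓝 x, ContMDiffAt I 𝓘(ℝ, E) ∞ (extChartAt I x₀) y := by
  filter_upwards [(chartAt HM x₀).open_source.mem_nhds hx] with y hy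
  exact contMDiffAt_extChartAt' hy

theorem smooth_of_chart {x₀ x : M} (hx : x ∈ (chartAt HM x₀).source) {φ : M → G}
    (h : ContDiffAt ℝ ∞ (fun y => φ ((extChartAt I x₀).symm y)) (extChartAt I x₀ x)) :
    ContMDiffAt I 𝓘(ℝ, G) ∞ φ x :=
  (h.contMDiffAt.comp x (contMDiffAt_extChartAt' hx)).congr_of_eventuallyEq (eq_comp_chart hx φ)

theorem cb_chart {l : Filter α} {x₀ x₁ x : M} (h₀ : x ∈ (chartAt HM x₀).source)
    (h₁ : x ∈ (chartAt HM x₁).source) {k : ℕ} {f : α → M → G}
    (h : CB (l ×ˢ 𝓝 (extChartAt I x₀ x)) k fun i y => f i ((extChartAt I x₀).symm y)) :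
    CB (l ×ˢ 𝓝 (extChartAt I x₁ x)) k fun i y => f i ((extChartAt I x₁).symm y) := by
  have e : extChartAt I x₀ x = extChartAt I x₀ ((extChartAt I x₁).symm (extChartAt I x₁ x)) := by
    rw [(extChartAt I x₁).left_inv (by simpa using h₁)]
  rw [e] at h
  refine (h.comp_fixed (ψ := fun y => extChartAt I x₀ ((extChartAt I x₁).symm y))
    (ev_smooth_chart h₁ (ev_chart_smooth h₀))).congr ?_
  have h2 := (tend_symm (I := I) h₁).eventually ((chartAt HM x₀).open_source.mem_nhds h₀)
  refine (tendsto_snd.eventually h2.eventually_nhds).mono fun q hq => hq.mono fun y hy => ?_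
  simp only
  rw [(extChartAt I x₀).left_inv (by rw [extChartAt_source]; exact hy)]

namespace MB
variable {l : Filter α} {x : M} {k : ℕ} {f g : α → M → G}

/-- independence of the chart -/
theorem chart {x₀ : M} (hx : x ∈ (chartAt HM x₀).source) : MB I l x k f ↔
    CB (l ×ˢ 𝓝 (extChartAt I x₀ x)) k fun i y => f i ((extChartAt I x₀).symm y) :=
  ⟨cb_chart (mem_chart_source HM x) hx, cb_chart hx (mem_chart_source HM x)⟩

omit [I.Boundaryless] [IsManifold I ∞ M] in
theorem ev_of_chart {p : α → M → Prop}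
    (h : ∀ᶠ q : α × E in l ×ˢ 𝓝 (extChartAt I x x), p q.1 ((extChartAt I x).symm q.2)) :
    ∀ᶠ q : α × M in l ×ˢ 𝓝 x, p q.1 q.2 := by
  have h1 := (tendsto_id.prodMap (tend_chart (I := I) (mem_chart_source HM x))).eventually h
  filter_upwards [h1, tendsto_snd.eventually (extChartAt_source_mem_nhds (I := I) x)] with q a b
  simpa only [Prod.map_fst, Prod.map_snd, id, (extChartAt I x).left_inv b] using a

omit [IsManifold I ∞ M] in
theorem ev_to_chart {p : α → M → Prop} (h : ∀ᶠ q : α × M in l ×ˢ 𝓝 x, p q.1 q.2) :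
    ∀ᶠ q : α × E in l ×ˢ 𝓝 (extChartAt I x x), p q.1 ((extChartAt I x).symm q.2) :=
  (tendsto_id.prodMap (tend_symm (I := I) (mem_chart_source HM x))).eventually h

theorem smooth (h : MB I l x k f) :
    ∀ᶠ q : α × M in l ×ˢ 𝓝 x, ContMDiffAt I 𝓘(ℝ, G) ∞ (f q.1) q.2 := by
  have h1 := (tendsto_id.prodMap (tend_chart (I := I) (mem_chart_source HM x))).eventually
    (CB.smooth h)
  filter_upwards [h1, tendsto_snd.eventually (chart_source_mem_nhds HM x)] with q a b
  exact smooth_of_chart b a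

omit [I.Boundaryless] [IsManifold I ∞ M] in
theorem bdd (h : MB I l x k f) : ∃ C, ∀ᶠ q : α × M in l ×ˢ 𝓝 x, ‖f q.1 q.2‖ ≤ C :=
  let ⟨C, hC⟩ := CB.bdd h
  ⟨C, ev_of_chart (I := I) (p := fun i y => ‖f i y‖ ≤ C) hC⟩

theorem zero_of (h1 : ∀ᶠ q : α × M in l ×ˢ 𝓝 x, ContMDiffAt I 𝓘(ℝ, G) ∞ (f q.1) q.2)
    (h2 : ∃ C, ∀ᶠ q : α × M in l ×ˢ 𝓝 x, ‖f q.1 q.2‖ ≤ C) : MB I l x 0 f := by
  obtain ⟨C, hC⟩ := h2
  refine CB.zero_iff.2 ⟨?_, C, ev_to_chart (I := I) (p := fun i y => ‖f i y‖ ≤ C) hC⟩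
  filter_upwards [ev_to_chart (I := I) (p := fun i y => ContMDiffAt I 𝓘(ℝ, G) ∞ (f i) y) h1,
    tendsto_snd.eventually (ev_target (I := I) (mem_chart_source HM x))] with q h2 h1
  have h3 : (extChartAt I x).symm q.2 ∈ (chartAt HM x).source := by
    simpa using (extChartAt I x).map_target h1
  have h4 := chart_symm_smoothAt (I := I) h3
  rw [(extChartAt I x).right_inv h1] at h4
  exact (h2.comp q.2 h4).contDiffAt

omit [IsManifold I ∞ M] in
theorem congr (h : MB I l x k f) (e : ∀ᶠ q : α × M in l ×ˢ 𝓝 x, g q.1 q.2 = f q.1 q.2) :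
    MB I l x k g := by
  refine CB.congr h ?_
  obtain ⟨pa, hpa, pb, hpb, H⟩ := eventually_prod_iff.1
    (ev_to_chart (I := I) (p := fun i y => g i y = f i y) e)
  filter_upwards [hpa.prod_mk hpb.eventually_nhds] with q hq
  exact hq.2.mono fun y hy => H hq.1 hy

theorem fixed {φ : M → G} (h : ∀ᶠ y in 𝓝 x, ContMDiffAt I 𝓘(ℝ, G) ∞ φ y) :
    MB I l x k fun _ => φ := cb_fixed (ev_smooth_chart (mem_chart_source HM x) h) l k

theorem fixed' {φ : M → G} (h : ContMDiff I 𝓘(ℝ, G) ∞ φ) : MB I l x k fun _ => φ :=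
  fixed (Eventually.of_forall h)

omit [I.Boundaryless] [IsManifold I ∞ M]

theorem of_le (h : MB I l x k f) {j : ℕ} (hj : j ≤ k) : MB I l x j f := CB.of_le h hj

theorem pred (h : MB I l x (k + 1) f) : MB I l x k f := CB.pred h

theorem mono (h : MB I l x k f) {l' : Filter α} (hl : l' ≤ l) : MB I l' x k f :=
  CB.mono h (prod_mono hl le_rfl)

theorem reindex {β : Type} (h : MB I l x k f) {l' : Filter β} {e : β → α} (he : Tendsto e l' l) :
    MB I l' x k fun j => f (e j) := CB.reindex h e (he.prodMap tendsto_id)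

theorem consts {c : α → G} (hc : ∃ C, ∀ᶠ i in l, ‖c i‖ ≤ C) : MB I l x k fun i _ => c i :=
  CB.consts (let ⟨C, hC⟩ := hc; ⟨C, tendsto_fst.eventually hC⟩)

theorem const (c : G) : MB I l x k fun _ _ => c := CB.const c

theorem add (hf : MB I l x k f) (hg : MB I l x k g) : MB I l x k fun i y => f i y + g i y :=
  CB.add hf hg

theorem sub (hf : MB I l x k f) (hg : MB I l x k g) : MB I l x k fun i y => f i y - g i y :=
  CB.sub hf hg

theorem neg (hf : MB I l x k f) : MB I l x k fun i y => -f i y := CB.neg hf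

theorem clm (T : G →L[ℝ] H) (hf : MB I l x k f) : MB I l x k fun i y => T (f i y) := CB.clm T hf

theorem const_smul (c : ℝ) (hf : MB I l x k f) : MB I l x k fun i y => c • f i y :=
  CB.const_smul c hf

theorem fsum {β : Type} (s : Finset β) {w : β → α → M → G} (h : ∀ a ∈ s, MB I l x k (w a)) :
    MB I l x k fun i y => ∑ a ∈ s, w a i y :=
  CB.fsum s (w := fun a i y => w a i ((extChartAt I x).symm y)) h

theorem sum {β : Type} [Fintype β] {w : β → α → M → G} (h : ∀ a, MB I l x k (w a)) :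
    MB I l x k fun i y => ∑ a, w a i y := fsum _ fun a _ => h a

theorem prodMk {w : α → M → H} (hf : MB I l x k f) (hw : MB I l x k w) :
    MB I l x k fun i y => (f i y, w i y) := CB.prodMk hf hw

theorem apply {β : Type} [Fintype β] {w : α → M → β → G} (h : MB I l x k w) (a : β) :
    MB I l x k fun i y => w i y a := CB.apply h a

theorem pi {β : Type} [Fintype β] {w : α → M → β → G} (h : ∀ a, MB I l x k fun i y => w i y a) :
    MB I l x k w := CB.pi h

theorem bil {u : α → M → F} (B : F →L[ℝ] G →L[ℝ] H) (hu : MB I l x k u) (hg : MB I l x k g) :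
    MB I l x k fun i y => B (u i y) (g i y) := CB.bil B hu hg

theorem smul {u : α → M → ℝ} (hu : MB I l x k u) (hf : MB I l x k f) :
    MB I l x k fun i y => u i y • f i y := CB.smul hu hf

theorem mul {𝔸 : Type} [NormedRing 𝔸] [NormedAlgebra ℝ 𝔸] {u v : α → M → 𝔸}
    (hu : MB I l x k u) (hv : MB I l x k v) : MB I l x k fun i y => u i y * v i y := CB.mul hu hv

theorem app {A : α → M → G →L[ℝ] H} (hA : MB I l x k A) (hf : MB I l x k f) :
    MB I l x k fun i y => A i y (f i y) := CB.app hA hf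

theorem clm_comp {A : α → M → G →L[ℝ] H} {B : α → M → F →L[ℝ] G} (hA : MB I l x k A)
    (hB : MB I l x k B) : MB I l x k fun i y => (A i y).comp (B i y) := CB.clm_comp hA hB

theorem post {Φ : G → H} {W K : Set G} (hW : IsOpen W) (hK : IsCompact K) (hKW : K ⊆ W)
    (hΦ : ContDiffOn ℝ ∞ Φ W) (hf : MB I l x k f) [I.Boundaryless]
    (hfK : ∀ᶠ q : α × M in l ×ˢ 𝓝 x, f q.1 q.2 ∈ K) : MB I l x k fun i y => Φ (f i y) :=
  CB.post hW hK hKW hΦ hf (ev_to_chart (I := I) (p := fun i y => f i y ∈ K) hfK)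

theorem post_smooth [FiniteDimensional ℝ G] {Φ : G → H} (hΦ : ContDiff ℝ ∞ Φ)
    (hf : MB I l x k f) : MB I l x k fun i y => Φ (f i y) := CB.post_smooth hΦ hf

theorem of_apply [FiniteDimensional ℝ F] {A : α → M → F →L[ℝ] G}
    (h : ∀ v, MB I l x k fun i y => A i y v) : MB I l x k A := CB.of_apply h

/-- values along moving points -/
theorem tendsto (h : MB I l x 1 f) {c : G} (hx : Tendsto (fun i => f i x) l (𝓝 c)) :
    Tendsto (fun q : α × M => f q.1 q.2) (l ×ˢ 𝓝 x) (𝓝 c) := by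
  have h1 := cb_tendsto h (c := c) (by simpa only [extChartAt_to_inv] using hx)
  intro s hs
  exact ev_of_chart (I := I) (p := fun i y => f i y ∈ s) (h1 hs)

/-- post-composition with a map smooth near the limit value -/
theorem post_at [FiniteDimensional ℝ G] [I.Boundaryless] {Φ : G → H} {c : G}
    (hΦ : ∀ᶠ v in 𝓝 c, ContDiffAt ℝ ∞ Φ v) (hf : MB I l x k f)
    (hc : Tendsto (fun q : α × M => f q.1 q.2) (l ×ˢ 𝓝 x) (𝓝 c)) :
    MB I l x k fun i y => Φ (f i y) := by
  have := FiniteDimensional.proper_real G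
  obtain ⟨W, hW, hWo, hcW⟩ := eventually_nhds_iff.1 hΦ
  obtain ⟨K, hK, hKW, hKc⟩ := local_compact_nhds (hWo.mem_nhds hcW)
  exact hf.post hWo hKc hKW (fun v hv => (hW v hv).contDiffWithinAt) (hc hK)

end MB

/-- the derivative along `X`, read in a chart -/
theorem dv_chart {x₀ y : M} (hy : y ∈ (chartAt HM x₀).source) {u : M → G}
    (hu : MDifferentiableAt I 𝓘(ℝ, G) u y) (X : (x : M) → TangentSpace I x) :
    dv I X u y = fderiv ℝ (fun z => u ((extChartAt I x₀).symm z)) (extChartAt I x₀ y)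
      (dv I X (extChartAt I x₀) y) :=
  (of_chart_hasFDerivAt hy (chart_differentiableAt hy hu).hasFDerivAt).2 X

namespace MB
variable {l : Filter α} {x : M} {k : ℕ} {f : α → M → G}

/-- derivatives along a family of vector fields with bounded jets -/
theorem dv {X : α → (x : M) → TangentSpace I x} (hf : MB I l x (k + 1) f)
    (hX : MB I l x k fun i => dv I (X i) (extChartAt I x)) :
    MB I l x k fun i => dv I (X i) (f i) := by
  have h1 : MB I l x k fun i y => fderiv ℝ (fun z => f i ((extChartAt I x).symm z))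
      (extChartAt I x y) := by
    refine CB.congr (CB.fd hf) ?_
    refine (tendsto_snd.eventually (ev_target (I := I)
      (mem_chart_source HM x)).eventually_nhds).mono fun q hq => hq.mono fun y hy => ?_
    simp only
    rw [(extChartAt I x).right_inv hy]
  refine (h1.app hX).congr ?_
  filter_upwards [hf.smooth, tendsto_snd.eventually (chart_source_mem_nhds HM x)] with q a b
  exact dv_chart b (a.mdifferentiableAt (by simp)) _

/-- a fixed smooth vector field -/
theorem vf {X : (x : M) → TangentSpace I x}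
    (hX : ∀ᶠ y in 𝓝 x, ContMDiffAt I I.tangent ∞ (fun x => (⟨x, X x⟩ : TangentBundle I M)) y) :
    MB I l x k fun _ : α => Sob92.dv I X (extChartAt I x) :=
  fixed ((hX.and (ev_chart_smooth (mem_chart_source HM x))).mono fun _ hy => dv_smoothAt hy.1 hy.2)

/-- **gain of one derivative** from the derivatives along a spanning family -/
theorem gain [FiniteDimensional ℝ E] {ι : Type} [Fintype ι]
    {X : ι → α → (x : M) → TangentSpace I x} {T : ι → E}
    (hX : ∀ a, MB I l x k fun i => Sob92.dv I (X a i) (extChartAt I x))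
    (hT : ∀ a, Tendsto (fun q : α × M => Sob92.dv I (X a q.1) (extChartAt I x) q.2) (l ×ˢ 𝓝 x)
      (𝓝 (T a)))
    (hs : ∀ v : E, ∃ c : ι → ℝ, ∑ a, c a • T a = v) (h0 : MB I l x 0 f)
    (h : ∀ a, MB I l x k fun i => Sob92.dv I (X a i) (f i)) : MB I l x (k + 1) f := by
  have : CompleteSpace E := FiniteDimensional.complete ℝ E
  have hsurj : (comb ι E T).range = ⊤ := by
    rw [LinearMap.range_eq_top]
    intro w
    obtain ⟨c, hc⟩ := hs w
    exact ⟨c, (comb_apply T c).trans hc⟩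
  obtain ⟨R₀, hR₀⟩ := (comb ι E T).exists_rightInverse_of_surjective hsurj
  set S : α → M → E →L[ℝ] E := fun i y =>
    (comb ι E fun a => Sob92.dv I (X a i) (extChartAt I x) y).comp R₀ with hS
  have hSb : MB I l x k S := ((MB.pi hX).clm (comb ι E)).clm_comp (const R₀)
  have hSt : Tendsto (fun q : α × M => S q.1 q.2) (l ×ˢ 𝓝 x) (𝓝 ((comb ι E T).comp R₀)) :=
    (((ContinuousLinearMap.compL ℝ E (ι → ℝ) E).flip R₀).continuous.tendsto _).comp
      (((comb ι E).continuous.tendsto T).comp (tendsto_pi_nhds.2 hT))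
  have hinv : ((comb ι E T).comp R₀).IsInvertible := by
    rw [hR₀]; exact ⟨ContinuousLinearEquiv.refl ℝ E, rfl⟩
  have hop : ∀ᶠ L in 𝓝 ((comb ι E T).comp R₀), L.IsInvertible :=
    ContinuousLinearEquiv.isOpen.mem_nhds hinv
  have hI : MB I l x k fun i y => (S i y).inverse :=
    hSb.post_at (hop.mono fun L hL => hL.contDiffAt_map_inverse) hSt
  have hd : MB I l x k fun i y => (comb ι G fun a => Sob92.dv I (X a i) (f i) y).comp
      (R₀.comp (S i y).inverse) := ((MB.pi h).clm (comb ι G)).clm_comp ((const R₀).clm_comp hI)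
  refine CB.succ_of_eq h0 hd ?_
  have h3 := ev_to_chart (I := I) (p := fun i y => (S i y).IsInvertible ∧
    ContMDiffAt I 𝓘(ℝ, G) ∞ (f i) y) ((hSt.eventually hop).and h0.smooth)
  obtain ⟨pa, hpa, pb, hpb, H⟩ := eventually_prod_iff.1 h3
  filter_upwards [hpa.prod_mk (hpb.and (ev_target (I := I)
    (mem_chart_source HM x))).eventually_nhds] with q hq
  refine hq.2.mono fun y hy => ?_
  obtain ⟨a, b⟩ := H hq.1 hy.1
  have h4 : (extChartAt I x).symm y ∈ (chartAt HM x).source := by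
    simpa using (extChartAt I x).map_target hy.2
  have := chart_hasFDerivAt (e := fun a => X a q.1) h4
    (R := R₀.comp (S q.1 ((extChartAt I x).symm y)).inverse)
    (fun v => a.self_apply_inverse v) (b.mdifferentiableAt (by simp))
  rw [(extChartAt I x).right_inv hy.2] at this
  exact this.fderiv

end MB

end Crest.Agent.X212.Cmp73
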