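import Crest.Agent.X212.Cmp73.Cv
import Crest.Agent.X212.Wz78.Core

/-!
# X212 / COMP (helper73), part 3: covariant derivative of fields of linear maps, push-forward
-/

set_option autoImplicit false
set_option linter.unusedSectionVars false
open Set Filter Topology Function
open scoped ContDiff Manifold InnerProductSpace

noncomputable section
namespace Crest.Agent.X212.Cmp73

open Sob92 Wz78

section ad
variable {U V W : Type} [NormedAddCommGroup U] [InnerProductSpace ℝ U] [FiniteDimensional ℝ U]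
  [NormedAddCommGroup V] [InnerProductSpace ℝ V] [FiniteDimensional ℝ V]
  [NormedAddCommGroup W] [InnerProductSpace ℝ W] [FiniteDimensional ℝ W]

/-- the transpose, as a continuous linear map -/
def ad : (V →L[ℝ] W) →L[ℝ] (W →L[ℝ] V) :=
  LinearMap.toContinuousLinearMap
    { toFun := An.Op.tr
      map_add' := fun A B => by simp [An.Op.tr]
      map_smul' := fun r A => by simp [An.Op.tr] }

theorem ad_eq_tr (A : V →L[ℝ] W) : ad A = An.Op.tr A := rfl

theorem inner_ad (A : V →L[ℝ] W) (w : W) (v : V) : ⟪ad A w, v⟫_ℝ = ⟪w, A v⟫_ℝ :=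
  LinearMap.adjoint_inner_left (A : V →ₗ[ℝ] W) v w

theorem inner_ad' (A : V →L[ℝ] W) (v : V) (w : W) : ⟪v, ad A w⟫_ℝ = ⟪A v, w⟫_ℝ := by
  rw [real_inner_comm, inner_ad, real_inner_comm]

theorem ad_eq {A : V →L[ℝ] W} {B : W →L[ℝ] V} (h : ∀ v w, ⟪A v, w⟫_ℝ = ⟪v, B w⟫_ℝ) : ad A = B :=
  ContinuousLinearMap.ext fun w => ext_inner_left ℝ fun v => by rw [inner_ad', h]

@[simp] theorem ad_ad (A : V →L[ℝ] W) : ad (ad A) = A := ad_eq fun v w => inner_ad A v w

@[simp] theorem ad_comp (A : V →L[ℝ] W) (B : U →L[ℝ] V) : ad (A ∘L B) = ad B ∘L ad A :=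
  ad_eq fun v w => by simp only [ContinuousLinearMap.comp_apply, inner_ad']

@[simp] theorem ad_mul (A B : V →L[ℝ] V) : ad (A * B) = ad B * ad A := ad_comp A B

@[simp] theorem ad_id : ad (ContinuousLinearMap.id ℝ V) = ContinuousLinearMap.id ℝ V :=
  ad_eq fun _ _ => rfl

@[simp] theorem ad_one : ad (1 : V →L[ℝ] V) = 1 := ad_id

theorem skew_iff {A : V →L[ℝ] V} : ad A = -A ↔ ∀ v w, ⟪A v, w⟫_ℝ = -⟪v, A w⟫_ℝ :=
  ⟨fun h v w => by rw [← inner_ad', h]; simp, fun h => ad_eq fun v w => by rw [h]; simp⟩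

theorem symm_iff {A : V →L[ℝ] V} : ad A = A ↔ ∀ v w, ⟪A v, w⟫_ℝ = ⟪v, A w⟫_ℝ :=
  ⟨fun h v w => by rw [← inner_ad', h], fun h => ad_eq h⟩

theorem skew_iff_self {A : V →L[ℝ] V} : ad A = -A ↔ ∀ v, ⟪A v, v⟫_ℝ = 0 := by
  rw [skew_iff]
  refine ⟨fun h v => ?_, fun h v w => ?_⟩
  · have := h v v
    rw [real_inner_comm (A v) v] at this
    linarith
  · have := h (v + w)
    simp only [map_add, inner_add_left, inner_add_right, h v, h w] at this
    rw [real_inner_comm (A w) v]
    linarith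

end ad

variable {E H : Type} [NormedAddCommGroup E] [NormedSpace ℝ E] [TopologicalSpace H]
  {I : ModelWithCorners ℝ E H} {M : Type} [TopologicalSpace M] [ChartedSpace H M] [IsManifold I 1 M]
  {U V W : Type} [NormedAddCommGroup U] [InnerProductSpace ℝ U] [FiniteDimensional ℝ U]
  [NormedAddCommGroup V] [InnerProductSpace ℝ V] [FiniteDimensional ℝ V]
  [NormedAddCommGroup W] [InnerProductSpace ℝ W] [FiniteDimensional ℝ W]
  {X : (x : M) → TangentSpace I x} {x : M}

theorem sa_comp {σ : M → V →L[ℝ] W} {τ : M → U →L[ℝ] V} (hσ : SA I σ x) (hτ : SA I τ x) :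
    SA I (fun y => σ y ∘L τ y) x := hσ.clm_comp hτ

theorem sa_ad {τ : M → V →L[ℝ] W} (hτ : SA I τ x) : SA I (fun y => ad (τ y)) x :=
  (ad (V := V) (W := W)).contDiff.contMDiff.contMDiffAt.comp x hτ

theorem dv_cmp {σ : M → V →L[ℝ] W} {τ : M → U →L[ℝ] V} (hσ : SA I σ x) (hτ : SA I τ x) :
    dv I X (fun y => σ y ∘L τ y) x = dv I X σ x ∘L τ x + σ x ∘L dv I X τ x :=
  dv_bil (ContinuousLinearMap.compL ℝ U V W) hσ.md hτ.md

theorem dv_ad {τ : M → V →L[ℝ] W} (hτ : SA I τ x) :
    dv I X (fun y => ad (τ y)) x = ad (dv I X τ x) :=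
  dv_clm (e := X) (ad (V := V) (W := W)) hτ.md

variable (I X) in
/-- covariant derivative of a field of linear maps -/
def cov (A : M → V →L[ℝ] V) (B : M → W →L[ℝ] W) (τ : M → V →L[ℝ] W) : M → V →L[ℝ] W :=
  fun x => dv I X τ x + B x ∘L τ x - τ x ∘L A x

variable {A : M → V →L[ℝ] V} {B : M → W →L[ℝ] W} {C : M → U →L[ℝ] U}

theorem cov_comp (A : M → V →L[ℝ] V) {σ : M → V →L[ℝ] W} {τ : M → U →L[ℝ] V} (hσ : SA I σ x)
    (hτ : SA I τ x) : cov I X C B (fun y => σ y ∘L τ y) x =
      cov I X A B σ x ∘L τ x + σ x ∘L cov I X C A τ x := by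
  simp only [cov, dv_cmp hσ hτ]
  ext v
  simp only [_root_.add_apply, _root_.sub_apply,
    ContinuousLinearMap.comp_apply, map_add, map_sub]
  abel

theorem cov_ad {τ : M → V →L[ℝ] W} (hτ : SA I τ x) (hA : ad (A x) = -A x) (hB : ad (B x) = -B x) :
    cov I X B A (fun y => ad (τ y)) x = ad (cov I X A B τ x) := by
  simp only [cov, dv_ad hτ, map_add, map_sub, ad_comp, hA, hB, ContinuousLinearMap.comp_neg,
    ContinuousLinearMap.neg_comp]
  abel

theorem cov_congr {σ τ : M → V →L[ℝ] W} (h : σ =ᶠ[𝓝 x] τ) :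
    cov I X A B σ x = cov I X A B τ x := by
  simp only [cov, dv_congr h, h.self_of_nhds]

theorem cov_sa {τ : M → V →L[ℝ] W}
    (hX : ContMDiffAt I I.tangent ∞ (fun x => (⟨x, X x⟩ : TangentBundle I M)) x)
    (hA : SA I A x) (hB : SA I B x) (hτ : SA I τ x) : SA I (cov I X A B τ) x :=
  ((dv_smoothAt hX hτ).add (sa_comp hB hτ)).sub (sa_comp hτ hA)

/-- the covariant derivative of a section commutes with a parallel map -/
theorem dv_app_cov {τ : M → V →L[ℝ] W} {u : M → V} (hτ : SA I τ x) (hu : SA I u x) :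
    dv I X (fun y => τ y (u y)) x + B x (τ x (u x)) =
      cov I X A B τ x (u x) + τ x (dv I X u x + A x (u x)) := by
  rw [dv_app hτ.md hu.md]
  simp only [cov, _root_.add_apply, _root_.sub_apply,
    ContinuousLinearMap.comp_apply, map_add]
  abel

variable (I X) in
/-- push-forward of a connection form along an isometric embedding -/
def push (ι : M → V →L[ℝ] W) (A : M → V →L[ℝ] V) : M → W →L[ℝ] W := fun x =>
  ι x ∘L A x ∘L ad (ι x) - dv I X ι x ∘L ad (ι x) + ι x ∘L ad (dv I X ι x)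
    - ι x ∘L ad (dv I X ι x) ∘L ι x ∘L ad (ι x)

theorem push_sa {ι : M → V →L[ℝ] W}
    (hX : ContMDiffAt I I.tangent ∞ (fun x => (⟨x, X x⟩ : TangentBundle I M)) x)
    (hι : SA I ι x) (hA : SA I A x) : SA I (push I X ι A) x := by
  have h1 := dv_smoothAt hX hι
  exact (((sa_comp hι (sa_comp hA (sa_ad hι))).sub (sa_comp h1 (sa_ad hι))).add
    (sa_comp hι (sa_ad h1))).sub (sa_comp hι (sa_comp (sa_ad h1) (sa_comp hι (sa_ad hι))))

/-- an isometric embedding of the range of the projector field `p`, near `x` -/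
structure Emb (I : ModelWithCorners ℝ E H) (p : M → V →L[ℝ] V) (ι : M → V →L[ℝ] W) (x : M) :
    Prop where
  sa : SA I ι x
  iso : ∀ᶠ y in 𝓝 x, ad (ι y) ∘L ι y = p y
  rp : ∀ᶠ y in 𝓝 x, ι y ∘L p y = ι y

namespace Emb
variable {p : M → V →L[ℝ] V} {ι : M → V →L[ℝ] W} (h : Emb I p ι x)
include h

theorem sp : SA I p x :=
  (sa_comp (sa_ad h.sa) h.sa).congr_of_eventuallyEq (h.iso.mono fun _ hy => hy.symm)

theorem psymm : ad (p x) = p x := by rw [← h.iso.self_of_nhds]; simp

theorem lp : p x ∘L ad (ι x) = ad (ι x) := by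
  have := congrArg ad h.rp.self_of_nhds
  rwa [ad_comp, h.psymm] at this

theorem dp : dv I X p x = ad (dv I X ι x) ∘L ι x + ad (ι x) ∘L dv I X ι x := by
  rw [← dv_congr (h.iso : (fun y => ad (ι y) ∘L ι y) =ᶠ[𝓝 x] p), dv_cmp (sa_ad h.sa) h.sa,
    dv_ad h.sa]

theorem dι : dv I X ι x = dv I X ι x ∘L p x + ι x ∘L dv I X p x := by
  rw [← dv_cmp h.sa h.sp, dv_congr (h.rp : (fun y => ι y ∘L p y) =ᶠ[𝓝 x] ι)]

theorem idem : ∀ᶠ y in 𝓝 x, p y ∘L p y = p y := by
  filter_upwards [h.iso, h.rp] with y a b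
  conv_lhs => arg 1; rw [← a]
  rw [ContinuousLinearMap.comp_assoc, b, a]

theorem pdp : ι x ∘L dv I X p x ∘L ad (ι x) = 0 := by
  have h1 : dv I X p x = dv I X p x ∘L p x + p x ∘L dv I X p x := by
    rw [← dv_cmp h.sp h.sp, dv_congr (h.idem : (fun y => p y ∘L p y) =ᶠ[𝓝 x] p)]
  have h2 : ι x ∘L dv I X p x ∘L ad (ι x) =
      ι x ∘L dv I X p x ∘L ad (ι x) + ι x ∘L dv I X p x ∘L ad (ι x) := by
    conv_lhs => rw [h1]
    rw [ContinuousLinearMap.add_comp, ContinuousLinearMap.comp_add, ContinuousLinearMap.comp_assoc,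
      h.lp, ContinuousLinearMap.comp_assoc, ← ContinuousLinearMap.comp_assoc (ι x) (p x),
      h.rp.self_of_nhds]
  exact left_eq_add.1 h2

theorem push_skew (hA : ad (A x) = -A x) : ad (push I X ι A x) = -push I X ι A x := by
  have h1 := h.pdp (X := X)
  rw [h.dp] at h1
  have h2 : ∀ v, ι x (ad (ι x) (dv I X ι x (ad (ι x) v))) =
      -ι x (ad (dv I X ι x) (ι x (ad (ι x) v))) := fun v => by
    have := congrArg (fun L => L v) h1
    simp only [_root_.add_apply, ContinuousLinearMap.comp_apply, map_add,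
      _root_.zero_apply] at this
    exact eq_neg_of_add_eq_zero_right this
  simp only [push, map_add, map_sub, ad_comp, ad_ad, hA]
  ext v
  simp only [_root_.add_apply, _root_.sub_apply,
    ContinuousLinearMap.comp_apply, _root_.neg_apply, map_neg, h2]
  abel

/-- `ι` is parallel for the pushed connection -/
theorem push_cov (hp : cov I X A A p x = 0) : cov I X A (push I X ι A) ι x = 0 := by
  have a : ∀ v, ad (ι x) (ι x v) = p x v := fun v => congrArg (fun L => L v) h.iso.self_of_nhds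
  have b : ∀ v, ι x (p x v) = ι x v := fun v => congrArg (fun L => L v) h.rp.self_of_nhds
  have c : ∀ v, dv I X ι x v = dv I X ι x (p x v) + ι x (dv I X p x v) := fun v =>
    congrArg (fun L => L v) (h.dι (X := X))
  have d : ∀ v, dv I X p x v = p x (A x v) - A x (p x v) := fun v => by
    have := congrArg (fun L => L v) hp
    simp only [cov, _root_.add_apply, _root_.sub_apply,
      ContinuousLinearMap.comp_apply, _root_.zero_apply] at this
    rw [← sub_eq_zero, ← this]; abel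
  ext v
  simp only [cov, push, _root_.add_apply, _root_.sub_apply,
    ContinuousLinearMap.comp_apply, _root_.zero_apply, a, b]
  rw [c v, d v, map_sub, b]
  abel

theorem push_comm {J : V →L[ℝ] V} {J' : W →L[ℝ] W} (hJ : ad J = -J) (hJ' : ad J' = -J')
    (hι : ∀ᶠ y in 𝓝 x, J' ∘L ι y = ι y ∘L J) (hA : J ∘L A x = A x ∘L J) :
    J' ∘L push I X ι A x = push I X ι A x ∘L J' := by
  have e1 : J' ∘L dv I X ι x = dv I X ι x ∘L J := by
    have h1 := dv_cmp (X := X) (contMDiffAt_const (c := J')) h.sa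
    have h2 := dv_cmp (X := X) h.sa (contMDiffAt_const (c := J))
    rw [dv_congr (hι : (fun y => J' ∘L ι y) =ᶠ[𝓝 x] fun y => ι y ∘L J), h2] at h1
    simpa using h1.symm
  have t : ∀ {L : V →L[ℝ] W}, J' ∘L L = L ∘L J → ∀ v, J (ad L v) = ad L (J' v) := fun hL v => by
    have := congrArg ad hL
    simp only [ad_comp, hJ, hJ', ContinuousLinearMap.comp_neg, ContinuousLinearMap.neg_comp,
      neg_inj] at this
    exact (congrArg (fun L => L v) this).symm
  have a : ∀ v, J' (ι x v) = ι x (J v) := fun v => congrArg (fun L => L v) hι.self_of_nhds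
  have b : ∀ v, J' (dv I X ι x v) = dv I X ι x (J v) := fun v => congrArg (fun L => L v) e1
  have c : ∀ v, J (A x v) = A x (J v) := fun v => congrArg (fun L => L v) hA
  ext v
  simp only [push, _root_.add_apply, _root_.sub_apply,
    ContinuousLinearMap.comp_apply, map_add, map_sub, a, b, c, t hι.self_of_nhds, t e1]

end Emb

/-- the push-forward is linear in the direction -/
theorem push_proj {κ : Type} [Fintype κ] {e : κ → (x : M) → TangentSpace I x}
    {A' : κ → M → V →L[ℝ] V} {t : κ → ℝ} {ι : M → V →L[ℝ] W} (he : ∑ b, t b • e b x = X x)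
    (hA : ∑ b, t b • A' b x = A x) : ∑ b, t b • push I (e b) ι (A' b) x = push I X ι A x := by
  have hd : dv I X ι x = ∑ b, t b • dv I (e b) ι x := by
    simp only [dv, ← he, map_sum, map_smul]
    rfl
  simp only [push, ← hA, hd, map_sum, map_smul, ContinuousLinearMap.comp_finsetSum,
    ContinuousLinearMap.finsetSum_comp, ContinuousLinearMap.comp_smul,
    ContinuousLinearMap.smul_comp, smul_add, smul_sub, Finset.sum_add_distrib,
    Finset.sum_sub_distrib]

end Crest.Agent.X212.Cmp73
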