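import Crest.Agent.X212.Cmp73.St
import Crest.Agent.X212.Cmp73.Cov
import Crest.Agent.X212.Pj41.Cm
import Crest.Agent.X212.Wz78.Par
import Crest.Agent.X212.Eqv71.Alg
import Crest.Agent.X212.Th31.Cu

/-!
# X212 / COMP (helper73), part 8: converging backgrounds, hypotheses and conclusion of COMP
-/

set_option autoImplicit false
set_option linter.unusedSectionVars false
open Set Filter Topology Function MeasureTheory Metric
open scoped ContDiff Manifold InnerProductSpace NNReal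

noncomputable section
namespace Crest.Agent.X212.Cmp73

open An
open Sob92 (dv)
open Wz78 (nab dir)
open Pj41 (FRel cmM Iso0)

section nF
variable {α M : Type} [TopologicalSpace M] {l : Filter α} {U U' : Set M} {x : M}

/-- first `n → l`, then `y → x` inside `U` -/
def nF (l : Filter α) (U : Set M) (x : M) : Filter (α × M) := (𝓝[U] x).bind fun y => l ×ˢ 𝓝 y

theorem ev_nF {p : α × M → Prop} :
    (∀ᶠ q in nF l U x, p q) ↔ ∀ᶠ y in 𝓝[U] x, ∀ᶠ q in l ×ˢ 𝓝 y, p q := eventually_bind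

theorem nF_mono (h : U ⊆ U') : nF l U x ≤ nF l U' x := fun _ hD =>
  (nhdsWithin_mono x h) hD

theorem le_nF (hx : x ∈ U) : l ×ˢ 𝓝 x ≤ nF l U x := fun _ hD =>
  (ev_nF.1 hD).self_of_nhdsWithin hx

theorem nF_le : nF l U x ≤ l ×ˢ 𝓝 x := fun D hD => by
  obtain ⟨s, hs, t, ht, h⟩ := mem_prod_iff.1 hD
  refine ev_nF.2 (nhdsWithin_le_nhds ((eventually_eventually_nhds.2 ht).mono fun y hy => ?_))
  exact mem_of_superset (prod_mem_prod hs hy) h

theorem nF_eq (hx : x ∈ U) : nF l U x = l ×ˢ 𝓝 x := le_antisymm nF_le (le_nF hx)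

/-- near `x`, the filters of the points of `U` are finer on a given set -/
theorem ev_ev_nF {p : α × M → Prop} (h : ∀ᶠ q in nF l U x, p q) :
    ∀ᶠ y in 𝓝[U] x, ∀ᶠ q in l ×ˢ 𝓝 y, p q := ev_nF.1 h

/-- the slices of a set of the filter eventually contain the compact sets near `x` -/
theorem nF_compact {p : α × M → Prop} (h : ∀ᶠ q in nF l U x, p q) :
    ∃ N ∈ 𝓝 x, ∀ K, IsCompact K → K ⊆ N ∩ U → ∀ᶠ n in l, ∀ y ∈ K, p (n, y) := by
  obtain ⟨N, hN, h1⟩ := eventually_nhdsWithin_iff.1 (ev_nF.1 h) |>.exists_mem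
  exact ⟨N, hN, fun K hK hs => ev_compact hK (p := fun n y => p (n, y)) fun y hy =>
    h1 y (hs hy).1 (hs hy).2⟩

end nF

variable {E : Type} [NormedAddCommGroup E] [NormedSpace ℝ E] [FiniteDimensional ℝ E]
  [MeasurableSpace E] [BorelSpace E]
  {HM : Type} [TopologicalSpace HM] {I : ModelWithCorners ℝ E HM}
  {E₀ : Type} [NormedAddCommGroup E₀] [NormedSpace ℝ E₀] [FiniteDimensional ℝ E₀]
  [MeasurableSpace E₀] [BorelSpace E₀]
  {H₀ : Type} [TopologicalSpace H₀] {I₀ : ModelWithCorners ℝ E₀ H₀}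
  {M : Type} [TopologicalSpace M] [ChartedSpace H₀ M] [IsManifold I₀ ∞ M] [MeasurableSpace M]
  {ι lam : Type} [Fintype ι] [Fintype lam] {α : Type}
  {X : α → Type} [∀ n, TopologicalSpace (X n)] [∀ n, ChartedSpace HM (X n)]
  [∀ n, IsManifold I ∞ (X n)] [∀ n, MeasurableSpace (X n)] {r : ℕ}

variable (I₀) in
/-- smooth convergence of vector fields on `M` -/
structure VCv (l : Filter α) (v : α → (x : M) → TangentSpace I₀ x) (w : (x : M) → TangentSpace I₀ x) :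
    Prop where
  mb : ∀ k x, MB I₀ l x k fun n => dv I₀ (v n) (extChartAt I₀ x)
  pt : ∀ x, Tendsto (fun n => dv I₀ (v n) (extChartAt I₀ x) x) l (𝓝 (dv I₀ w (extChartAt I₀ x) x))

variable (I I₀ X M ι lam) in
/-- backgrounds `(B n, G n)` on `X n`, which are literally `(B₀, H n)` over the source of `ψ n`;
`H n → G₀` on `M`, and the sources exhaust the complement of the finite set `P` -/
structure Gs where
  l : Ultrafilter α
  B : ∀ n, Base (X n) ι lam
  G : ∀ n, Geo I (X n) ι lam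
  B₀ : Base M ι lam
  G₀ : Geo I₀ M ι lam
  H : α → Geo I₀ M ι lam
  ψ : ∀ n, OpenPartialHomeomorph M (X n)
  P : Set M

namespace Gs
variable (g : Gs I I₀ M ι lam X)

structure OK : Prop where
  h4 : Module.finrank ℝ E₀ = 4
  B : ∀ n, (g.B n).OK I
  G : ∀ n, (g.G n).OK (g.B n)
  B₀ : g.B₀.OK I₀
  G₀ : g.G₀.OK g.B₀
  H : ∀ n, (g.H n).OK g.B₀
  fin : g.P.Finite
  src : ∀ x ∉ g.P, ∀ᶠ q in (g.l : Filter α) ×ˢ 𝓝 x, q.2 ∈ (g.ψ q.1).source
  rel : ∀ n, FRel (g.H n).F (g.G n).F (g.ψ n) (g.ψ n).source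
  bo : ∀ n, ∀ x ∈ (g.ψ n).source, ∀ a b c d, (g.B n).o a b c d (g.ψ n x) = g.B₀.o a b c d x
  bl : ∀ n, ∀ x ∈ (g.ψ n).source, (g.B n).l (g.ψ n x) = g.B₀.l x
  il : ∀ n, (g.B n).il = g.B₀.il
  la : ∀ n, ∀ x ∈ (g.ψ n).source, ∀ a, (g.G n).a a (g.ψ n x) = (g.H n).a a x
  e : ∀ a, VCv I₀ g.l (fun n => (g.H n).F.e a) (g.G₀.F.e a)
  c : ∀ a b k, Cv I₀ g.l univ (fun n => (g.H n).F.c a b k) (g.G₀.F.c a b k)
  a : ∀ a, Cv I₀ g.l univ (fun n => (g.H n).a a) (g.G₀.a a)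

/-- the points of `X n` which are close to `x`, seen from `U` -/
def F (U : Set M) (x : M) : Filter (Σ n, X n) := (nF g.l U x).map fun q => ⟨q.1, g.ψ q.1 q.2⟩

variable (c : ∀ n, Cfg (X n) ι lam r)

/-- the curvature of the family -/
abbrev Fg (n : α) : X n → Fm (ι × ι) (c n).m.A := (c n).m.Fg (g.G n).F (c n).W

/-- the analytic background of a family of configurations -/
def fb (F : Filter (Σ n, X n)) : Fb I ι X where
  F := F
  e n := (g.G n).F.e
  P n := (g.G n).F.P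
  c n := (g.G n).F.c
  frm n := Wz78.frm (g.G n).F
  μ n := (g.G n).F.μ
  en n x := ‖g.Fg c n x‖ ^ 2

/-- the base system: the curvature and the derivative of the spinor -/
def bs : Sy ι X where
  κ := (ι × ι) ⊕ ι
  f := Sum.elim
    (fun s => ⟨fun n => (c n).m.A, fun n => (c n).m.adW (c n).W, fun n x => g.Fg c n x s, false⟩)
    fun a => ⟨fun n => (c n).m.V, fun n => (c n).W,
      fun n => nab I (g.G n).F.e (c n).W a (c n).Φ, true⟩

/-- the energy of the part of `X n` over `N` -/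
def en (n : α) (N : Set M) : ENNReal :=
  ∫⁻ x in g.ψ n '' (N ∩ (g.ψ n).source), ENNReal.ofReal (‖g.Fg c n x‖ ^ 2) ∂(g.G n).F.μ

/-- energy concentrates at `x` -/
def Bub (x : M) : Prop := ∃ ε : ℝ≥0, 0 < ε ∧ ∀ N ∈ 𝓝 x, ∀ᶠ n in (g.l : Filter α), ε ≤ g.en c n N

/-- the exceptional set -/
def S : Set M := g.P ∪ {x | g.Bub c x}

end Gs

/-- the energy is bounded along the filter -/
def Fb.En (b : Fb I ι X) : Prop := ∃ C : ℝ≥0, ∃ D ∈ b.F, ∀ n,
  ∫⁻ x in Sigma.mk n ⁻¹' D, ENNReal.ofReal (b.en n x) ∂b.μ n ≤ C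

/-- bounded geometry along the filter -/
structure GB (b : Fb I ι X) (B : ∀ n, Base (X n) ι lam) (G : ∀ n, Geo I (X n) ι lam) : Prop where
  c : ∀ a a' k, b.CS fun n => (G n).F.c a a' k
  dv : ∀ a, b.CS fun n => (G n).F.dv a
  P : ∀ a a', b.CS fun n => (B n).P a a'
  o : ∀ a a' k k', b.CS fun n => (B n).o a a' k k'
  l : b.CB (tv X ι fun _ => En lam) fun n => (B n).l
  a : ∀ a, b.CB (tv X ι fun _ => En lam) fun n => (G n).a a

namespace Gs
variable (g : Gs I I₀ M ι lam X) (c : ∀ n, Cfg (X n) ι lam r)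
  {V : α → Type} [∀ n, NormedAddCommGroup (V n)] [∀ n, NormedSpace ℝ (V n)]

/-- bounded sections whose jets are controlled near `x` by finitely many fields -/
abbrev Pf (x : M) (A : ∀ n, ι → X n → V n →L[ℝ] V n) (s : ∀ n, X n → V n) : Prop :=
  PF (g.fb c (g.F g.Pᶜ x)) (g.bs c) sP A s

/-- all covariant derivatives are bounded near `x`, off `S` -/
abbrev CB (S : Set M) (x : M) (A : ∀ n, ι → X n → V n →L[ℝ] V n) (s : ∀ n, X n → V n) : Prop :=
  (g.fb c (g.F Sᶜ x)).CB A s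

/-- admissible right hand sides of the curvature equation -/
def HC (C : ∀ n, X n → Fm (ι × ι) (c n).m.A) : Prop := ∀ x, ∃ θ : ∀ n, X n → Fm (ι × ι) (c n).m.A,
  (∀ n y s, θ n y s ∈ (c n).m.gS y) ∧ Th31.TH (g.fb c (g.F g.Pᶜ x)) (g.bs c)
    (fun n => (c n).m.adW (c n).W) (fun i l n y => θ n y (i, l)) ∧
  ∀ s, g.Pf c x (fun n => (c n).m.adW (c n).W) fun n y => (C n y - (c n).m.p2 (g.B n) y (θ n y)) s

/-- the hypotheses of COMP -/
structure Hyp : Prop where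
  adm : ∀ n, (c n).Adm (g.B n) (g.G n)
  Φ : ∀ x, (g.fb c (g.F g.Pᶜ x)).Bd fun n => (c n).Φ
  en : ∀ x, (g.fb c (g.F g.Pᶜ x)).En
  D : ∀ x, g.Pf c x (fun n => (c n).W) fun n => dir I (g.G n).F.e (c n).m.ρ (c n).W (c n).Φ
  C : g.HC c fun n y =>
    (c n).m.p2 (g.B n) y (g.Fg c n y) - (c n).m.mu (g.B n) y ((c n).Φ y) ((c n).Φ y)

variable (c' : Cfg M ι lam r) (S : Set M) (u : ∀ n, M → CL (c n).m.V c'.m.V)

/-- the connection of `c'` minus the transported connection of `c n` -/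
def dA (a : ι) (n : α) (x : M) : En (Fin c'.m.N) :=
  ((g.H n).F.D a (u n) x + c'.W a x ∘L u n x - u n x ∘L (c n).W a (g.ψ n x)) ∘L trn (u n x)

/-- convergence of configurations off `S` -/
structure Lim : Prop where
  adm : c'.Adm g.B₀ g.G₀
  P : g.P ⊆ S
  fin : ∀ K, IsCompact K → (S ∩ K).Finite
  iso : ∀ x ∉ S, ∃ O, IsOpen O ∧ x ∈ O ∧
    ∀ᶠ n in (g.l : Filter α), Iso0 I₀ (cmM (g.ψ n) (c n).m) c'.m O (u n)
  A : ∀ a, Cv I₀ g.l Sᶜ (g.dA c c' u a) fun _ => 0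
  Φ : Cv I₀ g.l Sᶜ (fun n x => u n x ((c n).Φ (g.ψ n x))) c'.Φ
  z : Tendsto (fun n => (c n).z) g.l (𝓝 c'.z)

/-- convergence of spinor fields -/
structure LV (s : ∀ n, X n → (c n).m.V) (s' : M → c'.m.V) : Prop where
  sm : Sm I₀ s'
  cv : Cv I₀ g.l Sᶜ (fun n x => u n x (s n (g.ψ n x))) s'

/-- convergence of endomorphism fields -/
structure LA (s : ∀ n, X n → (c n).m.A) (s' : M → c'.m.A) : Prop where
  sm : Sm I₀ s'
  cv : Cv I₀ g.l Sᶜ (fun n x => Eqv71.cj (u n x) (s n (g.ψ n x))) s'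

end Gs

end Crest.Agent.X212.Cmp73
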