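import Crest.Agent.X212.Cmp73.Spl
import Crest.Agent.X212.Loc66.Paste

/-!
# X212 / COMP (helper73), part 21: `J.Comp` from the leaves
-/

set_option autoImplicit false
set_option linter.unusedSectionVars false
open Set Filter Topology Function MeasureTheory
open scoped ContDiff Manifold InnerProductSpace NNReal ENNReal

noncomputable section
namespace Crest.Agent.X212.Cmp73

open An An.Job M Nd18 Abel74 Eqv71 Cyl58
open Fin37 (core cE Pm)

theorem sum_small {K : Type} [Fintype K] {t : K → ℝ} {ε : ℝ} (hε : 0 ≤ ε)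
    (h : ∀ a, |t a| ≤ ε / (Fintype.card K + 1)) : |∑ a, t a| ≤ ε :=
  (Finset.abs_sum_le_sum_abs _ _).trans ((Finset.sum_le_card_nsmul _ _ _ fun a _ => h a).trans (by
    rw [nsmul_eq_mul, Finset.card_univ, mul_div_assoc', div_le_iff₀ (by positivity)]; nlinarith))

theorem jump {α K : Type} [Fintype K] {l : Filter α} {t : α → K → ℝ} {m : ℝ}
    (h : ∀ a, ∀ δ > 0, ∀ᶠ i in l, -δ ≤ t i a) (hm : 0 ≤ m)
    (k : 0 < m ∨ ∃ a, ∃ ε > 0, ∀ᶠ i in l, ε ≤ t i a) : ∃ ε > 0, ∀ᶠ i in l, ε ≤ m + ∑ a, t i a := by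
  have key : ∀ ε > 0, ∀ᶠ i in l, (∀ a, 0 ≤ t i a + ε / (Fintype.card K + 1)) ∧
      ∑ a, (t i a + ε / (Fintype.card K + 1)) ≤ ε + ∑ a, t i a := fun ε hε =>
    (eventually_all.2 fun a => h a (ε / (Fintype.card K + 1)) (by positivity)).mono fun i hi =>
      ⟨fun a => by linarith [hi a], by
        rw [Finset.sum_add_distrib, add_comm]
        exact add_le_add_left ((le_abs_self _).trans (sum_small hε.le fun _ =>
          (abs_of_nonneg (by positivity)).le)) _⟩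
  rcases k with k | ⟨a, ε, hε, k⟩
  · exact ⟨m / 2, half_pos k, (key _ (half_pos k)).mono fun i hi => by
      linarith [hi.2, Finset.sum_nonneg fun a (_ : a ∈ Finset.univ) => hi.1 a]⟩
  · exact ⟨ε / 2, half_pos hε, ((key _ (half_pos hε)).and k).mono fun i hi => by
      linarith [hi.1.2, hi.2, Finset.single_le_sum (fun a _ => hi.1.1 a) (Finset.mem_univ a),
        show 0 ≤ ε / 2 / (Fintype.card K + 1) by positivity]⟩

variable {Wi : Type} {X : Mf 4} {A κ lam : Type} [Fintype A] [Fintype κ] [Fintype lam]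
  [DecidableEq lam] {M : Mark X A κ} {W : World M} {N : ML M lam}
  {Λ : Lns W N} {A' h : Type} [Fintype A'] [DecidableEq A'] [Fintype h] {r n : ℕ}
  {J : Job Wi Λ A' h r n} {Adm : (Wi →₀ ℝ) → Prop}

namespace Fam
variable {α : Type} {c c₀ : M.Cl} {F : Fam J α c c₀}

theorem nv_eq (i : α) (a : A) (e : Option Bool) (R : ℝ) :
    F.nv i a e R = (F.y i).kap (Tn J c (F.y i).s R (a, e)) := by
  by_cases ha : Act J.m c a e (F.p i)
  · rw [nv, dif_pos ha, Tn_pos (i := (a, e)) ha]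
  · rw [nv, dif_neg ha, Tn_neg (i := (a, e)) ha]; exact setIntegral_empty.symm

variable (F) in
/-- the cuts which are kept -/
def H₀ (E : Set (W.Z c₀).M) : Set h :=
  {k | k ∈ J.unc c₀ ∧ (∀ i, k ∈ (F.y i).H) ∧ Disjoint (J.cut c₀ k).supp E}

variable (hJ : J.OK) (hF : F.OK Adm)
include hF

theorem OK.pm (i : α) : Pm J c (F.y i).s := ⟨F.σ, hF.mem, (hF.sol i).cell, (hF.sol i).inf⟩

theorem OK.pm₀ : Pm J c₀ F.s₀ := ⟨F.σ, hF.mem, hF.cell, hF.inf⟩

include hJ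

theorem OK.far : ∀ᶠ R in atTop, ∀ᶠ i in (F.l : Filter α), ∀ a ∉ cylW c₀, ∀ e,
    Tn J c (F.y i).s R (a, e) = ∅ := by
  have k : ∀ᶠ i in (F.l : Filter α), ∀ a ∉ c₀.1, nl ((F.p i).2 a) ≤ nl (F.p₀.2 a) + 1 :=
    eventually_all.2 fun a => eventually_imp_distrib_left.2 fun ha =>
      ((continuousAt_len (((Pat85.pm_par hJ hF.pm₀).2.1.1.1 a).2.lt_of_ne fun e => ha (hF.inf.le e))
        false 1).tendsto.comp ((((continuous_apply a).comp (continuous_snd.comp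
          hJ.sm.continuous)).tendsto _).comp hF.s)).eventually (ge_mem_nhds (lt_add_one _))
  filter_upwards [eventually_all.2 fun a => eventually_ge_atTop ((nl (F.p₀.2 a) + 1) / 2)] with R hR
  refine k.mono fun i hi a ha e => ?_
  by_cases hp : M.pin a
  · exact Tn_neg fun k => k.1 hp
  cases e with
  | none => exact Tn_none hJ (by linarith [hi a fun k => ha ⟨k, hp⟩, hR a])
  | some e => exact Tn_neg fun k => ha ⟨hF.sub k.2.2.2, hp⟩

theorem OK.lev {k : A → ℝ} (hk : ∀ a ∈ cylW c₀, ∀ ε > 0, ∀ᶠ R in atTop, ∀ᶠ i in (F.l : Filter α),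
    |∑ e, F.nv i a e R + (cylW c).indicator (F.y i).k a - k a| ≤ ε) (i₀ : α) : ∀ ε > 0,
    ∀ᶠ R in atTop, ∀ᶠ i in (F.l : Filter α), |J.k - (∑ a, (cylW c₀).indicator k a + (F.y i₀).l) -
      (F.y i).kap (core J c (F.y i).s R)| ≤ ε := fun ε hε => by
  filter_upwards [hF.far hJ, eventually_ge_atTop 0, eventually_all.2 fun a =>
    eventually_imp_distrib_left.2 fun ha => hk a ha (ε / (Fintype.card A + 1)) (by positivity)]
    with R h1 h2 h3
  filter_upwards [h1, eventually_all.2 fun a => eventually_imp_distrib_left.2 (h3 a)] with i k1 k2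
  have e := split hJ (hF.pm i) h2 (hF.sol i).int MeasurableSet.univ
  simp only [univ_inter, Measure.restrict_univ] at e
  refine (congrArg abs ?_).trans_le (sum_small (t := fun a => ∑ e, F.nv i a e R +
    (cylW c).indicator (F.y i).k a - (cylW c₀).indicator k a) hε.le fun a => ?_)
  · simp only [Finset.sum_sub_distrib, Finset.sum_add_distrib, nv_eq, Obc.kap, hF.l i₀ i]
    linarith [(hF.sol i).lev, show (F.y i).x.kap (J.B c) (J.G c (F.y i).s) = _ from e]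
  by_cases ha : a ∈ cylW c₀
  · rw [indicator_of_mem ha]; exact k2 a ha
  · rw [indicator_of_notMem ha, indicator_of_notMem fun e => ha ⟨hF.sub e.1, e.2⟩]
    simp only [nv_eq, k1 a ha, Obc.kap, setIntegral_empty, Finset.sum_const_zero, add_zero, sub_zero,
      abs_zero]
    positivity

theorem OK.drop {S : F.Sc} (hS : S.OK) {E : Set (W.Z c₀).M} {m : ℕ} (hm : (E \ S.P).encard ≤ m)
    (i : α) : (J.unc c₀ \ F.H₀ E).ncard ≤ (F.y i).l + m := by
  let T : Set h := {k | k ∈ J.unc c₀ ∧ ¬Disjoint (J.cut c₀ k).supp E}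
  have h1 : ∀ k ∈ T, ∃ x ∈ J.nb k, W.φ c₀ x ∈ E := fun k hk =>
    let ⟨_, ⟨z, e⟩, h2⟩ := not_disjoint_iff.1 hk.2
    ⟨_, (hJ.nb k).2.sub ⟨z, rfl⟩, mem_of_eq_of_mem e h2⟩
  have : Nonempty X.M := ⟨(W.φ c₀).symm (Classical.arbitrary _)⟩
  choose! x h1 h2 using h1
  have h3 : ∀ k ∈ T, x k ∉ M.sys.cores c₀.1 := fun k hk => disjoint_left.1 hk.1 (h1 k hk)
  have h4 : T.encard ≤ m := (encard_le_encard_of_injOn (f := fun k => W.φ c₀ (x k)) (t := E \ S.P)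
    (fun k hk => ⟨h2 k hk, (hS.jf.e _ (h3 k hk)).2⟩) fun k hk k' hk' e => by_contra fun e' =>
      disjoint_left.1 (hJ.dj e') (h1 k hk) (mem_of_eq_of_mem ((W.φ c₀).injOn
        ((W.mem_src c₀).2 (h3 k hk)) ((W.mem_src c₀).2 (h3 k' hk')) e) (h1 k' hk'))).trans hm
  refine (ncard_le_ncard (t := (J.unc c \ (F.y i).H) ∪ T) fun k hk => ?_).trans
    ((ncard_union_le _ _).trans (add_le_add (hF.sol i).drop (encard_le_coe_iff_finite_ncard_le.1 h4).2))
  by_cases e : k ∈ (F.y i).H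
  · exact .inr ⟨hk.1, fun e' => hk.2 ⟨hk.1, fun j => hF.H i j ▸ e, e'⟩⟩
  · exact .inl ⟨hk.1.mono_right (biUnion_subset_biUnion_left hF.sub), e⟩

variable {b : Cfg (W.Z c₀).M (Option κ) (lam ⊕ lam) r} {E : Set (W.Z c₀).M}
  {β : ∀ a, Bool → YC (J.xs a).Y.M κ (lam ⊕ lam)} {ζ : A → Bool → Circle} {k : A → ℝ} {j : A → ℕ}
  (hN : ∀ a ∈ cylW c₀, F.NkO b E a (β a) (ζ a) (k a) (j a))
include hN

theorem OK.deep : ∃ R, ∀ i, IntegrableOn (F.kd b) (Tn J c₀ F.s₀ R i) (J.G c₀ F.s₀).F.μ ∧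
    Disjoint E (Tn J c₀ F.s₀ R i) := by
  refine (eventually_all.2 fun i => ?_ : ∀ᶠ R in atTop, _).exists
  rcases i with ⟨a, _ | e⟩
  · exact (eventually_ge_atTop (nl (F.p₀.2 a) / 2)).mono fun R hR => by
      rw [Tn_none hJ (by linarith)]; exact ⟨integrableOn_empty, disjoint_empty _⟩
  by_cases ha : J.Ac c₀ F.s₀ (a, some e)
  · obtain ⟨R, h1, h2⟩ := (hN a ⟨ha.2.2.2, ha.1⟩).int e ha
    exact (eventually_ge_atTop R).mono fun R' hR => by
      rw [Tn_pos ha]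
      exact ⟨h1.mono_set (Nka63.O_mono _ hR), h2.mono_right (Nka63.O_mono _ hR)⟩
  · exact .of_forall fun _ => by rw [Tn_neg ha]; exact ⟨integrableOn_empty, disjoint_empty _⟩

theorem OK.int (hb : b.Adm (J.B c₀) (J.G c₀ F.s₀)) : Integrable (F.kd b) (J.G c₀ F.s₀).F.μ :=
  let ⟨_, k⟩ := hF.deep hJ hN
  int_of hJ (Loc66.sm_kd (Λ.B_ok _ _) (Λ.G_ok _ (Pat85.pm_par hJ hF.pm₀).2.2) hb.ok hb.conn).continuous
    hF.pm₀ fun i => (k i).1

variable (F b E β ζ k j) in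
omit hJ hF hN in
/-- the limit object -/
abbrev ob (ψ : ∀ i, (J.cut c₀ i).H (J.B c₀) b.m) (i₀ : α) (m : ℕ) : J.Obc c₀ :=
  ⟨F.s₀, b, F.H₀ E, ψ, β, ζ, k, j, (F.y i₀).l + m⟩

variable {ψ : ∀ i, (J.cut c₀ i).H (J.B c₀) b.m} {i₀ : α} {m : ℕ}

theorem OK.sol' {S : F.Sc} (hS : S.OK) (hb : b.Sol (J.B c₀) (J.G c₀ F.s₀) (J.τ c₀ F.q₀ F.s₀))
    (hψ : ∀ i ∈ F.H₀ E, (J.cut c₀ i).Sol (J.B c₀) (J.G c₀ F.s₀).F (J.σc c₀ F.q₀ F.s₀ i) b (ψ i))
    (hm : (E \ S.P).encard ≤ m) (hv : ∀ᶠ R in atTop,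
      Tendsto (fun i => (F.y i).kap (core J c (F.y i).s R)) F.l
        (𝓝 (∫ x in core J c₀ F.s₀ R, F.kd b x ∂(J.G c₀ F.s₀).F.μ + m))) :
    Sol F.σ F.q₀ (F.ob b E β ζ k j ψ i₀ m) := by
  have hi := hF.int hJ hN hb.toAdm
  refine ⟨hF.cell, hF.inf, hb, fun _ e => e.1, hψ, hF.drop hJ hS hm i₀,
    fun a e ha => (hN a ⟨ha.2.2.2, ha.1⟩).lim e ha, fun a ha => (hN a ha).crit,
    fun a ha => (hN a ha).brk, hi, ?_⟩
  have e := tend_core hJ hi MeasurableSet.univ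
  simp only [univ_inter, Measure.restrict_univ] at e
  have := eq_of_ev (hF.lev hJ (fun a ha => (hN a ha).lev) i₀) hv (e.add_const (m : ℝ))
  simp only [Nat.cast_add]
  linarith [show b.kap (J.B c₀) (J.G c₀ F.s₀) = ∫ x, F.kd b x ∂(J.G c₀ F.s₀).F.μ from rfl]

end Fam

namespace Fam
variable {α : Type} {c : M.Cl} {F : Fam J α c c} (hJ : J.OK) (hF : F.OK Adm)
  {b : Cfg (W.Z c).M (Option κ) (lam ⊕ lam) r} {E : Set (W.Z c).M}
  {β : ∀ a, Bool → YC (J.xs a).Y.M κ (lam ⊕ lam)} {ζ : A → Bool → Circle} {k : A → ℝ} {j : A → ℕ}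
  (hN : ∀ a ∈ cylW c, F.NkO b E a (β a) (ζ a) (k a) (j a))
  {ψ : ∀ i, (J.cut c i).H (J.B c) b.m} {i₀ : α} {m : ℕ}
include hF hN

theorem OK.jump (e : m ≠ 0 ∨ ∃ a ∈ cylW c, j a ≠ 0 ∧ ∃ ε > 0, ∀ᶠ i in (F.l : Filter α),
    F.ce i a + ε ≤ cE (J.xs a) (β a false) (β a true) (k a)) :
    ¬(F.ob b E β ζ k j ψ i₀ m).Tight ∧
      ∃ ε > 0, ∀ᶠ i in (F.l : Filter α), (F.y i).en + ε ≤ (F.ob b E β ζ k j ψ i₀ m).en := by
  refine ⟨fun t => e.elim (fun e => e (Nat.add_eq_zero_iff.1 t.1).2) fun ⟨a, ha, e, _⟩ => e (t.2 a ha), ?_⟩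
  obtain ⟨ε, hε, h⟩ := Cmp73.jump (l := (F.l : Filter α)) (m := m) (t := fun i a => (cylW c).indicator
    (fun a => cE (J.xs a) (β a false) (β a true) (k a)) a - (cylW c).indicator (F.ce i) a)
    (fun a δ hδ => by
      by_cases ha : a ∈ cylW c
      · simp only [indicator_of_mem ha]
        rcases (hN a ha).old ha.1 with h | ⟨-, ε, hε, h⟩
        · exact (h.2.2.2.1.eventually (ge_mem_nhds (lt_add_of_pos_right _ hδ))).mono fun _ _ => by linarith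
        · exact h.mono fun _ _ => by linarith
      · exact .of_forall fun _ => by simp only [indicator_of_notMem ha]; linarith) m.cast_nonneg
    (e.imp (fun e => Nat.cast_pos.2 (Nat.pos_of_ne_zero e)) fun ⟨a, ha, _, ε, hε, h⟩ =>
      ⟨a, ε, hε, h.mono fun _ _ => by simp only [indicator_of_mem ha]; linarith⟩)
  refine ⟨ε, hε, h.mono fun i hi => ?_⟩
  rw [Finset.sum_sub_distrib] at hi
  have e1 : (F.y i).en = (F.y i).l + ∑ a, (cylW c).indicator (F.ce i) a := rfl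
  have e2 : (F.ob b E β ζ k j ψ i₀ m).en = ((F.y i₀).l + m : ℕ) + ∑ a, (cylW c).indicator
    (fun a => cE (J.xs a) (β a false) (β a true) (k a)) a := rfl
  rw [e1, e2, Nat.cast_add, hF.l i₀ i]
  linarith

include hJ

theorem OK.str (hb : b.Adm (J.B c) (J.G c F.s₀)) (hE : E = ∅) (nf : F.NFs)
    (e : ∀ a ∈ cylW c, ¬(j a ≠ 0 ∧ ∃ ε > 0, ∀ᶠ i in (F.l : Filter α),
      F.ce i a + ε ≤ cE (J.xs a) (β a false) (β a true) (k a)))
    {u : ∀ i, (W.Z c).M → CL (F.y i).x.m.V b.m.V} (hu : ULim (W.Z c).I (J.B c) F.l univ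
      (fun i a => Met55.pbv (W.Z c).I (W.Z c).I (W.up c c) (J.fr c (F.y i).s a))
      (fun i => pb (W.up c c) (F.y i).x) b u fun _ => 1)
    (hψ : ∀ k ∈ F.H₀ E, CLim (N := fun i => (F.y i).x.m.N) F.l b.m.J
      (fun i => u i (J.cut c k).x0) (fun i => (F.y i).ψ k) (ψ k))
    (hk : ∀ O, IsClopen O → ∀ᶠ R in atTop,
      Tendsto (fun i => (F.y i).kap (O ∩ core J c (F.y i).s R)) F.l
        (𝓝 (∫ x in O ∩ core J c F.s₀ R, F.kd b x ∂(J.G c F.s₀).F.μ))) :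
    Str F.l F.y (F.ob b E β ζ k j ψ i₀ 0) := by
  have o := fun a ha => ((hN a ha).old ha.1).resolve_right (e a ha)
  have key : ∀ f : (W.Z c).M → (W.Z c).M, f = id → ULim (W.Z c).I (J.B c) F.l univ
      (fun i a => Met55.pbv (W.Z c).I (W.Z c).I f (J.fr c (F.y i).s a))
      (fun i => pb f (F.y i).x) b u (fun _ => 1) → ULim (W.Z c).I (J.B c) F.l univ
        (fun i => J.fr c (F.y i).s) (fun i => (F.y i).x) b u fun _ => 1 := by
    rintro _ rfl h
    have : ∀ v : Met55.VF (W.Z c).I (W.Z c).M, Met55.pbv (W.Z c).I (W.Z c).I id v = v := fun v =>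
      funext fun y => by simp [Met55.pbv]
    simp only [this] at h
    exact h
  refine ⟨hF.s, ⟨u, _, key _ (funext W.up_self) hu, hψ⟩, fun a e η hη => ?_,
    (eventually_all.2 fun a => eventually_imp_distrib_left.2 fun ha => (o a ha).2.1).mono
      fun i hi => ⟨?_, hF.l i i₀, hi⟩, fun a ha => (o a ha).2.2.1, ?_, fun π hπ => ?_⟩
  · by_cases ha : a ∈ cylW c
    · exact (o a ha).1 e η hη
    · exact ⟨0, .of_forall fun _ k => (ha ⟨k.2.2.2, k.1⟩).elim⟩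
  · exact Set.ext fun _ => ⟨fun k => ⟨(hF.sol i).sub k, fun j => hF.H i j ▸ k, hE ▸ disjoint_empty _⟩,
      fun k => k.2.1 i⟩
  · refine Tendsto.add (tendsto_const_nhds.congr fun i => congrArg Nat.cast (hF.l i₀ i))
      (tendsto_finsetSum _ fun a _ => ?_)
    by_cases ha : a ∈ cylW c
    · simp only [indicator_of_mem ha]; exact (o a ha).2.2.2.1
    · simp only [indicator_of_notMem ha]; exact tendsto_const_nhds
  have hO := isClopen_pc W.toCaps hπ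
  refine tend_of_ev (fun ε hε => ?_) (hk _ hO)
    (tend_core hJ (hF.int hJ hN hb) hO.isOpen.measurableSet)
  filter_upwards [hF.far hJ, eventually_ge_atTop 0, eventually_all.2 fun a =>
    eventually_imp_distrib_left.2 fun ha => (o a ha).2.2.2.2
      (ε / (Fintype.card A + 1) / (Fintype.card (Option Bool) + 1)) (by positivity)] with R h1 h2 h3
  filter_upwards [h1, eventually_all.2 fun a => eventually_imp_distrib_left.2 (h3 a)] with i k1 k2
  rw [Obc.kap, split hJ (hF.pm i) h2 (hF.sol i).int hO.isOpen.measurableSet, Obc.kap,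
    add_sub_cancel_left]
  refine sum_small hε.le fun a => sum_small (by positivity) fun e => ?_
  by_cases e0 : W.pc c π ∩ Tn J c (F.y i).s R (a, e) = ∅
  · rw [e0, setIntegral_empty, abs_zero]; positivity
  obtain ⟨z, z1, hz, z2⟩ := nonempty_iff_ne_empty.2 e0
  have ha : a ∈ cylW c := by_contra fun ha => e0 (by rw [k1 a ha, inter_empty])
  have := (nf a ha e (hF.act a e i hz)).1.con
  rw [inter_eq_right.2 (by
    rw [Tn_pos hz]
    exact (Nka63.O_sub _ h2).trans ((preconn _).subset_isClopen hO ⟨z, Nka63.O_sub _ h2 z2, z1⟩))]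
  exact (congrArg abs (nv_eq i a e R)).symm.trans_le (k2 a ha e)

end Fam

variable (hJ : J.OK) (scn : SCN J Adm) (jqt : JQT J Adm) (nfo : NFO J Adm) (czj : CZJ J)
  (bfj : BFJ J Adm) (jlj : JLJ J Adm) (neck : NECK J Adm) (lev : LEV J Adm) (kap : KAP J Adm)
  (cut : CUT J Adm) (ulj : ULJ J Adm)
include hJ scn jqt nfo czj bfj jlj neck lev kap cut ulj

/-- **COMP** -/
theorem comp (wl : WL J Adm) : J.Comp Adm := wl fun α c c₀ F hF => by
  have nf : F.NFs := fun a ha e he =>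
    ⟨nfo _ _ _ F hF a ha e he, czj a c α _ _ _ (nfo _ _ _ F hF a ha e he)⟩
  obtain ⟨S, hS, hc⟩ : ∃ S : F.Sc, S.OK ∧ ∀ h', S = F.cy h' := by
    by_cases h' : M.Up c c₀
    · exact ⟨_, (scn _ _ _ F hF).1 h', fun _ => rfl⟩
    · exact (scn _ _ _ F hF).2.imp fun _ k => ⟨k, fun e => (h' e).elim⟩
  obtain ⟨_, C, hb⟩ := hF.bd
  obtain ⟨i₀⟩ := F.l.neBot.nonempty
  obtain ⟨H, b, u, l, k0⟩ := hS.up.comp (jqt _ _ _ F hF S hS) (fun i => (hF.sol i).sol)
    (hS.up.en (w := fun i => J.wt c (F.p i)) (hS.wr fun _ => Classical.arbitrary _)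
      (fun _ => hS.oe.continuous) fun i => (hb i).g.le)
  have hL : S.Lm b u := let k := k0 (bfj _ _ _ F hF S hS nf H b u l); ⟨k.1, k.2⟩
  have h1 : ∀ a, ∃ β ζ k j, a ∈ cylW c₀ → F.NkO b S.E a β ζ k j := fun a => by
    by_cases ha : a ∈ cylW c₀
    · obtain ⟨β, ζ, k, j, e⟩ := neck _ _ _ F hF S hS b u hL nf (jlj _ _ _ F hF S hS b u hL) a ha
      exact ⟨β, ζ, k, j, fun _ => e⟩
    · exact ⟨(F.y i₀).β a, 1, 0, 0, fun e => (ha e).elim⟩
  choose β ζ k j hN using h1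
  obtain ⟨m, hm, hv⟩ := lev _ _ _ F hF S hS b u hL ((hF.deep hJ hN).imp fun R e => by
    rw [core_eq]; exact (disjoint_iUnion_right.2 fun i => (e i).2).subset_compl_right)
  have h2 : ∀ i, ∃ ψ : (J.cut c₀ i).H (J.B c₀) b.m, i ∈ F.H₀ S.E →
      (J.cut c₀ i).Sol (J.B c₀) (J.G c₀ F.s₀).F (J.σc c₀ F.q₀ F.s₀ i) b ψ ∧
      CLim (N := fun i => (F.y i).x.m.N) F.l b.m.J (fun j => S.ga b u j (J.cut c₀ i).x0)
        (fun j => (F.y j).ψ i) ψ := fun i => by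
    by_cases hi : i ∈ F.H₀ S.E
    · exact (cut _ _ _ F hF S hS b u hL i hi.1 hi.2.1 hi.2.2).imp fun _ e _ => e
    · exact ⟨0, fun e => (hi e).elim⟩
  choose ψ hψ using h2
  have hE : ∀ h', S = F.cy h' → m = 0 → S.E = ∅ := by
    rintro h' rfl rfl
    simpa using hm
  refine ⟨F.ob b S.E β ζ k j ψ i₀ m, hF.sol' hJ hN hS hL.sol (fun i hi => (hψ i hi).1) hm hv,
    fun e => ?_, fun e hc₀ t => ?_⟩
  · subst e
    by_cases e : m ≠ 0 ∨ ∃ a ∈ cylW c₀, j a ≠ 0 ∧ ∃ ε > 0, ∀ᶠ i in (F.l : Filter α),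
      F.ce i a + ε ≤ cE (J.xs a) (β a false) (β a true) (k a)
    · exact .inr (hF.jump hN e)
    obtain rfl : m = 0 := by_contra fun k => e (.inl k)
    have hE := hE _ (hc (.refl _)) rfl
    obtain rfl := hc (.refl _)
    exact .inl (hF.str hJ hN hL.sol.toAdm hE nf (fun a ha k => e (.inr ⟨a, ha, k⟩))
      (ulj _ _ _ F hF _ b u hL hE) (fun i hi => (hψ i hi).2) (kap _ _ F hF b u hL hE))
  subst e
  have h' : M.Up M.c0 c₀ := ⟨empty_subset _, fun a ha hp => ((hc₀ ha).2 hp).elim⟩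
  have t1 := Nat.add_eq_zero_iff.1 t.1
  have hE := hE _ (hc h') t1.2
  obtain rfl := hc h'
  have key : ∀ f : (W.Z c₀).M → (W.Z M.c0).M, f = W.up M.c0 c₀ → ULim (W.Z c₀).I (J.B c₀) F.l univ
      (fun i a => Met55.pbv (W.Z c₀).I (W.Z M.c0).I f (J.fr M.c0 (F.y i).s a))
      (fun i => pb f (F.y i).x) b ((F.cy h').ga b u) fun _ => 1 := by
    rintro _ rfl; exact ulj _ _ _ F hF _ b u hL hE
  refine ⟨hF.s, ⟨_, _, key _ (funext fun z => (W.up_eq' h' (fun a ha => (hc₀ ha).2) z).symm),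
    fun i hi => (hψ i hi).2⟩, .of_forall fun i => (hF.l i i₀).trans t1.1, fun a ha η hη => ?_⟩
  exact ((hN a ha).new (notMem_empty a) (t.2 a ha) η hη).imp fun T e => e.mono fun i hi =>
    ⟨(hF.new a ha).1 (notMem_empty a) i, hi _⟩

end Crest.Agent.X212.Cmp73
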