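import Crest.Agent.X212.Cmp73.Ap
import Crest.Agent.X212.M.Wgw
import Crest.Agent.X212.Fin37.Defs

/-!
# X212 / COMP (helper73), part 19: families of solutions of a job, scenes, the leaves of `J.Comp`
-/

set_option autoImplicit false
set_option linter.unusedSectionVars false
open Set Filter Topology Function MeasureTheory
open scoped ContDiff Manifold InnerProductSpace NNReal ENNReal

noncomputable section
namespace Crest.Agent.X212.Cmp73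

open An An.Job M Nd18 Abel74 Eqv71 Cyl58
open TopologicalSpace (Opens)
open Fin37 (core cE Pm)

variable {Wi : Type} {X : Mf 4} {A κ lam : Type} [Fintype A] [Fintype κ] [Fintype lam]
  [DecidableEq lam] {M : Mark X A κ} {W : World M} {N : ML M lam}
  {Λ : Lns W N} {A' h : Type} [Fintype A'] [DecidableEq A'] [Fintype h] {r n : ℕ}
  (J : Job Wi Λ A' h r n) (Adm : (Wi →₀ ℝ) → Prop)

variable {J} in
/-- the a priori bounds of a solution -/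
structure Bd (S C : ℝ) {c : M.Cl} (y : J.Obc c) : Prop where
  g : AG (J.B c) (J.G c y.s) y.x (J.wt c (J.Θ y.s)) S C
  nk : ∀ a e (ha : Act J.m c a e (J.Θ y.s)), AN (J.K c a e _ ha) y.x (J.wt c (J.Θ y.s)) C
  l : (y.l : ℝ) ≤ C
  k : ∀ a ∈ cylW c, |y.k a| ≤ C

/-- families of objects on `Z c` whose parameters converge to a point over `Z c₀` -/
structure Fam (α : Type) (c c₀ : M.Cl) where
  l : Ultrafilter α
  σ : Cel A'
  q : α → Wi →₀ ℝ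
  q₀ : Wi →₀ ℝ
  y : α → J.Obc c
  s₀ : A' → ℝ

namespace Fam
variable {J} {α : Type} {c c₀ : M.Cl} (F : Fam J α c c₀)

abbrev p (i : α) : Prm A := J.Θ (F.y i).s
abbrev p₀ : Prm A := J.Θ F.s₀

/-- the neck is active for all members -/
abbrev Ac (a : A) (e : Option Bool) : Prop := ∀ i, Act J.m c a e (F.p i)

/-- the neck is active in the limit -/
abbrev Ac₀ (a : A) (e : Option Bool) : Prop := Act J.m c₀ a e F.p₀

/-- solutions with constant combinatorics and uniform bounds -/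
structure OK : Prop where
  mem : F.σ ∈ J.𝒦
  q₀ : Adm F.q₀
  q : ∀ i, Adm (F.q i)
  cv : St.Cv (F.l : Filter α) F.q F.q₀
  sol : ∀ i, Sol F.σ (F.q i) (F.y i)
  s : Tendsto (fun i => (F.y i).s) F.l (𝓝 F.s₀)
  cell : F.s₀ ∈ cl F.σ
  inf : Sys.inf F.p₀.2 = c₀.1
  sub : c.1 ⊆ c₀.1
  act : ∀ a e i, Act J.m c a e (F.p i) → F.Ac a e
  new : ∀ a ∈ cylW c₀, (a ∉ c.1 → F.Ac a none) ∧ ∀ i, J.ν a (F.y i).s = 1
  l : ∀ i j, (F.y i).l = (F.y j).l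
  H : ∀ i j, (F.y i).H = (F.y j).H
  co : ∃ T : Finset Wi, (∀ w ∉ T, F.q₀ w = 0 ∧ ∀ i, F.q i w = 0) ∧ ∀ w ∈ T, ∀ i j,
    (J.co w (F.y i).s = 0 → J.co w (F.y j).s = 0) ∧
      ∀ k, J.cc k w (F.y i).s = 0 → J.cc k w (F.y j).s = 0
  bd : ∃ S C, ∀ i, Bd S C (F.y i)

/-- the family seen from a neck -/
abbrev nf {a : A} {e : Option Bool} (ha : F.Ac a e) :
    NF (W.Z c).I (fun _ : α => (W.Z c).M) (J.xs a).D r n :=
  ⟨fun _ => J.B c, fun i => J.G c (F.y i).s, fun i => J.K c a e _ (ha i), fun i => (F.y i).x,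
    fun i => J.τ c (F.q i) (F.y i).s, fun i => (J.xs a).q (F.q i), fun i => J.wt c (F.p i)⟩

/-- the necks at the cylindrical walls of the limit -/
def NFs : Prop := ∀ a ∈ cylW c₀, ∀ e (ha : F.Ac a e),
  (F.nf ha).OK (J.xs a).N F.l ((J.xs a).q F.q₀) ∧ (F.nf ha).CZ (J.xs a).N F.l ((J.xs a).q F.q₀)

/-! ### scenes -/

/-- the family on an open part `j : Y → Z c`, identified with `Z c₀ ∖ P` by `f` -/
structure Sc : Type 1 where
  Y : Mf 4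
  B : Base Y.M (Option κ) (lam ⊕ lam)
  G : α → Geo Y.I Y.M (Option κ) (lam ⊕ lam)
  H : α → Geo (W.Z c₀).I (W.Z c₀).M (Option κ) (lam ⊕ lam)
  f : PartialDiffeomorph (W.Z c₀).I Y.I (W.Z c₀).M Y.M ∞
  O : α → Opens (W.Z c₀).M
  P : Set (W.Z c₀).M
  j : Y.M → (W.Z c).M
  j' : (W.Z c).M → Y.M
  U : α → Y.M → Option κ → Option κ → ℝ
  v : Y.M → CL (Eu (lam ⊕ lam)) (Eu (lam ⊕ lam))
  x : α → Cfg Y.M (Option κ) (lam ⊕ lam) r
  u : ∀ i, Y.M → CL (x i).m.V (F.y i).x.m.V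
  t : Tp X.M Y.M (lam ⊕ lam) (lam ⊕ lam)
  K : ∀ a e i, Act J.m c a e (F.p i) → Nk (J.xs a).D B (G i)

/-- the literal scene: only cylindrical walls break -/
abbrev cy (h' : M.Up c c₀) : F.Sc where
  Y := W.Z c
  B := J.B c
  G i := J.G c (F.y i).s
  H i := Pj41.cmG (W.up_oe h').loc (J.G c (F.y i).s)
  f := (W.up_oe h').pd
  O _ := ⊤
  P := ∅
  j := id
  j' := id
  U _ x b a := (J.B c).P b a x
  v := (J.B c).l
  x i := (F.y i).x
  u i := (F.y i).x.m.p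
  t := J.tp c
  K a e _ ha := J.K c a e _ ha

/-- the scene of a pinch -/
abbrev pn (hJ : J.OK) {c' : M.Cl} (h : c.1 ⊆ c'.1) (h' : M.Up c' c₀)
    (k : ∀ a e i, Act J.m c a e (F.p i) → a ∈ c.1 ∨ a ∈ M.sys.fr c'.1)
    (H : α → Geo (W.Z c₀).I (W.Z c₀).M (Option κ) (lam ⊕ lam)) (O : α → Opens (W.Z c₀).M) :
    F.Sc where
  Y := W.Xo c c'
  B := Λ.xB c c' J.m
  G i := Λ.xG h J.m (F.p i)
  H := H
  f := W.xf c h'
  O := O
  P := W.up c' c₀ ⁻¹' W.nw c c'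
  j := W.xd h
  j' := (W.xd_oe h).pd.toOpenPartialHomeomorph.symm
  U i := Met55.rotU ((W.xL h J.m).F (F.p i)).toPre (W.F J.m c (F.p i)).toPre (W.xd h)
  v z := Line51.rl (Λ.xu h J.m z)
  x i := pullC (F.y i).x (W.xd h)
    (Met55.rotU ((W.xL h J.m).F (F.p i)).toPre (W.F J.m c (F.p i)).toPre (W.xd h))
    fun z => Line51.rl (Λ.xu h J.m z)
  u i z := (F.y i).x.m.p (W.xd h z)
  t := Λ.xt c c' J.m
  K a e i ha := (hJ.nk c a e _ ha).xK h ha (k a e i ha) (hJ.xs a).1.vol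

/-- the two kinds of scenes -/
inductive Src : F.Sc → Prop
  | cy (h') : Src (F.cy h')
  | pn (hJ) {c'} (h h' k H O) (hc : ∀ a ∈ c'.1, a ∉ c.1 → M.pin a) : Src (F.pn hJ (c' := c') h h' k H O)

namespace Sc
variable {F} (S : F.Sc)

abbrev g : Gs S.Y.I (W.Z c₀).I (W.Z c₀).M (Option κ) (lam ⊕ lam) fun _ : α => S.Y.M :=
  rGs F.l S.B S.G (J.B c₀) (J.G c₀ F.s₀) S.H S.f S.O S.P

abbrev up : Up (W.Z c).I (fun _ : α => (W.Z c).M) S.g r :=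
  ⟨fun _ => J.B c, fun i => J.G c (F.y i).s, fun _ => range S.j, fun _ => S.j, fun _ => S.j', S.U,
    fun _ => S.v, fun i => (F.y i).x, S.x, S.u⟩

/-- the neck `(a, e)` and its limits -/
abbrev nu {a : A} {e : Option Bool} (ha : F.Ac a e) (O : LJ c₀ a J.m F.p₀ e → Set (W.Z c₀).M) :
    Cqn41.NU (g := S.g) (c := S.x) (I' := (W.Z c).I) (Z := fun _ : α => (W.Z c).M)
      ⟨S.up.B, S.up.G, S.up.y, S.up.O, S.up.φ, S.up.ψ, S.up.U, S.up.v, S.up.u, O⟩ (J.xs a).D :=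
  ⟨fun i => J.K c a e _ (ha i), fun i => S.K a e i (ha i), fun b => J.K c₀ a b.1 _ b.2.1,
    fun b i => ls e b.1 ((F.p i).2 a)⟩

structure OK : Prop where
  src : F.Src S
  up : S.up.OK
  oe : IsOE S.Y.I (W.Z c).I S.j
  jf : JF (C := W.toCaps) S.j S.f S.P
  tk : TK S.g (fun _ => S.t) (J.tp c₀) (M.sys.cores c₀.1)ᶜ
  rel : Rel2 S.t (J.tp c) univ S.j S.v
  pt : ∀ x ∉ M.sys.cores c₀.1, S.t.p x = S.f (W.φ c₀ x)
  hn : ∀ a e i ha, HN (C := W.toCaps) a (J.g a) (S.K a e i ha) S.j ((F.p i).2 a) (e.getD false)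
  nu : ∀ a e (ha : F.Ac a e), ∃ O, (S.nu ha O).OK
  wr : ∀ x : α → (W.Z c).M, S.g.WR fun i => J.wt c (F.p i) (x i) ∘ S.j

variable (b : Cfg (W.Z c₀).M (Option κ) (lam ⊕ lam) r)
  (u : ∀ i, (W.Z c₀).M → CL (S.x i).m.V b.m.V)

/-- the exceptional set -/
abbrev E : Set (W.Z c₀).M := S.g.S S.x

/-- the gauges from the members of the family to the limit -/
abbrev ga (i : α) (z : (W.Z c₀).M) : CL (F.y i).x.m.V b.m.V := u i z ∘L trn (S.u i (S.f z))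

/-- the limit -/
structure Lm : Prop where
  lb : S.g.LB S.x b u
  sol : b.Sol (J.B c₀) (J.G c₀ F.s₀) (J.τ c₀ F.q₀ F.s₀)

/-- convergence on the ends of the limit, in the coordinates of the necks -/
def JL : Prop := ∀ a e (ha : F.Ac a e) β (hb : F.Ac₀ a (some β)), (e = none ∨ some β = e) →
  ∃ v, Bki64.CvC (J.xs a).D.Z F.l (ρ := fun _ => r)
      (fun i => sh (ls e (some β) ((F.p i).2 a)) ((F.nf ha).c i)) ((J.K c₀ a _ _ hb).pb b) v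
      ((univ ×ˢ (J.K c₀ a _ _ hb).J) \ (J.K c₀ a _ _ hb).ψ ⁻¹' S.E) ∧
    ∀ z ∈ (univ ×ˢ Dp (J.K c₀ a _ _ hb).p (J.K c₀ a _ _ hb).q 3) ∩ (J.K c₀ a _ _ hb).ψ ⁻¹' S.E,
      ∃ ε > 0, ∀ L ∈ 𝓝 z, IsCompact L → L ⊆ univ ×ˢ Dp (J.K c₀ a _ _ hb).p (J.K c₀ a _ _ hb).q 2 →
        ∀ᶠ i in (F.l : Filter α), ε ≤ ∫ x in L, Bki64.eZ (J.xs a).D
          (sh (ls e (some β) ((F.p i).2 a)) ((F.nf ha).c i)) x ∂(J.xs a).D.Z.μ

end Sc

/-- the level on the part of depth `> R` of a neck -/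
def nv (i : α) (a : A) (e : Option Bool) (R : ℝ) : ℝ := by
  classical exact if ha : Act J.m c a e (F.p i) then (F.y i).kap (Nka63.O (J.K c a e _ ha) R) else 0

/-- the density of the level of the limit -/
abbrev kd (b : Cfg (W.Z c₀).M (Option κ) (lam ⊕ lam) r) : (W.Z c₀).M → ℝ :=
  b.m.kd (J.B c₀) (J.G c₀ F.s₀).F b.W

/-- the energy of the chain of a member -/
abbrev ce (i : α) (a : A) : ℝ := cE (J.xs a) ((F.y i).β a false) ((F.y i).β a true) ((F.y i).k a)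

/-- the chain at the wall `a` of the limit `b` with the exceptional set `E` -/
structure NkO (b : Cfg (W.Z c₀).M (Option κ) (lam ⊕ lam) r) (E : Set (W.Z c₀).M) (a : A)
    (β : Bool → YC (J.xs a).Y.M κ (lam ⊕ lam)) (ζ : Bool → Circle) (k : ℝ) (j : ℕ) : Prop where
  lim : ∀ e (hb : F.Ac₀ a (some e)),
    (J.K c₀ a _ _ hb).Lim b (β e) (ζ e) (bif e then atBot else atTop)
  crit : ∀ e, (J.xs a).N.Crit (J.xs a).D (β e)
  brk : (J.xs a).N.Brk (J.xs a).D ((J.xs a).q F.q₀) (β false) (ζ false) (β true) (ζ true) k j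
  int : ∀ e (hb : F.Ac₀ a (some e)), ∃ R,
    IntegrableOn (F.kd b) (Nka63.O (J.K c₀ a _ _ hb) R) (J.G c₀ F.s₀).F.μ ∧
      Disjoint E (Nka63.O (J.K c₀ a _ _ hb) R)
  lev : ∀ ε > 0, ∀ᶠ R in atTop, ∀ᶠ i in (F.l : Filter α),
    |∑ e, F.nv i a e R + (cylW c).indicator (F.y i).k a - k| ≤ ε
  old : a ∈ c.1 →
    (∀ e, ∀ η > 0, ∃ T, ∀ᶠ i in (F.l : Filter α), ∀ ha : Act J.m c a (some e) (F.p i), ∀ t,
      T ≤ -pm e * t → (J.K c a _ _ ha).Near (F.y i).x t (β e) η) ∧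
    (∀ᶠ i in (F.l : Filter α), ((F.y i).j a = 0 ↔ j = 0)) ∧
    Tendsto (fun i => (F.y i).k a) F.l (𝓝 k) ∧
    Tendsto (fun i => F.ce i a) F.l (𝓝 (cE (J.xs a) (β false) (β true) k)) ∧
    (∀ ε > 0, ∀ᶠ R in atTop, ∀ᶠ i in (F.l : Filter α), ∀ e, |F.nv i a e R| ≤ ε) ∨
    j ≠ 0 ∧ ∃ ε > 0, ∀ᶠ i in (F.l : Filter α), F.ce i a + ε ≤ cE (J.xs a) (β false) (β true) k
  new : a ∉ c.1 → j = 0 → ∀ η > 0, ∃ T, ∀ᶠ i in (F.l : Filter α),
    ∀ ha : Act J.m c a none (F.p i), ∀ t ∈ Icc T (nl ((F.p i).2 a) - T),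
      (J.K c a _ _ ha).Near (F.y i).x t (β false) η

end Fam

/-! ### the leaves -/

/-- statements on all families -/
def AllF (P : ∀ (α : Type) (c c₀ : M.Cl), Fam J α c c₀ → Prop) : Prop :=
  ∀ α c c₀ (F : Fam J α c c₀), F.OK Adm → P α c c₀ F

/-- statements on all scenes -/
def AllS (P : ∀ (α : Type) (c c₀ : M.Cl) (F : Fam J α c c₀), F.Sc → Prop) : Prop :=
  AllF J Adm fun α c c₀ F => ∀ S : F.Sc, S.OK → P α c c₀ F S

/-- statements on all limits -/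
def AllL (P : ∀ (α : Type) (c c₀ : M.Cl) (F : Fam J α c c₀) (S : F.Sc)
    (b : Cfg (W.Z c₀).M (Option κ) (lam ⊕ lam) r),
    (∀ i, (W.Z c₀).M → CL (S.x i).m.V b.m.V) → Prop) : Prop :=
  AllS J Adm fun α c c₀ F S => ∀ b u, S.Lm b u → P α c c₀ F S b u

/-- LEAF APJ (from `Fin37.Apr`, `LIT`, `L4U`, `Bnd.wt`, `Shi84.dom_p2`) -/
def APJ : Prop := ∃ S C, ∀ σ ∈ J.𝒦, ∀ c q (y : J.Obc c), Adm q → Sol σ q y → Bd S C y

/-- LEAF TMS: sizes of the curvature seeds of the field terms -/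
def TMS : Prop := ∀ w, ∃ k : ℕ, ∀ c s, Pm J c s → J.co w s ≠ 0 → TmS (J.G c s).F k (Fin37.tm J c w)

/-- LEAF WL: it suffices to treat good families -/
def WL : Prop := (∀ (α : Type) (c c₀ : M.Cl) (F : Fam J α c c₀), F.OK Adm →
    ∃ y₀ : J.Obc c₀, Sol F.σ F.q₀ y₀ ∧ (∀ e : c₀ = c, Str F.l F.y (e ▸ y₀) ∨ ¬y₀.Tight ∧
      ∃ ε > 0, ∀ᶠ i in (F.l : Filter α), (F.y i).en + ε ≤ y₀.en) ∧
      ∀ e : c = M.c0, c₀.1 ⊆ cylW c₀ → y₀.Tight → Dg F.l (fun i => e ▸ F.y i) y₀) → J.Comp Adm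

/-- LEAF SCN: scenes exist -/
def SCN : Prop := AllF J Adm fun _ c c₀ F => (∀ h', (F.cy h').OK) ∧ ∃ S : F.Sc, S.OK

/-- LEAF NQJ: the inputs of the neck terms -/
def NQJ : Prop := AllS J Adm fun _ _ _ F S => ∀ a e (ha : F.Ac a e) O, (S.nu ha O).OK →
  NQ (S.nu ha O) (J.xs a).N

/-- LEAF JQT: the perturbations converge -/
def JQT : Prop := AllS J Adm fun _ c c₀ F S =>
  S.up.QT (fun i => J.τ c (F.q i) (F.y i).s) (J.τ c₀ F.q₀ F.s₀)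

/-- LEAF NFO: deep in a long neck only the terms of the neck survive -/
def NFO : Prop := AllF J Adm fun _ _ c₀ F => ∀ a ∈ cylW c₀, ∀ e (ha : F.Ac a e),
  (F.nf ha).OK (J.xs a).N F.l ((J.xs a).q F.q₀)

/-- LEAF CZJ: compactness of windows -/
def CZJ : Prop := ∀ a (c : M.Cl) (α : Type) (l : Filter α) q₀
  (F : NF (W.Z c).I (fun _ : α => (W.Z c).M) (J.xs a).D r n),
  F.OK (J.xs a).N l q₀ → F.CZ (J.xs a).N l q₀

/-- LEAF BFJ: the curvature of the limit is bounded -/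
def BFJ : Prop := AllS J Adm fun _ _ c₀ F S => F.NFs → S.g.Hyp S.x → ∀ b u, S.g.Lim S.x b S.E u →
  ∃ R, ∀ x, ‖b.m.Fg (J.G c₀ F.s₀).F b.W x‖ ≤ R

/-- LEAF JLJ -/
def JLJ : Prop := AllL J Adm fun _ _ _ _ S b _ => S.JL b

/-- LEAF NECK -/
def NECK : Prop := AllL J Adm fun _ _ c₀ F S b _ => F.NFs → S.JL b →
  ∀ a ∈ cylW c₀, ∃ β ζ k j, F.NkO b S.E a β ζ k j

/-- LEAF LEV: the level lost on the core (bubbles and pinched spheres) -/
def LEV : Prop := AllL J Adm fun _ c c₀ F S b _ => (∃ R, S.E ⊆ core J c₀ F.s₀ R) →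
  ∃ m : ℕ, (S.E \ S.P).encard ≤ m ∧ ∀ᶠ R in atTop,
    Tendsto (fun i => (F.y i).kap (core J c (F.y i).s R)) F.l
      (𝓝 (∫ x in core J c₀ F.s₀ R, F.kd b x ∂(J.G c₀ F.s₀).F.μ + m))

/-- LEAF KAP: the levels of the pieces -/
def KAP : Prop := ∀ α c (F : Fam J α c c), F.OK Adm → ∀ b u, (F.cy (.refl c)).Lm b u →
  (F.cy (.refl c)).E = ∅ → ∀ O, IsClopen O → ∀ᶠ R in atTop,
    Tendsto (fun i => (F.y i).kap (O ∩ core J c (F.y i).s R)) F.l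
      (𝓝 (∫ x in O ∩ core J c F.s₀ R, F.kd b x ∂(J.G c F.s₀).F.μ))

/-- LEAF CUT: the fields of the cuts converge -/
def CUT : Prop := AllL J Adm fun _ _ c₀ F S b u => ∀ k ∈ J.unc c₀, (∀ i, k ∈ (F.y i).H) →
  Disjoint (J.cut c₀ k).supp S.E → ∃ ψ : (J.cut c₀ k).H (J.B c₀) b.m,
    (J.cut c₀ k).Sol (J.B c₀) (J.G c₀ F.s₀).F (J.σc c₀ F.q₀ F.s₀ k) b ψ ∧
    CLim (N := fun i => (F.y i).x.m.N) F.l b.m.J (fun i => S.ga b u i (J.cut c₀ k).x0)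
      (fun i => (F.y i).ψ k) ψ

/-- LEAF ULJ: the form of the convergence in `Str` and `Dg` -/
def ULJ : Prop := ∀ α c c₀ (F : Fam J α c c₀), F.OK Adm → ∀ h' b u, (F.cy h').Lm b u →
  (F.cy h').E = ∅ → ULim (W.Z c₀).I (J.B c₀) F.l univ
    (fun i a => Met55.pbv (W.Z c₀).I (W.Z c).I (W.up c c₀) (J.fr c (F.y i).s a))
    (fun i => pb (W.up c c₀) (F.y i).x) b ((F.cy h').ga b u) fun _ => 1

end Crest.Agent.X212.Cmp73
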