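import Crest.Agent.X212.Cmp73.Core
import Crest.Agent.X212.Shi84.Pul
import Crest.Agent.X212.Abel74.Lit

/-!
# X212 / COMP (helper73), part 17: families on complete manifolds seen on dense open parts
-/

set_option autoImplicit false
set_option linter.unusedSectionVars false
open Set Filter Topology Function MeasureTheory
open scoped ContDiff Manifold InnerProductSpace NNReal ENNReal

noncomputable section
namespace Crest.Agent.X212.Cmp73

open An Eqv71 Shi84 Abel74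

variable {E : Type} [NormedAddCommGroup E] [NormedSpace ℝ E] [FiniteDimensional ℝ E]
  [MeasurableSpace E] [BorelSpace E]
  {HM : Type} [TopologicalSpace HM] {I : ModelWithCorners ℝ E HM} [I.Boundaryless]
  {E' : Type} [NormedAddCommGroup E'] [NormedSpace ℝ E'] [FiniteDimensional ℝ E']
  [MeasurableSpace E'] [BorelSpace E']
  {H' : Type} [TopologicalSpace H'] {I' : ModelWithCorners ℝ E' H'} [I'.Boundaryless]
  {E₀ : Type} [NormedAddCommGroup E₀] [NormedSpace ℝ E₀] [FiniteDimensional ℝ E₀]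
  [MeasurableSpace E₀] [BorelSpace E₀]
  {H₀ : Type} [TopologicalSpace H₀] {I₀ : ModelWithCorners ℝ E₀ H₀} [I₀.Boundaryless]
  {M : Type} [TopologicalSpace M] [ChartedSpace H₀ M] [IsManifold I₀ ∞ M] [MeasurableSpace M]
  [T2Space M] [BorelSpace M] [SecondCountableTopology M]
  {ι lam : Type} [Fintype ι] [Fintype lam] {α : Type}
  {X : α → Type} [∀ n, TopologicalSpace (X n)] [∀ n, ChartedSpace HM (X n)]
  [∀ n, IsManifold I ∞ (X n)] [∀ n, MeasurableSpace (X n)] [∀ n, T2Space (X n)]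
  [∀ n, BorelSpace (X n)] [∀ n, SecondCountableTopology (X n)]
  {Z : α → Type} [∀ n, TopologicalSpace (Z n)] [∀ n, ChartedSpace H' (Z n)]
  [∀ n, IsManifold I' ∞ (Z n)] [∀ n, MeasurableSpace (Z n)] [∀ n, T2Space (Z n)]
  [∀ n, BorelSpace (Z n)] [∀ n, SecondCountableTopology (Z n)] {r m : ℕ}

variable (I' Z) in
/-- configurations `y n` on `Z n` and their pull-backs `x n` to the members `X n` of `g` -/
structure Up (g : Gs I I₀ M ι lam X) (r : ℕ) where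
  B : ∀ n, Base (Z n) ι lam
  G : ∀ n, Geo I' (Z n) ι lam
  O : ∀ n, Set (Z n)
  φ : ∀ n, X n → Z n
  ψ : ∀ n, Z n → X n
  U : ∀ n, X n → ι → ι → ℝ
  v : ∀ n, X n → CL (Eu lam) (Eu lam)
  y : ∀ n, Cfg (Z n) ι lam r
  x : ∀ n, Cfg (X n) ι lam r
  u : ∀ n, X n → CL (x n).m.V (y n).m.V

namespace Up
variable {g : Gs I I₀ M ι lam X} (h : Up I' Z g r)

structure OK : Prop where
  bk : g.Bk h.x
  pb : ∀ n, PB (g.B n) (g.G n) (h.B n) (h.G n) (h.O n) (h.φ n) (h.ψ n) (h.U n) (h.v n) (h.x n) (h.y n)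
    (h.u n)
  lh : ∀ n, Lh (h.y n) (h.B n) (h.G n)

abbrev QS (f : ∀ n, Z n → ℝ) (f' : Cfg M ι lam r → M → ℝ) : Prop :=
  g.QS h.x (fun n x => f n (h.φ n x)) f'

abbrev QV (s : ∀ n, Z n → (h.y n).m.V) (s' : ∀ b : Cfg M ι lam r, M → b.m.V) : Prop :=
  g.QV h.x (fun n => pV (h.φ n) (h.u n) (s n)) s'

abbrev QA (s : ∀ n, Z n → (h.y n).m.A) (s' : ∀ b : Cfg M ι lam r, M → b.m.A) : Prop :=
  g.QA h.x (fun n => pA (h.φ n) (h.u n) (s n)) s'

/-- the pull-back of two-forms at a point -/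
abbrev tC (n : α) (x : X n) := ridx (sq2 fun a b => h.U n x b a) (cj (trn (h.u n x)))

/-- convergent perturbations -/
abbrev QT (τ : ∀ n, Pt (Z n) ι lam r m) (τ' : Pt M ι lam r m) : Prop :=
  g.QT h.x (fun n => pV (h.φ n) (h.u n) ((τ n).D (h.y n)))
    (fun n => pC (h.φ n) (h.U n) (h.u n) ((τ n).C (h.y n))) (fun n => (τ n).S (h.y n)) τ'

variable {h} {τ σ : ∀ n, Pt (Z n) ι lam r m} {τ' σ' : Pt M ι lam r m}

namespace QT

theorem congr (a : h.QT τ τ') (e : ∀ n, (∀ z, (σ n).D (h.y n) z = (τ n).D (h.y n) z) ∧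
    (∀ z, (σ n).C (h.y n) z = (τ n).C (h.y n) z) ∧ ∀ i, (σ n).S (h.y n) i = (τ n).S (h.y n) i)
    (e' : ∀ b, (∀ z, σ'.D b z = τ'.D b z) ∧ (∀ z, σ'.C b z = τ'.C b z) ∧ ∀ i, σ'.S b i = τ'.S b i) :
    h.QT σ σ' :=
  Gs.QT.congr a (fun n x => congrArg (trn (h.u n x)) ((e n).1 _))
    (fun n x => congrArg (h.tC n x) ((e n).2.1 _)) (fun n => (e n).2.2) (fun b => (e' b).1) (fun b => (e' b).2.1) fun b => (e' b).2.2

theorem add (a : h.QT τ τ') (b : h.QT σ σ') : h.QT (fun n => (τ n).add (σ n)) (τ'.add σ') :=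
  (Gs.QT.add a b).congr (fun n x => map_add (trn (h.u n x)) _ _) (fun n x => map_add (h.tC n x) _ _) (fun _ _ => rfl)
    (fun _ _ => rfl) (fun _ _ => rfl) fun _ _ => rfl

theorem smul (a : h.QT τ τ') {z : α → ℝ} {z₀ : ℝ} (hz : Tendsto z g.l (𝓝 z₀)) :
    h.QT (fun n => ⟨fun b x => z n • (τ n).D b x, fun b x => z n • (τ n).C b x,
      fun b i => (z n : ℂ) * (τ n).S b i⟩)
      ⟨fun b x => z₀ • τ'.D b x, fun b x => z₀ • τ'.C b x, fun b i => (z₀ : ℂ) * τ'.S b i⟩ :=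
  (Gs.QT.smul a hz).congr (fun n x => map_smul (trn (h.u n x)) _ _) (fun n x => map_smul (h.tC n x) _ _) (fun _ _ => rfl)
    (fun _ _ => rfl) (fun _ _ => rfl) fun _ _ => rfl

variable (k : h.OK)
include k

theorem zero : h.QT (fun _ => (⟨fun _ => 0, fun _ => 0, fun _ => 0⟩ : Pt _ ι lam r m))
    ⟨fun _ => 0, fun _ => 0, fun _ => 0⟩ :=
  (Gs.QT.zero k.bk).congr (fun n x => map_zero (trn (h.u n x))) (fun n x => map_zero (h.tC n x)) (fun _ _ => rfl)
    (fun _ _ => rfl) (fun _ _ => rfl) fun _ _ => rfl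

variable {K : Type} {τ : ∀ n, K → Pt (Z n) ι lam r m} {τ' : K → Pt M ι lam r m}

theorem sum [Fintype K] (a : ∀ i, h.QT (fun n => τ n i) (τ' i)) :
    h.QT (fun n => ⟨fun b x => ∑ i, (τ n i).D b x, fun b x => ∑ i, (τ n i).C b x,
      fun b j => ∑ i, (τ n i).S b j⟩)
      ⟨fun b x => ∑ i, (τ' i).D b x, fun b x => ∑ i, (τ' i).C b x, fun b j => ∑ i, (τ' i).S b j⟩ :=
  (Gs.QT.fsum k.bk Finset.univ fun i _ => a i).congr (fun n x => map_sum (trn (h.u n x)) _ _)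
    (fun n x => map_sum (h.tC n x) _ _) (fun _ _ => rfl) (fun _ _ => rfl) (fun _ _ => rfl) fun _ _ => rfl

theorem fsum {q : α → K →₀ ℝ} {q₀ : K →₀ ℝ} (hq : ∃ J : Finset K, (∀ n i, i ∉ J → q n i = q₀ i) ∧
    ∀ i, Tendsto (fun n => q n i) g.l (𝓝 (q₀ i))) (a : ∀ i, h.QT (fun n => τ n i) (τ' i)) :
    h.QT (fun n => ⟨fun b x => (q n).sum fun i a => a • (τ n i).D b x,
      fun b x => (q n).sum fun i a => a • (τ n i).C b x,
      fun b j => (q n).sum fun i a => (a : ℂ) * (τ n i).S b j⟩)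
      ⟨fun b x => q₀.sum fun i a => a • (τ' i).D b x, fun b x => q₀.sum fun i a => a • (τ' i).C b x,
        fun b j => q₀.sum fun i a => (a : ℂ) * (τ' i).S b j⟩ :=
  (Gs.QT.finsupp k.bk hq a).congr
    (fun n x => (map_finsuppSum (trn (h.u n x)) _ _).trans
      (Finsupp.sum_congr fun _ _ => map_smul (trn (h.u n x)) _ _))
    (fun n x => (map_finsuppSum (h.tC n x) (q n) fun i a => a • (τ n i).C (h.y n) (h.φ n x)).trans
      (Finsupp.sum_congr fun i _ => map_smul (h.tC n x) (q n i) ((τ n i).C (h.y n) (h.φ n x))))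
    (fun _ _ => rfl) (fun _ _ => rfl) (fun _ _ => rfl) fun _ _ => rfl

open Classical in
/-- sums over the active indices (`Pt.dsum`) -/
theorem dsum [Fintype K] {K' : Type} [Fintype K'] {p : α → K → Prop} {p' : K' → Prop}
    {τ : ∀ n i, p n i → Pt (Z n) ι lam r m} {τ' : ∀ j, p' j → Pt M ι lam r m}
    {ρ : K → Pt M ι lam r m} (a : ∀ i, h.QT (fun n => if e : p n i then τ n i e else
      ⟨fun _ => 0, fun _ => 0, fun _ => 0⟩) (ρ i))
    (eD : ∀ b x, ∑ j, (if e : p' j then (τ' j e).D b x else 0) = ∑ i, (ρ i).D b x)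
    (eC : ∀ b x, ∑ j, (if e : p' j then (τ' j e).C b x else 0) = ∑ i, (ρ i).C b x)
    (eS : ∀ b x, ∑ j, (if e : p' j then (τ' j e).S b x else 0) = ∑ i, (ρ i).S b x) :
    h.QT (fun n => ⟨fun b x => ∑ i, if e : p n i then (τ n i e).D b x else 0,
      fun b x => ∑ i, if e : p n i then (τ n i e).C b x else 0,
      fun b j => ∑ i, if e : p n i then (τ n i e).S b j else 0⟩)
      ⟨fun b x => ∑ i, if e : p' i then (τ' i e).D b x else 0,
      fun b x => ∑ i, if e : p' i then (τ' i e).C b x else 0,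
      fun b j => ∑ i, if e : p' i then (τ' i e).S b j else 0⟩ :=
  (sum k a).congr (fun n => ⟨fun _ => Finset.sum_congr rfl fun i _ => by split_ifs <;> rfl,
    fun _ => Finset.sum_congr rfl fun i _ => by split_ifs <;> rfl,
    fun _ => Finset.sum_congr rfl fun i _ => by split_ifs <;> rfl⟩) fun b => ⟨eD b, eC b, eS b⟩

end QT

namespace OK
variable (k : h.OK)
include k

theorem Φ : h.QV (fun n => (h.y n).Φ) fun b => b.Φ :=
  (Gs.QV.Φ k.bk).congr (fun n => congrFun (k.pb n).pΦ) fun _ _ => rfl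

/-- resolvents are taken on the complete manifolds -/
theorem resV {s : ∀ n, Z n → (h.y n).m.V} {s'} (a : h.QV s s') (sb : ∀ n, SBd I' (s n))
    (p : ∀ n z, (h.y n).m.p z (s n z) = s n z) :
    h.QV (fun n => (h.G n).F.res (h.y n).W (s n)) fun b => g.G₀.F.res b.W (s' b) :=
  Gs.QV.res k.bk a (fun n => pul_rs (T := fun x => trn (h.u n x)) (k.pb n).kg
    ((k.pb n).lm.symm (k.pb n).kg.inv).it (k.pb n).dn (fun x => (((k.pb n).me x).norm (p n _)).ge)
    (rs_res (k.lh n).tame (Mp86.mc_W (k.lh n).conn) (sb n)))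
    fun n x => ((k.pb n).me x).pu_apply (k.lh n).ok _

theorem resA {s : ∀ n, Z n → (h.y n).m.A} {s'} (a : h.QA s s') (sb : ∀ n, SBd I' (s n))
    (p : ∀ n z, s n z ∈ (h.y n).m.gS z) :
    h.QA (fun n => (h.G n).F.res ((h.y n).m.adW (h.y n).W) (s n))
      fun b => g.G₀.F.res (b.m.adW b.W) (s' b) :=
  Gs.QA.res k.bk a (fun n => pul_rs (T := fun x => cj (trn (h.u n x))) (k.pb n).kg
    ((k.pb n).lm.symm (k.pb n).kg.inv).it_ad (k.pb n).dn (fun _ => ((k.pb n).nA (p n _)).ge)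
    (rs_res (k.lh n).tame (Mp86.mc_adW (k.lh n).conn) (sb n)))
    fun n x => ((k.pb n).me x).cj_mem ((k.pb n).be x) (k.lh n).ok (k.pb n).lm.ok ((k.lh n).res_g (p n) _)

/-- **terms converge** -/
theorem tm {w : ∀ n, Z n → ℝ} {K : ℝ≥0} (hw : g.WR fun n => w n ∘ h.φ n)
    {T : ∀ n, Tm (X n) lam r m} {T₁ : ∀ n, Tm (Z n) lam r m} {T'} (c : g.cT h.x T T')
    (R : ∀ n, TmR univ (h.φ n) (h.v n) (T n) (T₁ n)) (ok : ∀ n, (T₁ n).OK (h.G n).F)
    (z : ∀ n, TmZ (h.G n).F.μ (h.O n) (T₁ n)) (b : ∀ n, TmB (h.y n) (h.G n).F K (w n) (T₁ n)) :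
    h.QT (fun n => ⟨fun b => b.tD (h.B n) (h.G n).F (T₁ n), fun b => b.tC (h.B n) (h.G n).F (T₁ n),
      fun b => b.tS (h.G n).F (T₁ n)⟩) (g.pT T') :=
  k.bk.qt hw c fun n => (k.pb n).tm (R n) (ok n) (z n) ((k.lh n).lit (ok n) (b n))

/-- **COMP** -/
theorem comp (a : h.QT τ τ') (s : ∀ n, (h.y n).Sol (h.B n) (h.G n) (τ n))
    (he : ∀ x, (g.fb h.x (g.F g.Pᶜ x)).En) :
    g.Hyp h.x ∧ ∃ b u, g.Lim h.x b (g.S h.x) u ∧
      ((∃ R, ∀ x, ‖b.m.Fg g.G₀.F b.W x‖ ≤ R) → g.LB h.x b u ∧ b.Sol g.B₀ g.G₀ τ') :=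
  k.bk.comp_sol a (fun n x => (congrFun ((k.pb n).eD (s n).sm) x).trans
      (congrArg (trn (h.u n x)) (sub_eq_zero.1 ((s n).D _))))
    (fun n x => ((k.pb n).eC x).trans (congrArg (h.tC n x) (sub_eq_zero.1 ((s n).C _))))
    (.of_forall fun n => (s n).S) he

end OK

end Up

end Crest.Agent.X212.Cmp73
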