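import Crest.Agent.X212.Cmp73.Pfc
import Crest.Agent.X212.Cmp73.Lim
import Crest.Agent.X212.Wz78.Kat
import Crest.Agent.X212.Mp86.Wd

/-!
# X212 / COMP (helper73), part 10: the base system of a family of configurations
-/

set_option autoImplicit false
set_option linter.unusedSectionVars false
set_option linter.unusedVariables false
open Set Filter Topology Function MeasureTheory
open scoped ContDiff Manifold InnerProductSpace NNReal

noncomputable section
namespace Crest.Agent.X212.Cmp73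

open An
open Wz78 (nab curv lap dir SA Rm fL rb rp adcL trE dv2 spin wK)
open Sob92 (dv)

variable {E : Type} [NormedAddCommGroup E] [NormedSpace ℝ E] [FiniteDimensional ℝ E]
  [MeasurableSpace E] [BorelSpace E]
  {HM : Type} [TopologicalSpace HM] {I : ModelWithCorners ℝ E HM}
  {ι lam : Type} [Fintype ι] [Fintype lam] {α : Type}
  {X : α → Type} [∀ n, TopologicalSpace (X n)] [∀ n, ChartedSpace HM (X n)]
  [∀ n, IsManifold I ∞ (X n)] [∀ n, MeasurableSpace (X n)] {r : ℕ}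

section lin
variable {κ : Type} [Fintype κ] [DecidableEq κ]

/-- `u ⊗ v*` -/
def rkL : CL (Eu κ) (CL (Eu κ) (HS κ)) :=
  (ContinuousLinearMap.compL ℝ (Eu κ) (En κ) (HS κ) hsL).comp
    (((ContinuousLinearMap.compL ℝ (Eu κ) (CL (Eu κ) ℝ) (En κ)).flip (innerSL ℝ)).comp
      (ContinuousLinearMap.smulRightL ℝ (Eu κ) (Eu κ)).flip)

theorem rkL_apply (u v : Eu κ) : rkL u v = hsL (rk1 u v) := rfl

theorem norm_rkL : ‖(rkL : CL (Eu κ) (CL (Eu κ) (HS κ)))‖ ≤ 1 :=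
  ContinuousLinearMap.opNorm_le_bound₂ _ zero_le_one fun u v => by
    rw [rkL_apply, Wz78.norm_hsL_rk1, one_mul]

theorem norm_opL : ‖(opL : CL (HS κ) (En κ))‖ ≤ 1 :=
  ContinuousLinearMap.opNorm_le_bound₂ _ zero_le_one fun u v => by
    rw [one_mul]; exact Wz78.norm_opL_apply u v

omit [DecidableEq κ] in
theorem norm_proj {p : En κ} (h1 : Sym p) (h2 : p * p = p) : ‖p‖ ≤ 1 :=
  ContinuousLinearMap.opNorm_le_bound _ zero_le_one fun v => by
    rw [one_mul]; exact (Mp86.proj_le h1 h2 v).2.2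

omit [DecidableEq κ] in
theorem norm_J {J : En κ} (h1 : J * J = -1) (h2 : Skw J) : ‖J‖ ≤ 1 :=
  ContinuousLinearMap.opNorm_le_bound _ zero_le_one fun v => by
    simpa [cs] using (Mp86.norm_cs h1 h2 Complex.I v).le

end lin

/-- products of endomorphism fields -/
theorem Wt.mulE {V : α → Type} [∀ n, NormedAddCommGroup (V n)] [∀ n, NormedSpace ℝ (V n)]
    {C : Ctx I ι X} {A : ∀ n, ι → X n → V n →L[ℝ] V n} {σ σ' τ : ℕ → ℕ × ℕ}
    {S T : ∀ n, X n → V n →L[ℝ] V n} (hS : Wt C (fun n => hom (A n) (A n)) σ S)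
    (hT : Wt C (fun n => hom (A n) (A n)) σ' T) (hc : Cn σ σ' τ) :
    Wt C (fun n => hom (A n) (A n)) τ fun n x => S n x * T n x :=
  Wt.bil (β := fun n => ContinuousLinearMap.mul ℝ (V n →L[ℝ] V n)) (K := 1) hS.sA
    (fun _ => ContinuousLinearMap.opNorm_mul_le _ _) (fun n a x s t => by
      ext v; simp [hom_apply]) hS hT hc

variable (B : ∀ n, Base (X n) ι lam) (G : ∀ n, Geo I (X n) ι lam) (c : ∀ n, Cfg (X n) ι lam r)
  (F : Filter (Σ n, X n))

/-- the connections on spinors, on `HS` vectors and on endomorphisms -/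
abbrev WV : ∀ n, ι → X n → (c n).m.V →L[ℝ] (c n).m.V := fun n => (c n).W
abbrev WA : ∀ n, ι → X n → (c n).m.A →L[ℝ] (c n).m.A := fun n => (c n).m.adW (c n).W
abbrev WE : ∀ n, ι → X n → ((c n).m.V →L[ℝ] (c n).m.V) →L[ℝ] (c n).m.V →L[ℝ] (c n).m.V :=
  fun n => hom (WV c n) (WV c n)
abbrev gF' (s : ι × ι) : ∀ n, X n → (c n).m.A := fun n x => (c n).m.Fg (G n).F (c n).W x s

/-- `Gs.fb` without `Gs` -/
def gfb : Fb I ι X where
  F := F
  e n := (G n).F.e
  P n := (G n).F.P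
  c n := (G n).F.c
  frm n := Wz78.frm (G n).F
  μ n := (G n).F.μ
  en n x := ‖(c n).m.Fg (G n).F (c n).W x‖ ^ 2

/-- `Gs.bs` without `Gs` -/
def gbs : Sy ι X where
  κ := (ι × ι) ⊕ ι
  f := Sum.elim (fun s => ⟨fun n => (c n).m.A, WA c, gF' G c s, false⟩)
    fun a => ⟨fun n => (c n).m.V, WV c, fun n => nab I (G n).F.e (c n).W a (c n).Φ, true⟩

/-- admissible families with bounded geometry along `F` -/
structure Gx : Prop where
  hB : ∀ n, (B n).OK I
  hG : ∀ n, (G n).OK (B n)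
  ok : ∀ n, (c n).m.OK I (B n)
  cn : ∀ n, (c n).m.IsConn (B n) (G n) (c n).W
  sm : ∀ n, Sm I (c n).Φ
  pos : ∀ n x, (c n).m.pp (B n) x ((c n).Φ x) = (c n).Φ x
  gb : GB (gfb G c F) B G

namespace Gx
variable {B G c F} (h : Gx B G c F) {L : Sy ι X} {dw : ℕ} {σ σ' τ : ℕ → ℕ × ℕ}
include h

theorem sV (n : α) (a : ι) : Sm I (WV c n a) := (h.cn n).cc.sm a
theorem sA (n : α) (a : ι) : Sm I (WA c n a) := (Wz78.con_adW (h.cn n)).sm a
theorem sE (n : α) (a : ι) : Sm I (WE c n a) := sm_hom (h.sV n) (h.sV n) a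
theorem kV (n : α) (a : ι) (x : X n) (v w : (c n).m.V) : ⟪WV c n a x v, w⟫_ℝ = -⟪v, WV c n a x w⟫_ℝ :=
  (h.cn n).sk a x v w
theorem kA (n : α) (a : ι) (x : X n) (v w : (c n).m.A) : ⟪WA c n a x v, w⟫_ℝ = -⟪v, WA c n a x w⟫_ℝ :=
  Wz78.adW_skw (h.cn n) a x v w
theorem spg (n : α) : Sm I (c n).m.pg := Std94.sm_pg (h.hB n) (h.ok n)
theorem pΦ (n : α) (x : X n) : (c n).m.p x ((c n).Φ x) = (c n).Φ x := by
  rw [← h.pos, ← mul_apply_eq_comp, Wz78.p_pp (h.ok n)]

/-! ### the geometry -/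

theorem cs_Gam (a a' k : ι) : (gfb G c F).CS fun n => (G n).F.Gam a a' k := by
  have P := fun a a' k => (h.gb.P a' k).dvT a
  refine ((((((P a a' k).add (P a' a k)).sub (P k a a')).add (h.gb.c a a' k)).sub (h.gb.c a k a')).sub
    (h.gb.c a' k a) |>.const_smul (1 / 2)).congr fun n x => ?_
  simp only [Fr.Gam, (h.hG n).P, smul_eq_mul]
  rw [div_eq_mul_one_div, mul_comm]; rfl

theorem cs_Rm (a a' k l : ι) :
    (gfb G c F).CS fun n => Rm I (G n).F.e (G n).F.c (G n).F.Gam a a' k l :=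
  have z : ∀ (n : α) (a : ι), Sm I (tv X ι (fun _ => ℝ) n a) := fun _ _ => contMDiff_const
  ((((h.cs_Gam a' k l).dvT a).sub ((h.cs_Gam a k l).dvT a')).add (Wt.sum z fun j =>
    ((h.cs_Gam a k j).mul (h.cs_Gam a' l j) cn00).sub ((h.cs_Gam a' k j).mul (h.cs_Gam a l j) cn00))).sub
    (Wt.sum z fun j => (h.gb.c a a' j).mul (h.cs_Gam j k l) cn00)

omit h in
theorem mulT {b : Fb I ι X} {S T : ∀ n, X n → En lam} (hS : b.CB (tv X ι fun _ => En lam) S)
    (hT : b.CB (tv X ι fun _ => En lam) T) : b.CB (tv X ι fun _ => En lam) fun n x => S n x * T n x :=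
  Wt.bil (β := fun _ => ContinuousLinearMap.mul ℝ (En lam)) (K := 1) hS.sA
    (fun _ => ContinuousLinearMap.opNorm_mul_le _ _) (fun n a x s t => by simp) hS hT cn00

theorem cs_fL (s : ι × ι) : (gfb G c F).CS fun n x => fL (B n) (G n) x s := by
  classical
  have z : ∀ (n : α) (a : ι), Sm I (tv X ι (fun _ => En lam) n a) := fun _ _ => contMDiff_const
  have h1 : (gfb G c F).CB (tv X ι fun _ => En lam) fun n => curv I (G n).F.e (G n).F.c (G n).a s.1 s.2 :=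
    ((((h.gb.a s.2).dvT s.1).sub ((h.gb.a s.1).dvT s.2)).add ((mulT (h.gb.a _) (h.gb.a _)).sub
      (mulT (h.gb.a _) (h.gb.a _)))).sub (Wt.sum z fun k => (h.gb.c _ _ k).smul (h.gb.a k) cn00)
  have h2 : (gfb G c F).CB (tv X ι fun _ => En lam) fun n _ => (B n).il :=
    Wt.par z (fun _ => contMDiff_const) (.of_forall fun q => norm_J (h.hB q.1).ilsq (h.hB q.1).ilsk)
      fun n a x => by simp [nab, dv_cst]
  have h3 := Wt.map (B := tv X ι fun _ => ℝ) (T := fun _ _ => (trE : CL (En lam) ℝ))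
    (fun _ _ => contMDiff_const) (fun _ => contMDiff_const) (fun _ _ => le_rfl)
    (fun n a x => by simp [dv_cst]) (mulT (mulT h2 h1) h.gb.l)
  exact (h3.const_smul (-(1 / 2))).congr fun n x => by simp only [fL, smul_eq_mul]

theorem cs_sd (s t : ι × ι) : (gfb G c F).CS fun n x => (B n).sd x s t :=
  ((((((h.gb.P s.1 t.1).mul (h.gb.P s.2 t.2) cn00).sub ((h.gb.P s.1 t.2).mul (h.gb.P s.2 t.1)
    cn00)).const_smul (1 / 2)).add ((h.gb.o s.1 s.2 t.1 t.2).const_smul (1 / 2))).const_smul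
      (1 / 2)).congr fun n x => by simp only [Base.sd, Base.a2, Base.st, smul_eq_mul]; ring

/-! ### parallel structures -/

theorem cb_p : (gfb G c F).CB (WE c) fun n => (c n).m.p :=
  Wt.par h.sE (fun n => (h.ok n).sp) (.of_forall fun q => norm_proj ((h.ok _).psym _) ((h.ok _).pidem _))
    fun n a x => (h.cn n).cc.par a x

theorem cb_J : (gfb G c F).CB (WE c) fun n _ => (c n).m.J :=
  Wt.par h.sE (fun _ => contMDiff_const) (.of_forall fun q => norm_J (h.ok _).Jsq (h.ok _).Jsk)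
    fun n a x => Wz78.nabE_J (h.cn n) a x

theorem cb_pp : (gfb G c F).CB (WE c) fun n => (c n).m.pp (B n) :=
  Wt.par h.sE (fun n => Wz78.sm_pp (h.ok n) (h.hB n)) (.of_forall fun q =>
    norm_proj (Wz78.pp_sym (h.hB _) (h.ok _) _) (Wz78.pp_pp (h.hB _) (h.ok _) _))
    fun n a x => Wz78.pp_par (h.hB n) (h.ok n) (h.cn n) a x

theorem cb_pm : (gfb G c F).CB (WE c) fun n => (c n).m.pm (B n) :=
  Wt.par h.sE (fun n => Wz78.sm_pm (h.ok n) (h.hB n)) (.of_forall fun q =>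
    norm_proj (Wz78.pm_sym (h.hB _) (h.ok _) _) (Wz78.pm_pm (h.hB _) (h.ok _) _))
    fun n a x => Wz78.pm_par (h.hB n) (h.ok n) (h.cn n) a x

theorem norm_ρ (a : ι) (n : α) (x : X n) : ‖(c n).m.ρ a x‖ ≤ 1 := by
  classical
  refine ContinuousLinearMap.opNorm_le_bound _ zero_le_one fun v => ?_
  have := Mp86.norm_cl ((h.hB n).pr x) ((h.ok n).cl x) (fun a => (h.ok n).ρsk a x) ((h.ok n).psym x)
    ((h.ok n).pidem x) (Pi.single a 1) v
  simp only [Pi.single_apply, ite_smul, one_smul, zero_smul, Finset.sum_ite_eq', Finset.mem_univ,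
    if_true, ite_pow, one_pow, ne_eq, OfNat.ofNat_ne_zero, not_false_eq_true, zero_pow, one_mul] at this
  rw [one_mul]; exact (abs_le_of_sq_le_sq' this (norm_nonneg _)).2

theorem cb_ρ (a : ι) : (gfb G c F).CB (WE c) fun n => (c n).m.ρ a :=
  Wt.lin (T := fun a n => (c n).m.ρ a) (j := fun _ k => k) h.sE (fun a n => (h.ok n).sρ a) h.norm_ρ
    h.cs_Gam (fun i n a x => (h.cn n).cc.comp a i x) a

theorem cb_rp (s : ι × ι) : (gfb G c F).CB (WE c) fun n x => rp (c n).m (B n) x s :=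
  ((((h.cb_ρ s.1).mulE (h.cb_ρ s.2) cn00).sub ((h.cb_ρ s.2).mulE (h.cb_ρ s.1) cn00)).const_smul
    (1 / 2)).mulE h.cb_pp cn00

/-- the antilinear maps of a bounded family of sections of the line -/
theorem cb_j {s : ∀ n, X n → Eu lam} (hs : (gfb G c F).CB (tv X ι fun _ => Eu lam) s) :
    (gfb G c F).CB (WE c) fun n x => (c n).m.j x (s n x) :=
  Wt.map (A := fun n => (G n).a) (T := fun n => (c n).m.j) (K := 1) h.sE (fun n => (h.ok n).sj)
    (fun n x => ContinuousLinearMap.opNorm_le_bound₂ _ zero_le_one fun s v => by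
      rw [one_mul]; exact Mp86.norm_j (h.hB n) (h.ok n) x s v)
    (fun n a x => ContinuousLinearMap.ext fun s => by
      have := (h.cn n).j a x s
      rw [← sub_eq_zero, add_sub_assoc] at this
      exact this) (Wt.conn h.gb.a hs)

variable {C : Ctx I ι X}

theorem wt_opL {ξ : ∀ n, X n → (c n).m.A} (hξ : Wt C (WA c) σ ξ) :
    Wt C (WE c) σ fun n x => opL (ξ n x) :=
  Wt.map (T := fun _ _ => opL) h.sE (fun _ => contMDiff_const) (fun _ _ => norm_opL)
    (fun n a x => ContinuousLinearMap.ext fun ξ => by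
      rw [dv_cst, zero_add]; exact sub_eq_zero.2 (Wz78.opL_adc _ _).symm) hξ

theorem wt_adc {ξ : ∀ n, X n → (c n).m.A} (hξ : Wt C (WA c) σ ξ) :
    Wt C (fun n => hom (WA c n) (WA c n)) σ fun n x => adc (opL (ξ n x)) :=
  Wt.map (T := fun _ _ => adcL ∘L opL) (K := 2) (fun n => sm_hom (h.sA n) (h.sA n))
    (fun _ => contMDiff_const) (fun _ _ => ContinuousLinearMap.opNorm_le_bound₂ _ zero_le_two
      fun u v => by rw [mul_assoc]; exact Wz78.norm_adc u v)
    (fun n a x => ContinuousLinearMap.ext fun ξ => by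
      rw [dv_cst, zero_add]
      exact sub_eq_zero.2 ((Wz78.adc_lie _ _).symm.trans (congrArg adc (Wz78.opL_adc _ _).symm))) hξ

theorem wt_pg {ξ : ∀ n, X n → (c n).m.A} (hξ : Wt ((gfb G c F).cx L dw) (WA c) σ ξ) :
    Wt ((gfb G c F).cx L dw) (WA c) σ fun n x => (c n).m.pg x (ξ n x) :=
  Wt.map (K := 1) h.sA h.spg (fun n x => ContinuousLinearMap.opNorm_le_bound _ zero_le_one fun v => by
    rw [one_mul]; exact Wz78.norm_pg x v) (fun n a x => Wz78.pg_par (h.ok n) (h.cn n) (h.spg n) a x) hξ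

theorem wt_q {u v : ∀ n, X n → (c n).m.V} (hu : Wt ((gfb G c F).cx L dw) (WV c) σ u)
    (hv : Wt ((gfb G c F).cx L dw) (WV c) σ' v) (hc : Cn σ σ' τ) :
    Wt ((gfb G c F).cx L dw) (WA c) τ fun n x => (c n).m.q x (u n x) (v n x) :=
  h.wt_pg (Wt.bil (β := fun _ => rkL) h.sA (fun _ => norm_rkL) (fun n a x s t => by
    simp only [rkL_apply, WA, Md.adW, Wz78.adc_apply, Wz78.opL_hsL, ← map_add]
    congr 1
    ext1 w
    simp only [_root_.sub_apply, _root_.add_apply, mul_apply_eq_comp, Wz78.rk1_apply,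
      map_smul, h.kV n a x t w, neg_smul]
    exact sub_eq_add_neg _ _) hu hv hc)

theorem wt_p2 {ξ : ∀ n, X n → Fm (ι × ι) (c n).m.A} (hσ : Monotone σ)
    (hξ : ∀ s, Wt ((gfb G c F).cx L dw) (WA c) σ fun n x => ξ n x s) (s : ι × ι) :
    Wt ((gfb G c F).cx L dw) (WA c) σ fun n x => (c n).m.p2 (B n) x (ξ n x) s :=
  (Wt.sum h.sA fun t => ((h.cs_sd s t).wt L dw 0).smul (h.wt_pg (hξ t)) (cn0 hσ)).congr
    fun _ _ => Wz78.idx_apply ..

theorem wt_E {T : ∀ n, X n → (c n).m.V →L[ℝ] (c n).m.V} (hT : (gfb G c F).CB (WE c) T)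
    {u : ∀ n, X n → (c n).m.V} (hσ : Monotone σ) (hu : Wt ((gfb G c F).cx L dw) (WV c) σ u) :
    Wt ((gfb G c F).cx L dw) (WV c) σ fun n x => T n x (u n x) :=
  (hT.wt L dw 0).app h.sV hu (cn0 hσ)

theorem wt_mu {u v : ∀ n, X n → (c n).m.V} (hu : Wt ((gfb G c F).cx L dw) (WV c) (sP dw) u)
    (hv : Wt ((gfb G c F).cx L dw) (WV c) (sP dw) v) (s : ι × ι) :
    Wt ((gfb G c F).cx L dw) (WA c) (sP dw) fun n x => (c n).m.mu (B n) x (u n x) (v n x) s :=
  (h.wt_q hu (h.wt_E (h.cb_rp s) sP_mono hv) cn_P).congr fun n _ => Wz78.mu_apply (h.hB n) (h.ok n) ..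

theorem wt_dir {u : ∀ n, X n → (c n).m.V} (hu : Wt ((gfb G c F).cx L dw) (WV c) (sP dw) u) :
    Wt ((gfb G c F).cx L dw) (WV c) (sL dw) fun n => dir I (G n).F.e (c n).m.ρ (c n).W (u n) :=
  Wt.sum h.sV fun a => h.wt_E (h.cb_ρ a) sL_mono ((hu.D a).mono sP_succ)

/-! ### the base system -/

theorem sF (s : ι × ι) (n : α) : Sm I (gF' G c s n) := Wz78.sm_Fg (h.hG n) (h.cn n) (h.spg n) s

variable (hL : (gbs G c).Le (gfb G c F) L)
include hL

theorem wt_F (s : ι × ι) : Wt ((gfb G c F).cx L dw) (WA c) (sU 4) (gF' G c s) :=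
  (wt_fld (L := gbs G c) (.inl s) h.sA (h.sF s)).le hL

theorem wt_DΦ (dw : ℕ) (a : ι) : Wt ((gfb G c F).cx L dw) (WV c) (sU dw)
    fun n => nab I (G n).F.e (c n).W a (c n).Φ :=
  (wt_fld (L := gbs G c) (.inr a) h.sV fun n => sm_nab (Wz78.frm (G n).F).se (h.sV n) (h.sm n) a).le hL

theorem wt_Φ (hΦ : (gfb G c F).Bd fun n => (c n).Φ) :
    Wt ((gfb G c F).cx L dw) (WV c) (sW dw) fun n => (c n).Φ := wt_sW h.sV h.sm hΦ (h.wt_DΦ hL dw)

/-- the curvature on spinor fields -/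
theorem crv_V {u : ∀ n, X n → (c n).m.V} (sm : ∀ n, Sm I (u n))
    (hp : ∀ n x, (c n).m.p x (u n x) = u n x) : Crv (gfb G c F) ((gfb G c F).cx L dw) (WV c) u := by
  intro a a'
  have h1 : (gfb G c F).CB (WE c) fun n x => spin (fun a => (c n).m.ρ a x)
      (fun k l => Rm I (G n).F.e (G n).F.c (G n).F.Gam a a' k l x) +
      (fL (B n) (G n) x (a, a') / 2) • ((c n).m.J * (c n).m.p x) :=
    ((Wt.sum h.sE fun k => Wt.sum h.sE fun l => (h.cs_Rm a a' k l).smul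
      ((h.cb_ρ k).mulE (h.cb_ρ l) cn00) cn00).const_smul (1 / 4)).add
      ((((h.cs_fL (a, a')).const_smul (1 / 2)).congr fun n x => by
        rw [smul_eq_mul, mul_comm, ← div_eq_mul_one_div]).smul (h.cb_J.mulE h.cb_p cn00) cn00)
  refine ⟨_, (h1.wt L dw _).add (h.wt_opL (h.wt_F hL (a, a'))), fun n v x => ?_⟩
  have key : ∀ (v : List ι) {u : X n → (c n).m.V}, Sm I u → (∀ x, (c n).m.p x (u x) = u x) →
      (c n).m.p x (Dw I (G n).F.e (c n).W v u x) = Dw I (G n).F.e (c n).W v u x := by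
    intro v
    induction v with
    | nil => exact fun _ h => h x
    | cons a v ih => exact fun hu hp => ih (sm_nab (Wz78.frm (G n).F).se (h.sV n) hu a) fun y =>
        ((h.cn n).cc.p_nab_ev a (hu y) (.of_forall hp)).self_of_nhds
  rw [← Wz78.curv_eq (h.hB n) (h.hG n) (h.ok n) (h.cn n), mul_apply_eq_comp]
  exact congrArg _ (key v (sm n) (hp n)).symm

/-- the curvature on sections of `g` -/
theorem crv_A {u : ∀ n, X n → (c n).m.A} (sm : ∀ n, Sm I (u n))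
    (hp : ∀ n x, u n x ∈ (c n).m.gS x) : Crv (gfb G c F) ((gfb G c F).cx L dw) (WA c) u := by
  refine fun a a' => ⟨_, h.wt_adc (h.wt_F hL (a, a')), fun n v x => ?_⟩
  have key : ∀ (v : List ι) {u : X n → (c n).m.A}, Sm I u → (∀ x, u x ∈ (c n).m.gS x) →
      Dw I (G n).F.e (WA c n) v u x ∈ (c n).m.gS x := by
    intro v
    induction v with
    | nil => exact fun _ h => h x
    | cons a v ih => exact fun hu hp => ih (sm_nab (Wz78.frm (G n).F).se (h.sA n) hu a) fun y =>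
        Wz78.nab_mem_g (h.ok n) (h.cn n) a (hu y) hp
  exact Wz78.curv_adW_g (h.hB n) (h.hG n) (h.ok n) (h.cn n) a a' (key v (sm n) (hp n))

/-- the curvature is a consistent field -/
theorem ok_F (hp : ∀ s, WW (gfb G c F) L sP (WA c)
    fun n x => (c n).m.p2 (B n) x ((c n).m.Fg (G n).F (c n).W x) s) (s : ι × ι) :
    ((gbs G c).f (.inl s)).OK (gfb G c F) L := by
  obtain ⟨b, k⟩ := s
  refine ⟨h.sA, h.sF _, h.kA, fun dw _ _ => h.crv_A hL (h.sF _) fun n x => Wz78.Fg_mem .., fun dw h3 h4 =>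
    ⟨fun k => max (sL dw (k + 1)).2 (8 + 2 * k), ?_, ?_, ?_⟩,
    .inl ⟨rfl, .inl fun n x => pow_le_pow_left₀ (norm_nonneg _) (PiLp.norm_apply_le ((c n).m.Fg (G n).F (c n).W x) (b, k)) 2⟩⟩
  · simp only [sL, Fld.d, gbs, Sum.elim_inl]; simp; omega
  · rintro rfl; simp [sL, Fld.d, gbs]
  have hF := h.wt_F (dw := dw) hL
  have cw := fun a a' k => (h.gb.c a a' k).wt L dw 0
  have m4 := cn0 (sU_mono 4)
  have m5 : Cn 0 (fun k => sU 4 (k + 1)) fun k => sU 4 (k + 1) := cn0 fun _ _ h => sU_mono 4 (by omega)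
  have hd : ∀ k, Wt ((gfb G c F).cx L dw) (WA c) (sL dw)
      fun n => dv2 I (G n).F.e (WA c n) (fun a b y => gF' G c (a, b) n y) k := fun k =>
    (((Wt.sum h.sA fun a => ((hp (a, k) dw h3 h4).D a).mono sP_succ).const_smul 2).sub
      (((Wt.sum h.sA fun a => Wt.sum h.sA fun i => Wt.sum h.sA fun l =>
        ((Fb.CB.wt ((h.gb.o a k i l).dvT a) L dw 0).smul (hF (i, l)) m4).add
          (((h.gb.o a k i l).wt L dw 0).smul (Wt.sum h.sA fun j => (cw i l j).smul (hF (j, a)) m4)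
            m4)).const_smul (1 / 2)).mono (sU_sL (by omega)))).congr
      fun n x => Wz78.Fg_div (h.hG n) (h.ok n) (h.cn n) (h.spg n) (h.hB n) k x
  have a1 : ∀ j, sL dw (j + 1) ≤ (j + 1, max (sL dw (j + 1)).2 (8 + 2 * j)) :=
    fun j => ⟨le_rfl, le_max_left _ _⟩
  have a2 : ∀ j, sU 4 (j + 1) ≤ (j + 1, max (sL dw (j + 1)).2 (8 + 2 * j)) :=
    fun j => ⟨le_rfl, le_max_of_le_right (by simp only [sU]; omega)⟩
  have a3 : Cn (sU 4) (sU 4) fun j => (j + 1, max (sL dw (j + 1)).2 (8 + 2 * j)) := fun i j =>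
    ⟨by simp [sU], le_max_of_le_right (by simp only [sU, Prod.snd_add]; omega)⟩
  exact (((((((hd k).D b).sub ((hd b).D k)).mono a1).add (Wt.sum h.sA fun a =>
    ((h.wt_adc (hF (a, b))).app h.sA (hF (a, k)) a3).sub
      ((h.wt_adc (hF (a, k))).app h.sA (hF (a, b)) a3))).add
    ((Wt.sum h.sA fun a => Wt.sum h.sA fun j => ((cw a b j).smul ((hF (a, k)).D j) m5).sub
      ((cw a k j).smul ((hF (a, b)).D j) m5)).mono a2)).add
    ((Wt.sum h.sA fun a => (Wt.sum h.sA fun j => (((cw b k j).smul (hF (j, a)) m4).add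
      ((cw k a j).smul (hF (j, b)) m4)).add ((cw a b j).smul (hF (j, k)) m4)).D a).mono a2)).congr
    fun n x => Wz78.Fg_lap (h.hG n) (h.ok n) (h.cn n) (h.spg n) (h.hB n) b k x

variable [I.Boundaryless] [∀ n, T2Space (X n)] [∀ n, BorelSpace (X n)]

/-- the derivative of the spinor is a consistent field -/
theorem ok_Φ (hΦ : (gfb G c F).Bd fun n => (c n).Φ) (hD : WW (gfb G c F) L sP (WV c)
    fun n => dir I (G n).F.e (c n).m.ρ (c n).W (c n).Φ) (a : ι) :
    ((gbs G c).f (.inr a)).OK (gfb G c F) L := by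
  refine ok_nab (b := gfb G c F) (g := fun n => (G n).F.dv) h.gb.c h.gb.dv h.sV h.kV h.sm hΦ
    (fun _ _ _ => h.crv_V hL h.sm h.pΦ) (h.wt_DΦ hL) (fun dw h3 h4 => ?_) a
  choose R hR eR using h.crv_V (dw := dw) hL h.sm h.pΦ
  refine ((h.wt_dir (hD dw h3 h4)).sub ((Wt.sum h.sV fun a => Wt.sum h.sV fun a' =>
    h.wt_E (h.cb_ρ a) sL_mono (h.wt_E (h.cb_ρ a') sL_mono ((hR a a').app h.sV (h.wt_Φ hL hΦ)
      (cn_UW (by omega))))).const_smul (1 / 2))).congr fun n x => eq_sub_of_add_eq ?_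
  rw [(h.cn n).cc.weitz (Wz78.glc (h.hG n)) (Wz78.gfrm (h.hG n)) (Wz78.dv_gam (h.hG n).vol x) (h.sm n x)
    (.of_forall (h.pΦ n))]
  congr 1
  have e := fun a a' => eR a a' n [] x
  simp only [Dw] at e
  simp only [wK, _root_.smul_apply, _root_.sum_apply, mul_apply_eq_comp, ← e]
  rfl

omit hL in
/-- **the base system is consistent**, and the refined Kato inequality holds -/
theorem ev_cons (hΦ : (gfb G c F).Bd fun n => (c n).Φ)
    (hD : PF (gfb G c F) (gbs G c) sP (WV c) fun n => dir I (G n).F.e (c n).m.ρ (c n).W (c n).Φ)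
    (hC : ∀ s, PF (gfb G c F) (gbs G c) sP (WA c) fun n y => ((c n).m.p2 (B n) y
      ((c n).m.Fg (G n).F (c n).W y) - (c n).m.mu (B n) y ((c n).Φ y) ((c n).Φ y)) s) :
    Ev (gfb G c F) (gbs G c) fun L =>
      (∀ i, ((gbs G c).f i).OK (gfb G c F) L) ∧ Kat (gfb G c F) L := by
  refine (hD.ev.and (Ev.all fun s => (hC s).ev)).mono fun L hL k => ?_
  have hp : ∀ s, WW (gfb G c F) L sP (WA c)
      fun n x => (c n).m.p2 (B n) x ((c n).m.Fg (G n).F (c n).W x) s := fun s dw h3 h4 =>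
    have := (h.wt_Φ (dw := dw) hL hΦ).mono (sW_sP (by omega))
    ((k.2 s dw h3 h4).add (h.wt_mu this this s)).congr fun n x => (sub_add_cancel _ _).symm
  refine ⟨?_, Wz78.kat_g h.hB h.hG h.ok h.cn (fun _ => rfl) (fun _ => rfl) (fun _ _ => rfl) h.gb.c h.gb.o
    (h.wt_F hL) fun s => hp s 3 le_rfl (by omega)⟩
  rintro (s | a)
  exacts [h.ok_F hL hp s, h.ok_Φ hL hΦ k.1 a]

end Gx

/-- a consistent system with the property `p` -/
theorem Ev.cons {b : Fb I ι X} {L₀ : Sy ι X} {p : Sy ι X → Prop}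
    (hc : ∀ a a' k, b.CS fun n => b.c n a a' k) (h : Ev b L₀ fun L => (∀ i, (L₀.f i).OK b L) ∧ p L) :
    ∃ L, Cons b (L₀.sum L) ∧ p (L₀.sum L) :=
  let ⟨L, h1, h2⟩ := h
  ⟨L, ⟨hc, fun i => match i with
    | .inl i => ((h2 _ Sy.Le.rfl).1 i).o3
    | .inr i => (h1 i).o3⟩, (h2 _ Sy.Le.rfl).2⟩

end Crest.Agent.X212.Cmp73
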