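import Crest.Agent.X212.Cmp73.Core
import Crest.Agent.X212.Eqv71.Nk1

/-!
# X212 / COMP (helper73), part 24: equations which hold locally; neck terms do not see `z`
-/

set_option autoImplicit false
set_option linter.unusedSectionVars false
open Set Filter Topology Function MeasureTheory
open scoped ContDiff Manifold InnerProductSpace NNReal ENNReal

noncomputable section
namespace Crest.Agent.X212.Cmp73

open An Nd18 Dgr80 Cyc79
open Wz78 (dir SA)

variable {E : Type} [NormedAddCommGroup E] [NormedSpace ℝ E] [FiniteDimensional ℝ E]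
  [MeasurableSpace E] [BorelSpace E]
  {HM : Type} [TopologicalSpace HM] {I : ModelWithCorners ℝ E HM} [I.Boundaryless]
  {E₀ : Type} [NormedAddCommGroup E₀] [NormedSpace ℝ E₀] [FiniteDimensional ℝ E₀]
  [MeasurableSpace E₀] [BorelSpace E₀]
  {H₀ : Type} [TopologicalSpace H₀] {I₀ : ModelWithCorners ℝ E₀ H₀} [I₀.Boundaryless]
  {M : Type} [TopologicalSpace M] [ChartedSpace H₀ M] [IsManifold I₀ ∞ M] [MeasurableSpace M]
  [T2Space M] [BorelSpace M] [SecondCountableTopology M]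
  {ι lam : Type} [Fintype ι] [Fintype lam] {α : Type}
  {X : α → Type} [∀ n, TopologicalSpace (X n)] [∀ n, ChartedSpace HM (X n)]
  [∀ n, IsManifold I ∞ (X n)] [∀ n, MeasurableSpace (X n)] [∀ n, T2Space (X n)]
  [∀ n, BorelSpace (X n)] [∀ n, SecondCountableTopology (X n)] {r m : ℕ}

theorem sm_p2c {B : Base M ι lam} {d : Md M ι lam} (hB : B.OK I₀) (ok : d.OK I₀ B)
    {θ : M → Fm (ι × ι) d.A} (h : ∀ s, Sm I₀ fun x => θ x s) (s : ι × ι) :
    Sm I₀ fun x => d.p2 B x (θ x) s := fun x =>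
  SA.clm (PiLp.proj 2 (𝕜 := ℝ) (fun _ : ι × ι => d.A) s)
    ((Std94.sm_p2 hB ok x).clm_apply (SA.toLp fun s => h s x))

namespace Gs
variable {g : Gs I I₀ M ι lam X} {c : ∀ n, Cfg (X n) ι lam r}

variable (g) in
/-- equality near the points of the limit -/
def LE {V : α → Type} (s t : ∀ n, X n → V n) : Prop :=
  ∀ x ∉ g.P, ∀ᶠ q in (g.l : Filter α) ×ˢ 𝓝 x, s q.1 (g.ψ q.1 q.2) = t q.1 (g.ψ q.1 q.2)

theorem LE.ev {V : α → Type} {s t : ∀ n, X n → V n} (h : g.LE s t) (hg : g.OK) (x : M) :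
    ∀ᶠ q in g.F g.Pᶜ x, s q.1 =ᶠ[𝓝 q.2] t q.1 := hg.ev_nhds (p := fun n y => s n y = t n y) h x

variable (k : g.Bk c) {D : ∀ n, X n → (c n).m.V} {C : ∀ n, X n → Fm (ι × ι) (c n).m.A}
  {S : α → Fin m → ℂ} {τ : Pt M ι lam r m} (h : g.QT c D C S τ)
  (eD : g.LE (fun n => dir I (g.G n).F.e (c n).m.ρ (c n).W (c n).Φ) D)
  (eC : g.LE (fun n x => (c n).m.p2 (g.B n) x (g.Fg c n x) -
    (c n).m.mu (g.B n) x ((c n).Φ x) ((c n).Φ x)) C)
include k h eD eC

theorem Bk.hyp' (he : ∀ x, (g.fb c (g.F g.Pᶜ x)).En) : g.Hyp c := by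
  refine ⟨k.adm, k.Φ.bd _, he, fun x => (h.D.pf x).congr_ev (fun n y => (k.adm n).conn.cc.dir_sm
    (Wz78.gfrm (k.ok.G n)) ((k.adm n).sm y)) (eD.ev k.ok x), fun x => ?_⟩
  obtain ⟨θ, h1, h2, h3⟩ := h.C x
  refine ⟨θ, h1, h2, fun s => (h3 s).congr_ev (fun n => ?_) ((eC.ev k.ok x).mono fun q hq =>
    hq.mono fun y hy => by simp only [hy])⟩
  obtain ⟨L, -, h4⟩ := h2
  have p := fun θ => sm_p2c (θ := θ) (k.ok.B n) (k.adm n).ok
  exact ((p _ (Wz78.sm_Fg (k.ok.G n) (k.adm n).conn (Std94.sm_pg (k.ok.B n) (k.adm n).ok)) s).sub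
    (((k.qmu s).pf x).sm n)).sub (p (θ n)
      (fun s => ((h4 L _ Sy.Le.rfl Sy.Le.rfl (le_sum_right _ _ _)).c s.1 s.2).sm n) s)

theorem Bk.sol' {b : Cfg M ι lam r} {u : ∀ n, M → CL (c n).m.V b.m.V} (l : g.LB c b u) :
    (∀ x, b.eD g.G₀ τ x = 0) ∧ ∀ x, b.eC g.B₀ g.G₀ τ x = 0 := by
  refine ⟨fun x => sub_eq_zero.2 (congrFun (LV.unique l.lim k.ok (LV.dir l.lim k.ok k.adm
    ((QV.Φ k).lim b u l) fun n => (k.adm n).sm) ⟨(h.D.lim b u l).sm, (h.D.lim b u l).cv.congr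
      (fun x hx => (eD x (l.lim.sub hx)).mono fun _ hq => congrArg _ hq) fun _ _ => rfl⟩) x), fun x => ?_⟩
  rw [Cfg.eC, sub_sub, sub_eq_zero]
  refine PiLp.ext fun s => congrFun (LA.unique (ξ'' := fun x => (b.m.mu g.B₀ x (b.Φ x) (b.Φ x) + τ.C b x) s)
    l.lim k.ok (LA.p2 l.lim k.ok k.adm (l.lim.Fg k.ok k.adm) s) ?_) x
  have a := ((k.qmu s).lim b u l).add (h.L s b u l)
  exact ⟨a.sm, a.cv.congr (fun x hx => (eC x (l.lim.sub hx)).mono fun q hq => by
    simp only [← hq, ← PiLp.add_apply, add_sub_cancel]) fun _ _ => rfl⟩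

end Gs

/-! ### `z` -/

section noz
variable (F : Fr I₀ M ι) (c : Cfg M ι lam r)

theorem la_noz : (noz c).la F = c.la F := funext fun t => by cases t <;> rfl
theorem lt_noz : (noz c).lt F = c.lt F := funext fun t => by cases t <;> rfl
theorem laS_noz : laS (noz c) = laS c := funext fun t => by cases t <;> rfl
theorem ltS_noz : ltS F (noz c) = ltS F c := funext fun t => by cases t <;> rfl
theorem pk_noz : Dgr80.pk (noz c) = Dgr80.pk c := funext fun t => by cases t <;> rfl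
theorem nw_noz : nw F (noz c) = nw F c := by funext u; unfold nw; rw [lt_noz]; rfl
theorem sw_noz : (noz c).sw F = c.sw F := by funext u; unfold Cfg.sw; rw [lt_noz]; rfl
theorem swA_noz : swA F (noz c) = swA F c := by funext u l; unfold swA; rw [ltS_noz]; rfl
theorem swP_noz : swP F (noz c) = swP F c := by funext u l; unfold swP; rw [ltS_noz]; rfl
theorem bf_noz : bf F (noz c) = bf F c := by funext f f'; unfold bf; rw [la_noz]; rfl
theorem gh_noz : gh F (noz c) = gh F c := by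
  funext f f' w w' l x; unfold gh; rw [bf_noz]; rfl

theorem aw_noz (ξ : AW M) : (noz c).aw F ξ = c.aw F ξ := by
  obtain ⟨_ | _, l⟩ := ξ <;> simp only [Cfg.aw, la_noz, Cfg.sd, sw_noz] <;> rfl

/-- densities which do not see `z` -/
def DZ (d₀ : Den M ι lam 0) (d : Den M ι lam r) : Prop :=
  d₀.h (noz c) = d.h c ∧ d₀.gA (noz c) = d.gA c ∧ d₀.gP (noz c) = d.gP c

theorem sz_cy (d : Cy M) (w : List (La M)) : ((d.sed F).wd F w).s (noz c) = ((d.sed F).wd F w).s c ∧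
    ((d.sed F).wd F w).sA (noz c) = ((d.sed F).wd F w).sA c ∧
    ((d.sed F).wd F w).sP (noz c) = ((d.sed F).wd F w).sP c := by
  have h1 : (d.sed F).s (noz c) = (d.sed F).s c := by
    funext x; simp only [Cy.sed, Cy.al, Cy.be, bf_noz]; rfl
  have h2 : (d.sed F).sA (noz c) = (d.sed F).sA c := by
    funext l x; simp only [Cy.sed, gh_noz]; rfl
  exact ⟨by simp only [Sed.wd, la_noz, h1]; rfl, by funext l x; simp only [Sed.wd, laS_noz, h1, h2]; rfl,
    rfl⟩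

theorem dz_sw (χ : M → ℝ) (T : Pk M lam) (u v : SW M) :
    DZ c (dcut χ (Den.sw F T u v)) (dcut χ (Den.sw F T u v)) := by
  refine ⟨?_, ?_, ?_⟩ <;> simp only [dcut, Den.sw, pk_noz, nw_noz, swA_noz, swP_noz] <;> rfl

end noz

variable {E3 : Type} [NormedAddCommGroup E3] [NormedSpace ℝ E3] [FiniteDimensional ℝ E3]
  [MeasurableSpace E3] [BorelSpace E3]
  {H3 : Type} [TopologicalSpace H3] {I3 : ModelWithCorners ℝ E3 H3} [I3.Boundaryless]
  {Y : Type} [TopologicalSpace Y] [ChartedSpace H3 Y] [IsManifold I3 ∞ Y] [T2Space Y]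
  [MeasurableSpace Y] [BorelSpace Y] [SecondCountableTopology Y] [CompactSpace Y]
  {κ : Type} [Fintype κ] {D : YD I3 Y κ lam} (N : ND Y lam)
  {B : Base M (Option κ) lam} {G : Geo I₀ M (Option κ) lam} (K : Nk D B G)
  (c : Cfg M (Option κ) lam r)

theorem dz_dg (j : N.J) : DZ c ((N.dg K).d j) ((N.dg K).d j) := by
  rcases j with j | j | j
  · show DZ c (K.den (N.d0 j)) (K.den (N.d0 j))
    cases N.d0 j with
    | sw u v => exact dz_sw _ _ _ _ _ _
    | cy d w d' w' =>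
      have a := sz_cy G.F c (K.cyc d) (w.map K.la)
      have b := sz_cy G.F c (K.cyc d') (w'.map K.la)
      refine ⟨?_, ?_, ?_⟩ <;>
        simp only [Nk.den, dcut, Den.sed, a.1, b.1, a.2.1, b.2.1, a.2.2, b.2.2] <;> rfl
  · exact dz_sw _ _ _ _ _ _
  · exact dz_sw _ _ _ _ _ _

theorem q1_noz (x : M) :
    (N.q1 K : Pt _ _ _ 0 0).D (noz c) x = (N.q1 K : Pt _ _ _ r m).D c x ∧
    (N.q1 K : Pt _ _ _ 0 0).C (noz c) x = (N.q1 K : Pt _ _ _ r m).C c x := by
  have e : (N.dg K).Iv G.F (noz c) = (N.dg K).Iv G.F c :=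
    funext fun t => funext fun j => congrArg (wn _ _ _ · t) (dz_dg N K c j).1
  have b : ∀ j, (N.dg K).β G.F (noz c) j = (N.dg K).β G.F c j := fun j => by
    unfold DG.β DG.co; rw [e]; rfl
  have g : (N.dg K).gA G.F (noz c) x = (N.dg K).gA G.F c x := by
    simp only [DG.gA, b, (dz_dg N K c _).2.1]; rfl
  have g' : (N.dg K).gP G.F (noz c) x = (N.dg K).gP G.F c x := by
    simp only [DG.gP, b, (dz_dg N K c _).2.2]; rfl
  simp only [ND.q1, DG.q1, g, g']
  exact ⟨rfl, rfl⟩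

theorem q2_noz (T : YT Y) (x : M) :
    (N.q2 K T : Pt _ _ _ 0 0).D (noz c) x = (N.q2 K T : Pt _ _ _ r m).D c x ∧
    (N.q2 K T : Pt _ _ _ 0 0).C (noz c) x = (N.q2 K T : Pt _ _ _ r m).C c x := by
  have l1 : ∀ u : List (YL Y ⊕ YTC), (u.map (N.tl K)).map (tl G.F K.τ N.δ (noz c)) =
      (u.map (N.tl K)).map (tl G.F K.τ N.δ c) := fun u => by
    rw [List.map_map, List.map_map]
    exact List.map_congr_left fun t _ => by cases t <;> rfl
  have l2 : ∀ u : List (La Y ⊕ YTC), (u.map (N.ta K)).map (ta G.F K.τ N.δ (noz c)) =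
      (u.map (N.ta K)).map (ta G.F K.τ N.δ c) := fun u => by
    rw [List.map_map, List.map_map]
    exact List.map_congr_left fun t _ => by cases t <;> rfl
  have o : N.oc K T (noz c) x = N.oc K T c x := rfl
  have t : (noz c).tD B G.F (N.tm K (noz c) 0 T) x = c.tD B G.F (N.tm K c m T) x ∧
      (noz c).tC B G.F (N.tm K (noz c) 0 T) x = c.tC B G.F (N.tm K c m T) x := by
    cases T <;> simp only [ND.tm, TT.tm, l1, l2, Cfg.tD, Cfg.tC, sw_noz, aw_noz] <;> exact ⟨rfl, rfl⟩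
  simp only [ND.q2, o, t.1, t.2]
  exact ⟨rfl, rfl⟩

theorem pt_noz (q : YW I3 Y →₀ ℝ) (x : M) :
    (N.pt K q : Pt _ _ _ 0 0).D (noz c) x = (N.pt K q : Pt _ _ _ r m).D c x ∧
    (N.pt K q : Pt _ _ _ 0 0).C (noz c) x = (N.pt K q : Pt _ _ _ r m).C c x := by
  simp only [ND.pt, Pt.add, fsum, (q1_noz (m := m) N K c x).1, (q1_noz (m := m) N K c x).2,
    fun T => (q2_noz (m := m) N K c T x).1, fun T => (q2_noz (m := m) N K c T x).2]
  exact ⟨rfl, rfl⟩

end Crest.Agent.X212.Cmp73
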