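import Crest.Agent.X212.Cmp73.Top

/-!
# X212 / COMP (helper73), part 23: the inputs of `LEV` and `KAP`
-/

set_option autoImplicit false
set_option linter.unusedSectionVars false
open Set Filter Topology Function MeasureTheory

noncomputable section
namespace Crest.Agent.X212.Cmp73

open An An.Job M
open Fin37 (core)

variable {Wi : Type} {X : Mf 4} {A κ lam : Type} [Fintype A] [Fintype κ] [Fintype lam]
  [DecidableEq lam] {M : Mark X A κ} {W : World M} {N : ML M lam}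
  {Λ : Lns W N} {A' h : Type} [Fintype A'] [DecidableEq A'] [Fintype h] {r n : ℕ}
  (J : Job Wi Λ A' h r n) (Adm : (Wi →₀ ℝ) → Prop)

/-- LEAF CORE: the moving cores are the core of the limit -/
def CORE : Prop := AllS J Adm fun _ c c₀ F S => ∀ᶠ R in atTop, ∀ᶠ i in (F.l : Filter _), ∀ z ∉ S.P,
  (S.j (S.f z) ∈ core J c (F.y i).s R ↔ z ∈ core J c₀ F.s₀ R)

/-- LEAF PINCH: the level lost at the pinched points -/
def PINCH : Prop := AllL J Adm fun _ _ c₀ F S b _ => ∀ N ∈ 𝓝ˢ S.P, ∃ K, IsCompact K ∧ K ∈ 𝓝ˢ S.P ∧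
  K ⊆ N ∧ K ∩ S.E ⊆ S.P ∧ ∃ m : ℕ, Tendsto (fun i => (F.y i).kap ((S.j ∘ S.f) '' (K \ S.P))) F.l
    (𝓝 (∫ x in K, F.kd b x ∂(J.G c₀ F.s₀).F.μ + m))

/-- LEAF NULL -/
def NULL : Prop := AllS J Adm fun _ c _ _ S => ∀ s, (J.G c s).F.μ ((S.j ∘ S.f) '' S.Pᶜ)ᶜ = 0

end Crest.Agent.X212.Cmp73
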