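import Crest.Agent.X212.Cmp73.Ine

/-!
# X212 / COMP (helper73), part 9: the calculus of controlled sections
-/

set_option autoImplicit false
set_option linter.unusedSectionVars false
open Set Filter Topology Function MeasureTheory
open scoped ContDiff Manifold InnerProductSpace NNReal

noncomputable section
namespace Crest.Agent.X212.Cmp73

open An (Sm)
open Wz78 (nab curv lap SA Frm)
open Sob92 (dv)

variable {E : Type} [NormedAddCommGroup E] [NormedSpace ℝ E] {HM : Type} [TopologicalSpace HM]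
  {I : ModelWithCorners ℝ E HM} {ι : Type} [Fintype ι]
  {α : Type} {X : α → Type} [∀ n, TopologicalSpace (X n)] [∀ n, ChartedSpace HM (X n)]
  [∀ n, IsManifold I ∞ (X n)]
  {V W U : α → Type} [∀ n, NormedAddCommGroup (V n)] [∀ n, NormedSpace ℝ (V n)]
  [∀ n, NormedAddCommGroup (W n)] [∀ n, NormedSpace ℝ (W n)]
  [∀ n, NormedAddCommGroup (U n)] [∀ n, NormedSpace ℝ (U n)]

/-- right hand sides of resolvent equations -/
def sL (dw : ℕ) (k : ℕ) : ℕ × ℕ := (k, max (dw + 2 + 2 * k) (dw * (k + 1)))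

section cls
variable {dw : ℕ}

theorem sP_mono : Monotone (sP dw) := fun _ _ h =>
  ⟨Nat.sub_le_sub_right h 1, Nat.mul_le_mul_left _ h⟩
theorem sU_mono (d : ℕ) : Monotone (sU d) := fun _ _ h => ⟨h, by simp only [sU]; omega⟩
theorem sL_mono : Monotone (sL dw) := fun _ _ h =>
  ⟨h, max_le_max (by omega) (Nat.mul_le_mul_left _ (by omega))⟩
theorem sW_sP (h : 2 ≤ dw) : ∀ k, sW dw k ≤ sP dw k
  | 0 => zero_le
  | k + 1 => ⟨le_rfl, by simp only [sW, sP]; nlinarith⟩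
theorem sP_succ (k : ℕ) : sP dw (k + 1) ≤ sL dw k := ⟨le_rfl, le_max_right _ _⟩
theorem sP_sL (k : ℕ) : sP dw k ≤ sL dw k := (sP_mono k.le_succ).trans (sP_succ k)
theorem sU_sL {d : ℕ} (h : d ≤ dw + 2) (k : ℕ) : sU d k ≤ sL dw k :=
  ⟨le_rfl, le_max_of_le_left (by simp only [sU]; omega)⟩
theorem cn_PP (j k : ℕ) : Cn (fun i => sP dw (i + j)) (fun i => sP dw (i + k))
    fun i => sP dw (i + (j + k)) := fun a c =>
  ⟨by simp only [sP, Prod.fst_add]; omega, by simp only [sP, Prod.snd_add]; nlinarith⟩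
theorem cn_P : Cn (sP dw) (sP dw) (sP dw) := cn_PP 0 0
theorem cn_UW (h : 2 ≤ dw) : Cn (sU 4) (sW dw) (sL dw) := fun i j => match j with
  | 0 => by simpa [sW] using sU_sL (by omega) i
  | j + 1 => ⟨by simp only [sU, sW, sL, Prod.fst_add]; omega,
    le_max_of_le_left (by simp only [sU, sW, Prod.snd_add]; omega)⟩
theorem Cn.symm {σ σ' τ : ℕ → ℕ × ℕ} (h : Cn σ σ' τ) : Cn σ' σ τ := fun i j => by
  rw [add_comm, add_comm i]; exact h j i
theorem cn0 {σ : ℕ → ℕ × ℕ} (h : Monotone σ) : Cn 0 σ σ := Wt.cn_zero σ h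
theorem cn00 : Cn 0 0 0 := cn0 monotone_const

end cls

namespace Wt
variable {C : Ctx I ι X} {A : ∀ n, ι → X n → V n →L[ℝ] V n} {B : ∀ n, ι → X n → W n →L[ℝ] W n}
  {σ σ' τ : ℕ → ℕ × ℕ} {f g : ∀ n, X n → V n} {dw : ℕ}

/-- bounded constants -/
theorem cst {r : α → ℝ} {K : ℝ} (h : ∀ᶠ q in C.F, |r q.1| ≤ K) :
    Wt C (tv X ι fun _ => ℝ) σ fun n _ => r n :=
  par (fun _ _ => contMDiff_const) (fun _ => contMDiff_const) h fun n a x => by simp [nab, dv_cst]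

theorem mul {φ ψ : ∀ n, X n → ℝ} (h : Wt C (tv X ι fun _ => ℝ) σ φ)
    (h' : Wt C (tv X ι fun _ => ℝ) σ' ψ) (hc : Cn σ σ' τ) :
    Wt C (tv X ι fun _ => ℝ) τ fun n x => φ n x * ψ n x := h.smul h' hc

theorem dvT (h : Wt C (tv X ι V) σ f) (a : ι) :
    Wt C (tv X ι V) (fun k => σ (k + 1)) fun n => dv I (C.e n a) (f n) :=
  (h.D a).congr fun _ _ => (add_zero _).symm

theorem b0_sum {κ : Type} [Fintype κ] {s : ℕ × ℕ} (v : List ι) {w : κ → ∀ n, X n → V n}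
    (sA : ∀ n a, Sm I (A n a)) (sm : ∀ i n, Sm I (w i n))
    (h : ∀ i, B0 C.toJt s fun q => ‖Cmp73.Dw I (C.e q.1) (A q.1) v (w i q.1) q.2‖) :
    B0 C.toJt s fun q => ‖Cmp73.Dw I (C.e q.1) (A q.1) v (fun x => ∑ i, w i q.1 x) q.2‖ := by
  classical
  have : ∀ t : Finset κ, B0 C.toJt s
      fun q => ‖Cmp73.Dw I (C.e q.1) (A q.1) v (fun x => ∑ i ∈ t, w i q.1 x) q.2‖ := fun t => by
    induction t using Finset.induction_on with
    | empty => exact B0.bdd (C := 0) (.of_forall fun q => by simp [Dw_zero])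
    | insert a t ha ih =>
      refine (h a).add ih fun q => ?_
      simp only [Finset.sum_insert ha]
      rw [Dw_add (C.sm _) (sA _) v (sm a _) fun x => SA.sum _ fun i _ => sm i _ x]
      exact norm_add_le _ _
  exact this _

/-- bounded families whose derivatives are combinations of the family -/
theorem lin {κ κ' : Type} [Fintype κ'] {T : κ → ∀ n, X n → V n} (sA : ∀ n a, Sm I (A n a))
    (sm : ∀ i n, Sm I (T i n)) {K : ℝ} (h0 : ∀ i n x, ‖T i n x‖ ≤ K)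
    {γ : ι → κ → κ' → ∀ n, X n → ℝ} {j : κ → κ' → κ}
    (hγ : ∀ a i k, Wt C (tv X ι fun _ => ℝ) 0 (γ a i k))
    (h : ∀ i n a x, nab I (C.e n) (A n) a (T i n) x = ∑ k, γ a i k n x • T (j i k) n x) (i : κ) :
    Wt C A 0 (T i) := by
  have key : ∀ (v : List ι) (i : κ) (φ : ∀ n, X n → ℝ), Wt C (tv X ι fun _ => ℝ) 0 φ → B0 C.toJt 0
      fun q => ‖Cmp73.Dw I (C.e q.1) (A q.1) v (fun x => φ q.1 x • T i q.1 x) q.2‖ := by
    intro v
    induction v with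
    | nil =>
      exact fun i φ hφ => (hφ.bd []).mul (B0.bdd (s := 0) (.of_forall fun q => h0 i q.1 q.2))
        (by simp) (fun _ => norm_nonneg _) fun q => (norm_smul _ _).le
    | cons a v ih =>
      intro i φ hφ
      have h1 := fun k => hφ.mul (hγ a i k) cn00
      have h2 := hφ.dvT a
      have s1 : ∀ k n, Sm I fun x => (φ n x * γ a i k n x) • T (j i k) n x :=
        fun k n => (h1 k).sm n |>.smul (sm (j i k) n)
      have s2 : ∀ n, Sm I fun x => dv I (C.e n a) (φ n) x • T i n x := fun n => (h2.sm n).smul (sm i n)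
      refine (ih i _ h2).add (b0_sum v sA s1 fun k => ih (j i k) _ (h1 k)) fun q => ?_
      rw [Cmp73.Dw, show nab I (C.e q.1) (A q.1) a (fun x => φ q.1 x • T i q.1 x) = fun x =>
        dv I (C.e q.1 a) (φ q.1) x • T i q.1 x + ∑ k, (φ q.1 x * γ a i k q.1 x) • T (j i k) q.1 x from
        funext fun x => by
          rw [Wz78.nab_smul a (hφ.sm _ x) (sm i _ x), h, Finset.smul_sum]; simp only [mul_smul],
        Dw_add (C.sm _) (sA _) v (s2 _) fun x => SA.sum _ fun k _ => s1 k _ x]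
      exact norm_add_le _ _
  exact ⟨sA, sm i, fun v => by
    simpa using key v i (fun _ _ => 1) (cst (K := 1) (by simp))⟩

/-- a bounded connection form does not change the class of bounded sections -/
theorem conn (hA : ∀ a, Wt C (tv X ι fun n => V n →L[ℝ] V n) 0 fun n => A n a)
    (hf : Wt C (tv X ι V) 0 f) : Wt C A 0 f := by
  refine ⟨fun n a => (hA a).sm n, hf.sm, fun v => ?_⟩
  induction v generalizing f with
  | nil => exact hf.bd []
  | cons a v ih =>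
    refine ih (f := fun n => nab I (C.e n) (A n) a (f n)) ((hf.dvT a).add ?_)
    exact bil (β := fun n => ContinuousLinearMap.id ℝ (V n →L[ℝ] V n)) (K := 1) hf.sA
      (fun _ => ContinuousLinearMap.norm_id_le) (fun n a x s t => by simp) (hA a) hf cn00

/-- smooth functions of bounded sections -/
theorem nem {t : ∀ n, X n → ℝ} (ht : Wt C (tv X ι fun _ => ℝ) (sP dw) t) {T : Set ℝ}
    (hT : IsClosed T) (htT : ∀ n x, t n x ∈ T) {φ : ℝ → ℝ} (hφ : ∀ s ∈ T, ContDiffAt ℝ ∞ φ s)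
    (hg : Wt C A (sP dw) g) : Wt C A (sP dw) fun n x => φ (t n x) • g n x := by
  have sφ : ∀ {φ : ℝ → ℝ}, (∀ s ∈ T, ContDiffAt ℝ ∞ φ s) → ∀ n, Sm I fun x => φ (t n x) :=
    fun hφ n x => (hφ _ (htT n x)).comp_contMDiffAt (ht.sm n x)
  have key : ∀ (v : List ι) (φ : ℝ → ℝ), (∀ s ∈ T, ContDiffAt ℝ ∞ φ s) → ∀ (j : ℕ)
      (g : ∀ n, X n → V n), Wt C A (fun k => sP dw (k + j)) g → B0 C.toJt (sP dw (v.length + j))
      fun q => ‖Cmp73.Dw I (C.e q.1) (A q.1) v (fun x => φ (t q.1 x) • g q.1 x) q.2‖ := by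
    intro v
    induction v with
    | nil =>
      intro φ hφ j g hg
      refine (B0.post (g' := fun q => ‖φ (t q.1 q.2)‖) (ht.bd []) fun K => ?_).mul (hg.bd [])
        (by simp) (fun _ => norm_nonneg _) fun q => (norm_smul _ _).le
      obtain ⟨K', hK⟩ := ((isCompact_closedBall (0 : ℝ) K).inter_right hT).exists_bound_of_continuousOn
        (f := φ) fun s hs => (hφ s hs.2).continuousAt.continuousWithinAt
      exact ⟨K', fun q hq => hK _ ⟨mem_closedBall_zero_iff.2 hq, htT _ _⟩⟩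
    | cons a v ih =>
      intro φ hφ j g hg
      have hd : ∀ s ∈ T, ContDiffAt ℝ ∞ (deriv φ) s := fun s hs =>
        ((hφ s hs).fderiv_right (m := ∞) (by simp)).clm_apply contDiffAt_const
      have h1 := (ht.dvT a).smul hg (cn_PP 1 j)
      have h2 := hg.D a
      have e1 : (a :: v).length + j = v.length + (1 + j) := by simp; omega
      have s1 : ∀ n, Sm I fun x => deriv φ (t n x) • dv I (C.e n a) (t n) x • g n x :=
        fun n => (sφ hd n).smul (h1.sm n)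
      have s2 : ∀ n, Sm I fun x => φ (t n x) • nab I (C.e n) (A n) a (g n) x :=
        fun n => (sφ hφ n).smul (h2.sm n)
      rw [e1]
      refine (ih _ hd _ _ h1).add (ih _ hφ (1 + j) _ (h2.mono fun k => by
        rw [show k + 1 + j = k + (1 + j) by omega])) fun q => ?_
      rw [Cmp73.Dw, show nab I (C.e q.1) (A q.1) a (fun x => φ (t q.1 x) • g q.1 x) = fun x =>
        deriv φ (t q.1 x) • dv I (C.e q.1 a) (t q.1) x • g q.1 x +
          φ (t q.1 x) • nab I (C.e q.1) (A q.1) a (g q.1) x from funext fun x => by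
          rw [Wz78.nab_smul a (sφ hφ _ x) (hg.sm _ x), smul_smul]
          congr 2
          exact (Sob92.dv_comp ((ht.sm _ x).mdifferentiableAt (by simp))
            ((hφ _ (htT _ x)).differentiableAt (by simp)).hasDerivAt.hasFDerivAt).trans (by
              simp [mul_comm]),
        Dw_add (C.sm _) (hg.sA _) v (s1 _) (s2 _)]
      exact norm_add_le _ _
  exact ⟨hg.sA, fun n => (sφ hφ n).smul (hg.sm n), fun v => key v φ hφ 0 g hg⟩

end Wt

/-- inner products -/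
theorem Wt.inner {V : α → Type} [∀ n, NormedAddCommGroup (V n)] [∀ n, InnerProductSpace ℝ (V n)]
    {C : Ctx I ι X} {A : ∀ n, ι → X n → V n →L[ℝ] V n} {σ σ' τ : ℕ → ℕ × ℕ} {f g : ∀ n, X n → V n}
    (sk : ∀ n a x v w, ⟪A n a x v, w⟫_ℝ = -⟪v, A n a x w⟫_ℝ) (hf : Wt C A σ f) (hg : Wt C A σ' g)
    (hc : Cn σ σ' τ) : Wt C (tv X ι fun _ => ℝ) τ fun n x => ⟪f n x, g n x⟫_ℝ :=
  Wt.bil (β := fun n => (innerSL ℝ : V n →L[ℝ] V n →L[ℝ] ℝ)) (K := 1)
    (fun _ _ => contMDiff_const) (fun _ => norm_innerSL_le ℝ) (fun n a x s t => by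
      change (0 : ℝ) = ⟪A n a x s, t⟫_ℝ + ⟪s, A n a x t⟫_ℝ
      rw [sk]; ring) hf hg hc

variable [∀ n, MeasurableSpace (X n)] {b : Fb I ι X} {L₀ L L' : Sy ι X}

theorem Sy.Le.rfl : L.Le b L := fun _ _ _ _ _ => le_rfl

theorem Sy.Le.trans (h : L₀.Le b L) (h' : L.Le b L') : L₀.Le b L' :=
  fun _ _ _ _ _ => (h ..).trans (h' ..)

variable (b L₀) in
/-- `p` holds for all systems above some consistent extension of `L₀` -/
def Ev (p : Sy ι X → Prop) : Prop :=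
  ∃ L : Sy ι X, (∀ i, (L.f i).OK b (L₀.sum L)) ∧ ∀ L', (L₀.sum L).Le b L' → p L'

namespace Ev
variable {p p' : Sy ι X → Prop}

theorem of (h : ∀ L, L₀.Le b L → p L) : Ev b L₀ p :=
  ⟨Sy.nil, fun i => i.elim, fun _ hL => h _ ((le_sum_left b _ _).trans hL)⟩

theorem mono (h : Ev b L₀ p) (e : ∀ L, L₀.Le b L → p L → p' L) : Ev b L₀ p' :=
  let ⟨L, h1, h2⟩ := h; ⟨L, h1, fun _ hL => e _ ((le_sum_left b _ _).trans hL) (h2 _ hL)⟩

/-- new fields -/
theorem new {L₁ : Sy ι X} (h : Ev b L₀ p)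
    (e : ∀ L, L₀.Le b L → p L → L₁.Le b L → ∀ i, (L₁.f i).OK b L) :
    Ev b L₀ fun L => p L ∧ L₁.Le b L := by
  obtain ⟨L, h1, h2⟩ := h
  have a1 : (L₀.sum L).Le b (L₀.sum (L.sum L₁)) := (le_sum_left b L L₁).sum L₀
  have a2 : L₁.Le b (L₀.sum (L.sum L₁)) := (le_sum_right b L L₁).trans (le_sum_right b _ _)
  refine ⟨L.sum L₁, ?_, fun _ hL => ⟨h2 _ (a1.trans hL), a2.trans hL⟩⟩
  rintro (i | i)
  exacts [(h1 i).le a1, e _ (le_sum_left b _ _) (h2 _ a1) a2 i]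

theorem and (h : Ev b L₀ p) (h' : Ev b L₀ p') : Ev b L₀ fun L => p L ∧ p' L := by
  obtain ⟨L, h1, h2⟩ := h'
  obtain ⟨L₂, k1, k2⟩ := h
  have a1 : (L₀.sum L₂).Le b (L₀.sum (L₂.sum L)) := (le_sum_left b L₂ L).sum L₀
  have a2 : (L₀.sum L).Le b (L₀.sum (L₂.sum L)) := (le_sum_right b L₂ L).sum L₀
  refine ⟨L₂.sum L, ?_, fun _ hL => ⟨k2 _ (a1.trans hL), h2 _ (a2.trans hL)⟩⟩
  rintro (i | i)
  exacts [(k1 i).le a1, (h1 i).le a2]

theorem all {κ : Type*} [Finite κ] {p : κ → Sy ι X → Prop} (h : ∀ i, Ev b L₀ (p i)) :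
    Ev b L₀ fun L => ∀ i, p i L := by
  classical
  have := Fintype.ofFinite κ
  have : ∀ t : Finset κ, Ev b L₀ fun L => ∀ i ∈ t, p i L := fun t => by
    induction t using Finset.induction_on with
    | empty => exact of fun _ _ => by simp
    | insert a t _ ih => exact ((h a).and ih).mono fun _ _ h => by simpa using h
  exact (this Finset.univ).mono fun _ _ h i => h i (Finset.mem_univ i)

end Ev

section PF
variable {A : ∀ n, ι → X n → V n →L[ℝ] V n} {B : ∀ n, ι → X n → W n →L[ℝ] W n}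
  {D : ∀ n, ι → X n → U n →L[ℝ] U n} {σ σ' τ : ℕ → ℕ → ℕ × ℕ} {s s' : ∀ n, X n → V n}
  {t : ∀ n, X n → W n} {u : ∀ n, X n → U n}

variable (b) in
/-- the class `σ dw` over the system `L`, for both weights -/
def WW (L : Sy ι X) (σ : ℕ → ℕ → ℕ × ℕ) (A : ∀ n, ι → X n → V n →L[ℝ] V n) (s : ∀ n, X n → V n) :
    Prop := ∀ dw, 3 ≤ dw → dw ≤ 4 → Wt (b.cx L dw) A (σ dw) s

theorem pf_iff : PF b L₀ σ A s ↔ Ev b L₀ fun L => WW b L σ A s :=
  ⟨fun ⟨L, h1, h2⟩ => ⟨L, h1, fun _ hL dw a c => (h2 dw a c).le hL⟩,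
    fun ⟨L, h1, h2⟩ => ⟨L, h1, h2 _ Sy.Le.rfl⟩⟩

theorem Fb.CB.pf (h : b.CB A s) : PF b L₀ σ A s := pf_iff.2 (.of fun L _ dw _ _ => h.wt L dw _)

namespace PF

theorem ev (h : PF b L₀ σ A s) : Ev b L₀ fun L => WW b L σ A s := pf_iff.1 h

theorem one (h : PF b L₀ σ A s) (e : ∀ L dw, L₀.Le b L → 3 ≤ dw → dw ≤ 4 →
    Wt (b.cx L dw) A (σ dw) s → Wt (b.cx L dw) B (τ dw) t) : PF b L₀ τ B t :=
  pf_iff.2 (h.ev.mono fun L hL h dw a c => e L dw hL a c (h dw a c))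

theorem two (h : PF b L₀ σ A s) (h' : PF b L₀ σ' B t) (e : ∀ L dw, L₀.Le b L → 3 ≤ dw → dw ≤ 4 →
    Wt (b.cx L dw) A (σ dw) s → Wt (b.cx L dw) B (σ' dw) t → Wt (b.cx L dw) D (τ dw) u) :
    PF b L₀ τ D u :=
  pf_iff.2 ((h.ev.and h'.ev).mono fun L hL h dw a c => e L dw hL a c (h.1 dw a c) (h.2 dw a c))

theorem sA (h : PF b L₀ σ A s) (n : α) (a : ι) : Sm I (A n a) :=
  let ⟨_, _, h⟩ := h; (h 3 le_rfl (by omega)).sA n a

theorem sm (h : PF b L₀ σ A s) (n : α) : Sm I (s n) :=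
  let ⟨_, _, h⟩ := h; (h 3 le_rfl (by omega)).sm n

theorem mono (h : PF b L₀ σ A s) (e : ∀ dw, 3 ≤ dw → dw ≤ 4 → ∀ k, σ dw k ≤ τ dw k) :
    PF b L₀ τ A s := h.one fun _ dw _ a c h => h.mono (e dw a c)

theorem congr (h : PF b L₀ σ A s) (e : ∀ n x, s' n x = s n x) : PF b L₀ σ A s' :=
  h.one fun _ _ _ _ _ h => h.congr e

theorem zero (sA : ∀ n a, Sm I (A n a)) : PF b L₀ σ A fun _ _ => 0 :=
  Fb.CB.pf (Wt.zero sA)

theorem add (h : PF b L₀ σ A s) (h' : PF b L₀ σ A s') : PF b L₀ σ A fun n x => s n x + s' n x :=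
  h.two h' fun _ _ _ _ _ => Wt.add

theorem sub (h : PF b L₀ σ A s) (h' : PF b L₀ σ A s') : PF b L₀ σ A fun n x => s n x - s' n x :=
  h.two h' fun _ _ _ _ _ => Wt.sub

theorem neg (h : PF b L₀ σ A s) : PF b L₀ σ A fun n x => -s n x := h.one fun _ _ _ _ _ => Wt.neg

theorem sum {κ : Type} [Fintype κ] (sA : ∀ n a, Sm I (A n a)) {w : κ → ∀ n, X n → V n}
    (h : ∀ i, PF b L₀ σ A (w i)) : PF b L₀ σ A fun n x => ∑ i, w i n x :=
  pf_iff.2 ((Ev.all fun i => (h i).ev).mono fun _ _ h dw a c => Wt.sum sA fun i => h i dw a c)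

theorem fsum {κ : Type*} (sA : ∀ n a, Sm I (A n a)) (T : Finset κ) {w : κ → ∀ n, X n → V n}
    (h : ∀ i ∈ T, PF b L₀ σ A (w i)) : PF b L₀ σ A fun n x => ∑ i ∈ T, w i n x :=
  pf_iff.2 ((Ev.all fun i : T => (h i i.2).ev).mono fun _ _ h dw a c =>
    Wt.fsum sA T fun i hi => h ⟨i, hi⟩ dw a c)

/-- multiplication by a bounded function -/
theorem cs {φ : ∀ n, X n → ℝ} (hφ : b.CS φ) (h : PF b L₀ σ A s) (hσ : ∀ dw, Monotone (σ dw)) :
    PF b L₀ σ A fun n x => φ n x • s n x :=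
  h.one fun L dw _ _ _ h => (hφ.wt L dw 0).smul h (cn0 (hσ dw))

/-- applying a bounded family of maps -/
theorem cb {T : ∀ n, X n → V n →L[ℝ] W n} (sB : ∀ n a, Sm I (B n a))
    (hT : b.CB (fun n => hom (A n) (B n)) T) (h : PF b L₀ σ A s) (hσ : ∀ dw, Monotone (σ dw)) :
    PF b L₀ σ B fun n x => T n x (s n x) :=
  h.one fun L dw _ _ _ h => (hT.wt L dw 0).app sB h (cn0 (hσ dw))

theorem smul {φ : ∀ n, X n → ℝ} (hφ : PF b L₀ sP (tv X ι fun _ => ℝ) φ) (h : PF b L₀ sP A s) :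
    PF b L₀ sP A fun n x => φ n x • s n x := hφ.two h fun _ _ _ _ _ h h' => h.smul h' cn_P

theorem app {T : ∀ n, X n → V n →L[ℝ] W n} (sB : ∀ n a, Sm I (B n a))
    (hT : PF b L₀ sP (fun n => hom (A n) (B n)) T) (h : PF b L₀ sP A s) :
    PF b L₀ sP B fun n x => T n x (s n x) := hT.two h fun _ _ _ _ _ h h' => h.app sB h' cn_P

theorem bil {β : ∀ n, V n →L[ℝ] W n →L[ℝ] U n} (sD : ∀ n a, Sm I (D n a)) {K : ℝ}
    (h0 : ∀ n, ‖β n‖ ≤ K)
    (hβ : ∀ n a x s t, D n a x (β n s t) = β n (A n a x s) t + β n s (B n a x t))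
    (h : PF b L₀ sP A s) (h' : PF b L₀ sP B t) : PF b L₀ sP D fun n x => β n (s n x) (t n x) :=
  h.two h' fun _ _ _ _ _ h h' => Wt.bil sD h0 hβ h h' cn_P

theorem nem {f : ∀ n, X n → ℝ} (hf : PF b L₀ sP (tv X ι fun _ => ℝ) f) {T : Set ℝ}
    (hT : IsClosed T) (hfT : ∀ n x, f n x ∈ T) {φ : ℝ → ℝ} (hφ : ∀ s ∈ T, ContDiffAt ℝ ∞ φ s)
    (h : PF b L₀ sP A s) : PF b L₀ sP A fun n x => φ (f n x) • s n x :=
  hf.two h fun _ _ _ _ _ h h' => h.nem hT hfT hφ h'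

theorem pL (h : PF b L₀ sP A s) : PF b L₀ sL A s := h.mono fun _ _ _ => sP_sL

theorem uL (h : PF b L₀ (fun _ => sU 4) A s) : PF b L₀ sL A s :=
  h.mono fun _ _ _ => sU_sL (by omega)

theorem wP (h : PF b L₀ sW A s) : PF b L₀ sP A s := h.mono fun _ _ _ => sW_sP (by omega)

/-- sections of the class `sP` are bounded -/
theorem bd (h : PF b L₀ sP A s) : b.Bd s := by
  obtain ⟨L, -, h⟩ := h
  obtain ⟨K, -, hK⟩ := (h 3 le_rfl (by omega)).bd [] 0 1 (by simp [sP])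
  refine ⟨K, hK.mono fun q hq => ?_⟩
  set S := ∑ i, ‖((L₀.sum L).f i).s q.1 q.2‖ ^ 2
  have h0 : 0 ≤ S := Finset.sum_nonneg fun _ _ => sq_nonneg _
  have h1 : 1 ≤ 1 + S := by linarith
  have := hq (1 + S) h1 (Real.sqrt_le_one.2 ?_)
  · simpa [sP, bt, Dw] using this
  refine (Finset.sum_le_sum (g := fun i => (1 + S)⁻¹ * ‖((L₀.sum L).f i).s q.1 q.2‖ ^ 2)
    fun i _ => mul_le_mul_of_nonneg_right (inv_anti₀ (by linarith) ?_) (sq_nonneg _)).trans ?_
  · rw [← pow_mul]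
    exact le_self_pow₀ h1 (by unfold Fld.d; split <;> omega)
  · rw [← Finset.mul_sum, inv_mul_le_iff₀ (by linarith)]; linarith

end PF
end PF

section res
variable {V : α → Type} [∀ n, NormedAddCommGroup (V n)] [∀ n, InnerProductSpace ℝ (V n)]
  {A : ∀ n, ι → X n → V n →L[ℝ] V n} {s u : ∀ n, X n → V n} {g : ∀ n, ι → X n → ℝ} {dw : ℕ}

variable (b) in
/-- the derivatives of a bounded section as a system -/
def syD (A : ∀ n, ι → X n → V n →L[ℝ] V n) (u : ∀ n, X n → V n) : Sy ι X :=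
  ⟨ι, fun a => ⟨V, A, fun n => nab I (b.e n) (A n) a (u n), true⟩⟩

/-- one field of weight four -/
def sy1 (A : ∀ n, ι → X n → V n →L[ℝ] V n) (u : ∀ n, X n → V n) : Sy ι X :=
  ⟨Unit, fun _ => ⟨V, A, u, false⟩⟩

theorem Crv.D {C : Ctx I ι X} (h : Crv b C A u) (a : ι) :
    Crv b C A fun n => nab I (b.e n) (A n) a (u n) :=
  fun a' a'' => let ⟨R, h1, h2⟩ := h a' a''; ⟨R, h1, fun n v => h2 n (a :: v)⟩

theorem wt_sW (sA : ∀ n a, Sm I (A n a)) (sm : ∀ n, Sm I (u n)) (bd : b.Bd u)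
    (h : ∀ a, Wt (b.cx L dw) A (sU dw) fun n => nab I (b.e n) (A n) a (u n)) :
    Wt (b.cx L dw) A (sW dw) u := Wt.of_D sA sm (B0.bdd bd.choose_spec) h

theorem L0_eq (n : α) (x : X n) : L0 I (b.e n) (A n) (u n) x =
    -lap I (b.e n) (g n) (A n) (u n) x - ∑ a, g n a x • nab I (b.e n) (A n) a (u n) x := by
  simp only [L0, lap, neg_neg, Finset.sum_add_distrib, add_sub_cancel_right]

/-- the derivative of a bounded section is a consistent field -/
theorem ok_nab (hc : ∀ a a' k, b.CS fun n => b.c n a a' k) (hg : ∀ a, b.CS fun n => g n a)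
    (sA : ∀ n a, Sm I (A n a)) (sk : ∀ n a x v w, ⟪A n a x v, w⟫_ℝ = -⟪v, A n a x w⟫_ℝ)
    (sm : ∀ n, Sm I (u n)) (bd : b.Bd u) (cr : ∀ dw, 3 ≤ dw → dw ≤ 4 → Crv b (b.cx L dw) A u)
    (hD : ∀ dw a, Wt (b.cx L dw) A (sU dw) fun n => nab I (b.e n) (A n) a (u n))
    (hl : WW b L sL A fun n => lap I (b.e n) (g n) (A n) (u n)) (a : ι) :
    ((syD b A u).f a).OK b L := by
  refine ⟨sA, (hD 3 a).sm, sk, fun dw h3 h4 => (cr dw h3 h4).D a, fun dw h3 h4 =>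
    ⟨fun k => (sL dw (k + 1)).2, ?_, ?_, ?_⟩, .inr ⟨rfl, u, a, sm, bd, fun _ => rfl⟩⟩
  · simp only [sL, Fld.d, syD, if_true]; omega
  · rintro rfl; simp [sL, Fld.d, syD]
  choose R hR eR using cr dw h3 h4
  have hu := wt_sW sA sm bd (hD dw)
  have cw := fun a a' k => (hc a a' k).wt L dw 0
  have h0 : Wt (b.cx L dw) A (sL dw) fun n => L0 I (b.e n) (A n) (u n) :=
    ((hl dw h3 h4).neg.sub (Wt.sum sA fun a => (((hg a).wt L dw 0).smul (hD dw a)
      (cn0 (sU_mono _))).mono (sU_sL (by omega)))).congr L0_eq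
  have := (h0.D a).add (Wt.sum (σ := fun k => sL dw (k + 1)) sA fun a' =>
    (((hR a' a).app sA (hD dw a') ?_).add
      (Wt.sum sA fun k => (cw a' a k).smul ((hD dw a').D k) ?_)).add
      ((((hR a' a).app sA hu (cn_UW (by omega))).add (Wt.sum sA fun k =>
        ((cw a' a k).smul (hD dw k) (cn0 (sU_mono _))).mono (sU_sL (by omega)))).D a'))
  · refine this.congr fun n x => (L0_nab (sA n) (b.frm n) (sm n) a x).trans ?_
    have e0 := fun a' x => eR a' a n [] x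
    have e1 := fun a' => eR a' a n [a'] x
    simp only [Dw] at e0 e1
    simp only [show (b.cx L dw).e = b.e from rfl, e0, e1]
  all_goals
    intro i j
    refine ⟨?_, le_max_of_le_left ?_⟩ <;>
      simp only [sU, sL, Prod.fst_add, Prod.snd_add, Pi.zero_apply, Prod.fst_zero, Prod.snd_zero] <;>
      omega

/-- **bounded solutions of the resolvent equation** -/
theorem PF.res (hc : ∀ a a' k, b.CS fun n => b.c n a a' k) (hg : ∀ a, b.CS fun n => g n a)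
    (sk : ∀ n a x v w, ⟪A n a x v, w⟫_ℝ = -⟪v, A n a x w⟫_ℝ) (sm : ∀ n, Sm I (u n)) (bd : b.Bd u)
    (cr : ∀ dw, 3 ≤ dw → dw ≤ 4 → Crv b (b.cx L₀ dw) A u)
    (e : ∀ n x, u n x + lap I (b.e n) (g n) (A n) (u n) x = s n x) (hs : PF b L₀ sL A s) :
    PF b L₀ sW A u := by
  have sA := hs.sA
  have hD : ∀ L, (syD b A u).Le b L → ∀ dw a,
      Wt (b.cx L dw) A (sU dw) fun n => nab I (b.e n) (A n) a (u n) := fun L hL dw a =>
    (wt_fld (L := syD b A u) a sA fun n => sm_nab (b.frm n).se (sA n) (sm n) a).le hL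
  refine pf_iff.2 ((hs.ev.new (L₁ := syD b A u) fun L h0 h h1 => ok_nab hc hg sA sk sm bd
    (fun dw a c => (cr dw a c).le h0) (hD L h1) fun dw a c => ?_).mono
    fun L _ h dw _ _ => wt_sW sA sm bd (hD L h.2 dw))
  exact ((h dw a c).sub ((wt_sW sA sm bd (hD L h1 dw)).mono fun k =>
    (sW_sP (by omega) k).trans (sP_sL k))).congr fun n x => eq_sub_of_add_eq' (e n x)

/-- **`L⁴` solutions of the resolvent equation** -/
theorem PF.res4 (hg : ∀ a, b.CS fun n => g n a)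
    (sk : ∀ n a x v w, ⟪A n a x v, w⟫_ℝ = -⟪v, A n a x w⟫_ℝ) (sm : ∀ n, Sm I (u n)) (l4 : b.L4 u)
    (cr : ∀ dw, 3 ≤ dw → dw ≤ 4 → Crv b (b.cx L₀ dw) A u)
    (e : ∀ n x, u n x + lap I (b.e n) (g n) (A n) (u n) x = s n x)
    (hs : PF b L₀ (fun _ => sU 4) A s) : PF b L₀ (fun _ => sU 4) A u := by
  have sA := hs.sA
  have hU : ∀ L, (sy1 A u).Le b L → ∀ dw, Wt (b.cx L dw) A (sU 4) u := fun L hL dw =>
    (wt_fld (L := sy1 A u) () sA sm).le hL
  refine pf_iff.2 ((hs.ev.new (L₁ := sy1 A u) fun L h0 h h1 _ => ⟨sA, sm, sk,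
    fun dw a c => (cr dw a c).le h0, fun dw a c => ⟨fun k => (sU 4 (k + 1)).2, by simp [sU, Fld.d, sy1],
      fun _ => by simp [sU, Fld.d, sy1], ?_⟩, .inl ⟨rfl, .inr l4⟩⟩).mono fun L _ h dw _ _ => hU L h.2 dw)
  have hm := fun k => sU_mono 4 (Nat.le_succ k)
  refine ((((h dw a c).sub (hU L h1 dw)).mono hm).neg.sub (Wt.sum sA fun a' =>
    ((hg a').wt L dw 0).smul ((hU L h1 dw).D a') (cn0 fun _ _ h => sU_mono 4 (by omega)))).congr
    fun n x => (L0_eq (g := g) n x).trans ?_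
  rw [← e n x, add_sub_cancel_left]; rfl

end res

end Crest.Agent.X212.Cmp73
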