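import Crest.Agent.X212.Cmp73.Wt
import Crest.Agent.X212.Mp86.Lop

/-!
# X212 / COMP (helper73), part 5: fields, jet sizes, consistent systems (definitions)
-/

set_option autoImplicit false
set_option linter.unusedSectionVars false
open Set Filter Topology Function MeasureTheory
open scoped ContDiff Manifold InnerProductSpace NNReal

noncomputable section
namespace Crest.Agent.X212.Cmp73

open An (Sm)
open Wz78 (nab curv SA Frm)
open Sob92 (dv)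

variable {E : Type} [NormedAddCommGroup E] [NormedSpace ℝ E] {HM : Type} [TopologicalSpace HM]
  {I : ModelWithCorners ℝ E HM} {ι : Type} [Fintype ι]

section one
variable {N : Type} [TopologicalSpace N] [ChartedSpace HM N] [IsManifold I ∞ N]
  {V : Type} [NormedAddCommGroup V] [NormedSpace ℝ V]

variable (I) in
/-- `∑_{|v| ≤ r} μ^(-4|v|) ‖D^v s‖²` -/
def hs (e : ι → (x : N) → TangentSpace I x) (A : ι → N → V →L[ℝ] V) (μ : ℝ) :
    ℕ → (N → V) → N → ℝ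
  | 0, s => fun x => ‖s x‖ ^ 2
  | r + 1, s => fun x => ‖s x‖ ^ 2 + (μ ^ 4)⁻¹ * ∑ a, hs e A μ r (nab I e A a s) x

variable {e : ι → (x : N) → TangentSpace I x} {A : ι → N → V →L[ℝ] V} {μ : ℝ}

theorem hs_nonneg : ∀ (r : ℕ) (s : N → V) (x : N), 0 ≤ hs I e A μ r s x
  | 0, _, _ => sq_nonneg _
  | r + 1, _, x => add_nonneg (sq_nonneg _)
    (mul_nonneg (by positivity) (Finset.sum_nonneg fun _ _ => hs_nonneg r _ x))

theorem hs_mono : ∀ (r : ℕ) (s : N → V) (x : N), hs I e A μ r s x ≤ hs I e A μ (r + 1) s x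
  | 0, _, x => le_add_of_nonneg_right
    (mul_nonneg (by positivity) (Finset.sum_nonneg fun _ _ => hs_nonneg 0 _ x))
  | r + 1, _, x => add_le_add_right
    (mul_le_mul_of_nonneg_left (Finset.sum_le_sum fun _ _ => hs_mono r _ x) (by positivity)) _

theorem Dw_le_hs (hμ : 0 < μ) : ∀ (v : List ι) (s : N → V) (x : N),
    ‖Dw I e A v s x‖ ^ 2 ≤ (μ ^ (2 * v.length)) ^ 2 * hs I e A μ v.length s x
  | [], _, _ => by simp [Dw, hs]
  | a :: v, s, x => by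
    refine (Dw_le_hs hμ v _ x).trans ?_
    have h1 : hs I e A μ v.length (nab I e A a s) x ≤ ∑ a, hs I e A μ v.length (nab I e A a s) x :=
      Finset.single_le_sum (f := fun a => hs I e A μ v.length (nab I e A a s) x)
        (fun _ _ => hs_nonneg _ _ _) (Finset.mem_univ a)
    have h2 : (μ ^ (2 * (v.length + 1))) ^ 2 * (μ ^ 4)⁻¹ = (μ ^ (2 * v.length)) ^ 2 := by
      field_simp; ring
    rw [List.length_cons, hs, mul_add, ← mul_assoc, h2]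
    exact le_add_of_nonneg_of_le (by positivity) (mul_le_mul_of_nonneg_left h1 (by positivity))

end one

variable {α : Type} {X : α → Type} [∀ n, TopologicalSpace (X n)] [∀ n, ChartedSpace HM (X n)]
  [∀ n, IsManifold I ∞ (X n)]

variable (ι X) in
/-- a family of sections of Hilbert bundles; `t` : derivative of a bounded section -/
structure Fld : Type 1 where
  V : α → Type
  [ng : ∀ n, NormedAddCommGroup (V n)]
  [ip : ∀ n, InnerProductSpace ℝ (V n)]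
  A : ∀ n, ι → X n → V n →L[ℝ] V n
  s : ∀ n, X n → V n
  t : Bool

instance (f : Fld ι X) (n : α) : NormedAddCommGroup (f.V n) := f.ng n
instance (f : Fld ι X) (n : α) : InnerProductSpace ℝ (f.V n) := f.ip n

/-- the weight of a field (a derivative has weight two) -/
def Fld.d (f : Fld ι X) (dw : ℕ) : ℕ := if f.t then dw else 4

variable (ι X) in
/-- finitely many fields -/
structure Sy : Type 1 where
  κ : Type
  [fin : Fintype κ]
  f : κ → Fld ι X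

instance (L : Sy ι X) : Fintype L.κ := L.fin

/-- union of systems -/
def Sy.sum (L L' : Sy ι X) : Sy ι X := ⟨L.κ ⊕ L'.κ, Sum.elim L.f L'.f⟩

/-- the empty system -/
def Sy.nil : Sy ι X := ⟨Empty, Empty.elim⟩

variable (I ι X) in
/-- the geometric background of a family: filter, frames, measures, energy densities -/
structure Fb [∀ n, MeasurableSpace (X n)] where
  F : Filter (Σ n, X n)
  e : ∀ n, ι → (x : X n) → TangentSpace I x
  P : ∀ n, ι → ι → X n → ℝ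
  c : ∀ n, ι → ι → ι → X n → ℝ
  frm : ∀ n, Frm I (e n) (P n) (c n)
  μ : ∀ n, Measure (X n)
  en : ∀ n, X n → ℝ

variable [∀ n, MeasurableSpace (X n)]
  {V W : α → Type} [∀ n, NormedAddCommGroup (V n)] [∀ n, NormedSpace ℝ (V n)]
  [∀ n, NormedAddCommGroup (W n)] [∀ n, NormedSpace ℝ (W n)]

namespace Fb
variable (b : Fb I ι X)

/-- the same background with another filter -/
def wf (F : Filter (Σ n, X n)) : Fb I ι X := { b with F := F }

/-- squared size of the `r`-jet of a system at the scale `μ` -/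
def H (L : Sy ι X) (dw : ℕ) (μ : ℝ) (r : ℕ) (n : α) (x : X n) : ℝ :=
  ∑ i, ((μ ^ (L.f i).d dw) ^ 2)⁻¹ * hs I (b.e n) ((L.f i).A n) μ r ((L.f i).s n) x

theorem H_nonneg (L : Sy ι X) (dw : ℕ) (μ : ℝ) (r : ℕ) (n : α) (x : X n) : 0 ≤ b.H L dw μ r n x :=
  Finset.sum_nonneg fun _ _ => mul_nonneg (by positivity) (hs_nonneg _ _ _)

theorem H_mono (L : Sy ι X) (dw : ℕ) (μ : ℝ) (r : ℕ) (n : α) (x : X n) :
    b.H L dw μ r n x ≤ b.H L dw μ (r + 1) n x :=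
  Finset.sum_le_sum fun _ _ => mul_le_mul_of_nonneg_left (hs_mono _ _ _) (by positivity)

theorem H_sum (L L' : Sy ι X) (dw : ℕ) (μ : ℝ) (r : ℕ) (n : α) (x : X n) :
    b.H (L.sum L') dw μ r n x = b.H L dw μ r n x + b.H L' dw μ r n x := Fintype.sum_sum_type _

/-- the context of a system -/
def cx (L : Sy ι X) (dw : ℕ) : Ctx I ι X where
  F := b.F
  J r q μ := √(b.H L dw μ r q.1 q.2)
  nn _ _ _ := Real.sqrt_nonneg _
  mono _ _ _ := Real.sqrt_le_sqrt (b.H_mono ..)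
  e := b.e
  sm n := (b.frm n).se

/-- the context without fields -/
def c0 : Ctx I ι X where
  F := b.F
  J _ _ _ := 0
  nn _ _ _ := le_rfl
  mono _ _ _ := le_rfl
  e := b.e
  sm n := (b.frm n).se

/-- all covariant derivatives are bounded along the filter -/
abbrev CB (A : ∀ n, ι → X n → V n →L[ℝ] V n) (f : ∀ n, X n → V n) : Prop := Wt b.c0 A 0 f

/-- scalar families with bounded derivatives -/
abbrev CS (f : ∀ n, X n → ℝ) : Prop := b.CB (tv X ι fun _ => ℝ) f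

/-- bounded in `L⁴` along the filter -/
def L4 (s : ∀ n, X n → V n) : Prop := ∃ C : ℝ≥0, ∃ D ∈ b.F, ∀ n,
  ∫⁻ x in Sigma.mk n ⁻¹' D, ‖s n x‖ₑ ^ 4 ∂b.μ n ≤ C

/-- bounded along the filter -/
def Bd (s : ∀ n, X n → V n) : Prop := ∃ C, ∀ᶠ q in b.F, ‖s q.1 q.2‖ ≤ C

end Fb

/-- jets of a field of weight `d` -/
def sU (d : ℕ) (k : ℕ) : ℕ × ℕ := (k, d + 2 * k)

/-- jets of a bounded section whose derivatives are fields -/
def sW (dw : ℕ) : ℕ → ℕ × ℕ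
  | 0 => 0
  | k + 1 => (k, dw + 2 * k)

/-- jets of functions of bounded sections -/
def sP (dw : ℕ) (k : ℕ) : ℕ × ℕ := (k - 1, dw * k)

/-- on the jets of `s` the curvature of `A` is given by an operator of weight four -/
def Crv (b : Fb I ι X) (C : Ctx I ι X) (A : ∀ n, ι → X n → V n →L[ℝ] V n) (s : ∀ n, X n → V n) :
    Prop := ∀ a a', ∃ R : ∀ n, X n → V n →L[ℝ] V n, Wt C (fun n => hom (A n) (A n)) (sU 4) R ∧
      ∀ n v x, curv I (b.e n) (b.c n) (A n) a a' x (Dw I (b.e n) (A n) v (s n) x) =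
        R n x (Dw I (b.e n) (A n) v (s n) x)

/-- a field that is consistent with the jet sizes of the system `L` -/
structure Fld.OK (b : Fb I ι X) (L : Sy ι X) (f : Fld ι X) : Prop where
  sA : ∀ n a, Sm I (f.A n a)
  sm : ∀ n, Sm I (f.s n)
  sk : ∀ n a x v w, ⟪f.A n a x v, w⟫_ℝ = -⟪v, f.A n a x w⟫_ℝ
  crv : ∀ dw, 3 ≤ dw → dw ≤ 4 → Crv b (b.cx L dw) f.A f.s
  lap : ∀ dw, 3 ≤ dw → dw ≤ 4 → ∃ ϖ : ℕ → ℕ, ϖ 0 ≤ f.d dw + 4 ∧ (dw = 3 → ϖ 1 ≤ f.d dw + 6) ∧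
    Wt (b.cx L dw) f.A (fun k => (k + 1, ϖ k)) fun n => L0 I (b.e n) (f.A n) (f.s n)
  kind : (f.t = false ∧ ((∀ n x, ‖f.s n x‖ ^ 2 ≤ b.en n x) ∨ b.L4 f.s)) ∨
    (f.t = true ∧ ∃ (w : ∀ n, X n → f.V n) (a : ι), (∀ n, Sm I (w n)) ∧ b.Bd w ∧
      ∀ n, f.s n = nab I (b.e n) (f.A n) a (w n))

/-- `s` is dominated by the energy density up to terms of weight three -/
def Eb (b : Fb I ι X) (L : Sy ι X) (s : ∀ n, X n → V n) : Prop :=
  ∀ R, ∃ C, 0 < C ∧ ∀ᶠ q in b.F, ∀ μ, 1 ≤ μ → b.H L 3 μ 0 q.1 q.2 ≤ R →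
    ‖s q.1 q.2‖ ^ 2 ≤ C * (b.en q.1 q.2 + μ ^ 6)

/-- a field that is consistent for the weight three -/
structure Fld.O3 (b : Fb I ι X) (L : Sy ι X) (f : Fld ι X) : Prop where
  sA : ∀ n a, Sm I (f.A n a)
  sm : ∀ n, Sm I (f.s n)
  sk : ∀ n a x v w, ⟪f.A n a x v, w⟫_ℝ = -⟪v, f.A n a x w⟫_ℝ
  crv : Crv b (b.cx L 3) f.A f.s
  lap : ∃ ϖ : ℕ → ℕ, ϖ 0 ≤ f.d 3 + 4 ∧ ϖ 1 ≤ f.d 3 + 6 ∧
    Wt (b.cx L 3) f.A (fun k => (k + 1, ϖ k)) fun n => L0 I (b.e n) (f.A n) (f.s n)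
  kind : (f.t = false ∧ (Eb b L f.s ∨ b.L4 f.s)) ∨
    (f.t = true ∧ ∃ (w : ∀ n, X n → f.V n) (a : ι), (∀ n, Sm I (w n)) ∧ b.Bd w ∧
      ∀ n, f.s n = nab I (b.e n) (f.A n) a (w n))

theorem Fld.OK.o3 {b : Fb I ι X} {L : Sy ι X} {f : Fld ι X} (h : f.OK b L) : f.O3 b L :=
  ⟨h.sA, h.sm, h.sk, h.crv 3 le_rfl (by omega),
    let ⟨ϖ, a1, a2, a3⟩ := h.lap 3 le_rfl (by omega); ⟨ϖ, a1, a2 rfl, a3⟩,
    h.kind.imp_left (And.imp_right (Or.imp_left fun k _ => ⟨1, one_pos, .of_forall fun q μ _ _ => by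
      rw [one_mul]; exact (k _ _).trans (le_add_of_nonneg_right (by positivity))⟩))⟩

/-- consistent systems -/
structure Cons (b : Fb I ι X) (L : Sy ι X) : Prop where
  c : ∀ a a' k, b.CS fun n => b.c n a a' k
  ok : ∀ i, (L.f i).O3 b L

/-- `s` is controlled by the base system `L₀` and finitely many auxiliary fields -/
def PF (b : Fb I ι X) (L₀ : Sy ι X) (σ : ℕ → ℕ → ℕ × ℕ) (A : ∀ n, ι → X n → V n →L[ℝ] V n)
    (s : ∀ n, X n → V n) : Prop :=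
  ∃ L : Sy ι X, (∀ i, (L.f i).OK b (L₀.sum L)) ∧
    ∀ dw, 3 ≤ dw → dw ≤ 4 → Wt (b.cx (L₀.sum L) dw) A (σ dw) s

section basic
variable {b : Fb I ι X} {L L' : Sy ι X} {dw : ℕ} {A : ∀ n, ι → X n → V n →L[ℝ] V n}
  {f : ∀ n, X n → V n} {σ : ℕ → ℕ × ℕ}

theorem Fb.CB.wt (h : b.CB A f) (L : Sy ι X) (dw : ℕ) (σ : ℕ → ℕ × ℕ) : Wt (b.cx L dw) A σ f :=
  (h.up (C' := b.cx L dw) rfl le_rfl fun _ _ _ => Real.sqrt_nonneg _).mono fun _ => zero_le

theorem Fb.cb_iff : b.CB A f ↔ (∀ n a, Sm I (A n a)) ∧ (∀ n, Sm I (f n)) ∧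
    ∀ v, ∃ K, ∀ᶠ q in b.F, ‖Dw I (b.e q.1) (A q.1) v (f q.1) q.2‖ ≤ K :=
  ⟨fun h => ⟨h.sA, h.sm, fun v => (h.bd v).bound (R := 0) (.of_forall fun _ => le_rfl)⟩,
    fun h => ⟨h.1, h.2.1, fun v => let ⟨_, hK⟩ := h.2.2 v; B0.bdd hK⟩⟩

/-- bounded jets make the whole class bounded -/
theorem Wt.cb (h : Wt (b.cx L dw) A σ f) (hJ : ∀ r, ∃ R, ∀ᶠ q in b.F, b.H L dw 1 r q.1 q.2 ≤ R) :
    b.CB A f := Fb.cb_iff.2 ⟨h.sA, h.sm, fun v =>
  let ⟨_, hR⟩ := hJ (σ v.length).1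
  (h.bd v).bound (hR.mono fun _ hq => Real.sqrt_le_sqrt hq)⟩

/-- `L` has smaller jets than `L'` -/
def Sy.Le (b : Fb I ι X) (L L' : Sy ι X) : Prop :=
  ∀ dw μ r n x, b.H L dw μ r n x ≤ b.H L' dw μ r n x

theorem Wt.le (h : Wt (b.cx L dw) A σ f) (hL : L.Le b L') : Wt (b.cx L' dw) A σ f :=
  h.up rfl le_rfl fun _ _ _ => Real.sqrt_le_sqrt (hL ..)

theorem Crv.le (h : Crv b (b.cx L dw) A f) (hL : L.Le b L') : Crv b (b.cx L' dw) A f :=
  fun a a' => let ⟨R, h1, h2⟩ := h a a'; ⟨R, h1.le hL, h2⟩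

theorem Fld.OK.le {f : Fld ι X} (h : f.OK b L) (hL : L.Le b L') : f.OK b L' :=
  ⟨h.sA, h.sm, h.sk, fun dw h1 h2 => (h.crv dw h1 h2).le hL,
    fun dw h1 h2 => let ⟨ϖ, a1, a2, a3⟩ := h.lap dw h1 h2; ⟨ϖ, a1, a2, a3.le hL⟩, h.kind⟩

theorem le_sum_left (b : Fb I ι X) (L L' : Sy ι X) : L.Le b (L.sum L') := fun _ _ _ _ _ => by
  rw [Fb.H_sum]; exact le_add_of_nonneg_right (b.H_nonneg ..)

theorem le_sum_right (b : Fb I ι X) (L L' : Sy ι X) : L'.Le b (L.sum L') := fun _ _ _ _ _ => by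
  rw [Fb.H_sum]; exact le_add_of_nonneg_left (b.H_nonneg ..)

theorem Sy.Le.sum (h : L.Le b L') (L₀ : Sy ι X) : (L₀.sum L).Le b (L₀.sum L') :=
  fun _ _ _ _ _ => by rw [Fb.H_sum, Fb.H_sum]; exact add_le_add_right (h ..) _

/-- a field is in the class of its jets -/
theorem wt_fld (i : L.κ) (sA : ∀ n a, Sm I ((L.f i).A n a)) (sm : ∀ n, Sm I ((L.f i).s n)) :
    Wt (b.cx L dw) (L.f i).A (sU ((L.f i).d dw)) (L.f i).s := by
  refine ⟨sA, sm, fun v => B0.jet fun q μ hμ => ?_⟩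
  have h0 : 0 < μ := by linarith
  have h1 := Dw_le_hs (I := I) (e := b.e q.1) (A := (L.f i).A q.1) h0 v ((L.f i).s q.1) q.2
  have h2 : ((μ ^ (L.f i).d dw) ^ 2)⁻¹ * hs I (b.e q.1) ((L.f i).A q.1) μ v.length
      ((L.f i).s q.1) q.2 ≤ b.H L dw μ v.length q.1 q.2 :=
    Finset.single_le_sum (f := fun i => ((μ ^ (L.f i).d dw) ^ 2)⁻¹ *
      hs I (b.e q.1) ((L.f i).A q.1) μ v.length ((L.f i).s q.1) q.2)
      (fun _ _ => mul_nonneg (by positivity) (hs_nonneg _ _ _)) (Finset.mem_univ i)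
  rw [inv_mul_le_iff₀ (by positivity)] at h2
  refine abs_le_of_sq_le_sq' (a := ‖_‖) ?_ (by
    exact mul_nonneg (by positivity) (Real.sqrt_nonneg _)) |>.2
  change _ ≤ (μ ^ ((L.f i).d dw + 2 * v.length) * √(b.H L dw μ v.length q.1 q.2)) ^ 2
  rw [mul_pow, Real.sq_sqrt (b.H_nonneg ..), pow_add, mul_pow, mul_comm (_ ^ 2) (_ ^ 2), mul_assoc]
  exact h1.trans (mul_le_mul_of_nonneg_left h2 (by positivity))

end basic

end Crest.Agent.X212.Cmp73
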