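import Crest.Agent.X212.Wz78.Var
import Crest.Agent.X212.An.Defs

/-!
# X212 / COMP (helper73), part 4: the weight class

`Jt` : a filter with jet sizes `J r q μ`;  `B0 T (m, d) g` : `g ≤ K μ^d β (m - r)` if `J r ≤ R`;
`Wt C A σ f` : `‖D^v f‖` is in `B0 (σ |v|)` for the family of sections `f n` and connections `A n`.
-/

set_option autoImplicit false
set_option linter.unusedSectionVars false
open Set Filter Topology Function
open scoped ContDiff Manifold

noncomputable section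
namespace Crest.Agent.X212.Cmp73

open An (Sm)
open Wz78 (nab curv SA)
open Sob92 (dv)

/-- a filter with jet sizes depending on a scale `μ ≥ 1` -/
structure Jt (Q : Type) where
  F : Filter Q
  J : ℕ → Q → ℝ → ℝ
  nn : ∀ r q μ, 0 ≤ J r q μ
  mono : ∀ r q μ, J r q μ ≤ J (r + 1) q μ

/-- the admissible growth, `d` levels above `r` -/
def bt (J : ℕ → ℝ) (r : ℕ) : ℕ → ℝ
  | 0 => 1
  | 1 => 1 + J (r + 1)
  | _ => (1 + J (r + 1)) ^ 2 + J (r + 2)

section scal
variable {Q : Type} {J J' : ℕ → ℝ} {r : ℕ}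

theorem one_le_bt (h : ∀ r, 0 ≤ J r) (d : ℕ) : 1 ≤ bt J r d := by
  have := h (r + 1); have := h (r + 2)
  rcases d with _ | _ | d <;> simp only [bt] <;> nlinarith

theorem bt_mul (h : ∀ r, 0 ≤ J r) {a b c : ℕ} (hc : a + b ≤ c) (h2 : c ≤ 2) :
    bt J r a * bt J r b ≤ bt J r c := by
  have h1 := h (r + 1); have h3 := h (r + 2)
  have ha : a ≤ 2 := by omega
  have hb : b ≤ 2 := by omega
  interval_cases c <;> interval_cases a <;> interval_cases b <;> simp only [bt] <;>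
    first | omega | nlinarith

theorem bt_le (h : ∀ r, 0 ≤ J r) (h' : ∀ r, J r ≤ J' r) (d : ℕ) : bt J r d ≤ bt J' r d := by
  have := h (r + 1); have := h' (r + 1); have := h' (r + 2)
  rcases d with _ | _ | d <;> simp only [bt] <;> nlinarith

/-- the scalar class of level `s.1` and weight `s.2` -/
def B0 (T : Jt Q) (s : ℕ × ℕ) (g : Q → ℝ) : Prop :=
  ∀ (r : ℕ) (R : ℝ), s.1 ≤ r + 2 → ∃ K, 0 ≤ K ∧ ∀ᶠ q in T.F, ∀ μ, 1 ≤ μ → T.J r q μ ≤ R →
    g q ≤ K * μ ^ s.2 * bt (fun r => T.J r q μ) r (s.1 - r)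

namespace B0
variable {T T' : Jt Q} {s s' s'' : ℕ × ℕ} {g g' g'' : Q → ℝ}

theorem of_le (h : B0 T s g) (e : ∀ᶠ q in T.F, g' q ≤ g q) : B0 T s g' := fun r R hr =>
  let ⟨K, h0, hK⟩ := h r R hr
  ⟨K, h0, (hK.and e).mono fun _ hq μ h1 h2 => hq.2.trans (hq.1 μ h1 h2)⟩

theorem bdd {C : ℝ} (e : ∀ᶠ q in T.F, g q ≤ C) : B0 T s g := fun r R _ =>
  ⟨max C 0, le_max_right _ _, e.mono fun q hq μ h1 _ => by
    have a1 : 1 ≤ μ ^ s.2 := one_le_pow₀ h1
    have a2 := one_le_bt (r := r) (fun r => T.nn r q μ) (s.1 - r)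
    have a3 : 0 ≤ max C 0 := le_max_right _ _
    calc g q ≤ max C 0 * 1 * 1 := by simpa using Or.inl hq
      _ ≤ _ := by gcongr⟩

theorem mul (h : B0 T s g) (h' : B0 T s' g') (hs : s + s' ≤ s'') (g0 : ∀ q, 0 ≤ g' q)
    (e : ∀ q, g'' q ≤ g q * g' q) : B0 T s'' g'' := by
  intro r R hr
  have b1 : s.1 + s'.1 ≤ s''.1 := hs.1
  have b2 : s.2 + s'.2 ≤ s''.2 := hs.2
  obtain ⟨K, h0, hK⟩ := h r R (by omega)
  obtain ⟨K', h0', hK'⟩ := h' r R (by omega)
  refine ⟨K * K', by positivity, (hK.and hK').mono fun q hq μ h1 h2 => (e q).trans ?_⟩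
  have a1 := bt_mul (r := r) (fun r => T.nn r q μ) (a := s.1 - r) (b := s'.1 - r) (c := s''.1 - r)
    (by omega) (by omega)
  have a2 := one_le_bt (r := r) (fun r => T.nn r q μ) (s.1 - r)
  have a3 := one_le_bt (r := r) (fun r => T.nn r q μ) (s'.1 - r)
  have a4 : μ ^ s.2 * μ ^ s'.2 ≤ μ ^ s''.2 := by rw [← pow_add]; exact pow_le_pow_right₀ h1 b2
  have a5 : 0 ≤ μ := by linarith
  calc g q * g' q ≤ _ * _ := mul_le_mul (hq.1 μ h1 h2) (hq.2 μ h1 h2) (g0 q) (by positivity)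
    _ = K * K' * (μ ^ s.2 * μ ^ s'.2) * (bt (fun r => T.J r q μ) r (s.1 - r) *
        bt (fun r => T.J r q μ) r (s'.1 - r)) := by ring
    _ ≤ _ := by gcongr

theorem mono (h : B0 T s g) (hs : s ≤ s') : B0 T s' g :=
  h.mul (bdd (s := 0) (g := fun _ => 1) (C := 1) (by simp)) (by simpa using hs)
    (fun _ => zero_le_one) fun _ => by simp

theorem add (h : B0 T s g) (h' : B0 T s g') (e : ∀ q, g'' q ≤ g q + g' q) : B0 T s g'' := by
  intro r R hr
  obtain ⟨K, h0, hK⟩ := h r R hr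
  obtain ⟨K', h0', hK'⟩ := h' r R hr
  refine ⟨K + K', by positivity, (hK.and hK').mono fun q hq μ h1 h2 => (e q).trans ?_⟩
  have := hq.1 μ h1 h2; have := hq.2 μ h1 h2; linarith

/-- more fields, finer filter -/
theorem up (h : B0 T s g) (hF : T'.F ≤ T.F) (hJ : ∀ r q μ, T.J r q μ ≤ T'.J r q μ) : B0 T' s g := by
  intro r R hr
  obtain ⟨K, h0, hK⟩ := h r R hr
  refine ⟨K, h0, (hK.filter_mono hF).mono fun q hq μ h1 h2 => (hq μ h1 ((hJ _ _ _).trans h2)).trans ?_⟩
  have a5 : 0 ≤ μ := by linarith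
  have := bt_le (r := r) (fun r => T.nn r q μ) (fun r => hJ r q μ) (s.1 - r)
  gcongr

theorem jet (e : ∀ q μ, 1 ≤ μ → g q ≤ μ ^ s.2 * T.J s.1 q μ) : B0 T s g := by
  intro r R hr
  refine ⟨max R 1, by positivity, .of_forall fun q μ h1 h2 => (e q μ h1).trans ?_⟩
  have a5 : 0 ≤ μ ^ s.2 := by positivity
  have a1 : 1 ≤ max R 1 := le_max_right _ _
  have hm : Monotone fun r => T.J r q μ := monotone_nat_of_le_succ fun r => T.mono r q μ
  rw [mul_comm (max R 1), mul_assoc]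
  refine mul_le_mul_of_nonneg_left ?_ a5
  have n1 := T.nn (r + 1) q μ
  have n2 := T.nn (r + 2) q μ
  rcases (by omega : s.1 ≤ r ∨ s.1 = r + 1 ∨ s.1 = r + 2) with h | h | h
  · rw [Nat.sub_eq_zero_of_le h, bt, mul_one]
    exact (hm h).trans (h2.trans (le_max_left _ _))
  · rw [h, Nat.add_sub_cancel_left, bt]; nlinarith
  · rw [h, Nat.add_sub_cancel_left]; simp only [bt]; nlinarith

/-- bounded jets give a bound -/
theorem bound (h : B0 T s g) {R : ℝ} (e : ∀ᶠ q in T.F, T.J s.1 q 1 ≤ R) :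
    ∃ K, ∀ᶠ q in T.F, g q ≤ K := by
  obtain ⟨K, -, hK⟩ := h s.1 R (by omega)
  exact ⟨K, (hK.and e).mono fun q hq => by simpa [bt] using hq.1 1 le_rfl hq.2⟩

theorem post (h : B0 T 0 g)
    (hφ : ∀ C, ∃ K, ∀ q, g q ≤ C → g' q ≤ K) : B0 T 0 g' := by
  intro r R hr
  obtain ⟨K, h0, hK⟩ := h r R hr
  obtain ⟨K', hK'⟩ := hφ K
  refine ⟨max K' 0, le_max_right _ _, hK.mono fun q hq μ h1 h2 => ?_⟩
  have := hq μ h1 h2
  simp only [Prod.fst_zero, Prod.snd_zero, pow_zero, Nat.zero_sub, bt, mul_one] at this ⊢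
  exact (hK' q this).trans (le_max_left _ _)

end B0
end scal

variable {E : Type} [NormedAddCommGroup E] [NormedSpace ℝ E] {HM : Type} [TopologicalSpace HM]
  {I : ModelWithCorners ℝ E HM} {ι : Type} [Fintype ι]

section one
variable {N : Type} [TopologicalSpace N] [ChartedSpace HM N] [IsManifold I ∞ N]
  {V W : Type} [NormedAddCommGroup V] [NormedSpace ℝ V] [NormedAddCommGroup W] [NormedSpace ℝ W]

variable (I) in
/-- smooth families of vector fields -/
def SmV (e : ι → (x : N) → TangentSpace I x) : Prop :=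
  ∀ a x, ContMDiffAt I I.tangent ∞ (fun x => (⟨x, e a x⟩ : TangentBundle I N)) x

variable (I) in
/-- iterated covariant derivative; the head of the word is applied first -/
def Dw (e : ι → (x : N) → TangentSpace I x) (A : ι → N → V →L[ℝ] V) : List ι → (N → V) → N → V
  | [], u => u
  | a :: v, u => Dw e A v (nab I e A a u)

variable (I) in
/-- the rough Laplacian `∑ D_a D_a` -/
def L0 (e : ι → (x : N) → TangentSpace I x) (A : ι → N → V →L[ℝ] V) (u : N → V) : N → V :=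
  fun x => ∑ a, nab I e A a (nab I e A a u) x

/-- the connection on homomorphisms -/
def hom (A : ι → N → V →L[ℝ] V) (B : ι → N → W →L[ℝ] W) :
    ι → N → (V →L[ℝ] W) →L[ℝ] V →L[ℝ] W := fun a x =>
  ContinuousLinearMap.compL ℝ V W W (B a x) - (ContinuousLinearMap.compL ℝ V V W).flip (A a x)

theorem hom_apply (A : ι → N → V →L[ℝ] V) (B : ι → N → W →L[ℝ] W) (a : ι) (x : N)
    (T : V →L[ℝ] W) : hom A B a x T = B a x ∘L T - T ∘L A a x := rfl

variable {e : ι → (x : N) → TangentSpace I x} {A : ι → N → V →L[ℝ] V} {B : ι → N → W →L[ℝ] W}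
  {u w : N → V}

theorem sm_hom (hA : ∀ a, Sm I (A a)) (hB : ∀ a, Sm I (B a)) (a : ι) : Sm I (hom A B a) :=
  fun x => (Wz78.SA.clm _ (hB a x)).sub (Wz78.SA.clm _ (hA a x))

theorem sm_nab (he : SmV I e) (hA : ∀ a, Sm I (A a)) (hu : Sm I u) (a : ι) :
    Sm I (nab I e A a u) := fun x => (Sob92.dv_smoothAt (he a x) (hu x)).add ((hA a x).clm_apply (hu x))

theorem sm_Dw (he : SmV I e) (hA : ∀ a, Sm I (A a)) :
    ∀ (v : List ι) {u : N → V}, Sm I u → Sm I (Dw I e A v u)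
  | [], _, hu => hu
  | a :: v, _, hu => sm_Dw he hA v (sm_nab he hA hu a)

theorem sm_L0 (he : SmV I e) (hA : ∀ a, Sm I (A a)) (hu : Sm I u) : Sm I (L0 I e A u) :=
  fun x => SA.sum _ fun a _ => sm_nab he hA (sm_nab he hA hu a) a x

theorem Dw_add (he : SmV I e) (hA : ∀ a, Sm I (A a)) : ∀ (v : List ι) {u w : N → V}, Sm I u →
    Sm I w → Dw I e A v (fun x => u x + w x) = fun x => Dw I e A v u x + Dw I e A v w x
  | [], _, _, _, _ => rfl
  | a :: v, u, w, hu, hw => by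
    rw [Dw, show nab I e A a (fun x => u x + w x) = fun x => nab I e A a u x + nab I e A a w x from
      funext fun x => Wz78.nab_add a (hu x) (hw x)]
    exact Dw_add he hA v (sm_nab he hA hu a) (sm_nab he hA hw a)

theorem Dw_concat (v : List ι) (a : ι) (u : N → V) :
    Dw I e A (v ++ [a]) u = nab I e A a (Dw I e A v u) := by
  induction v generalizing u with
  | nil => rfl
  | cons b v ih => exact ih _

theorem nab_hom {T : N → V →L[ℝ] W} (a : ι) {x : N} (hT : SA I T x) (hu : SA I u x) :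
    nab I e B a (fun y => T y (u y)) x =
      nab I e (hom A B) a T x (u x) + T x (nab I e A a u x) := by
  simp only [nab, Sob92.dv_app hT.md hu.md, map_add, _root_.add_apply, _root_.sub_apply, hom_apply,
    ContinuousLinearMap.comp_apply]
  abel

theorem dv_cst (v : (x : N) → TangentSpace I x) (c : V) (x : N) : dv I v (fun _ => c) x = 0 := by
  unfold dv; rw [mfderiv_const]; rfl

theorem nab_const0 (a : ι) : nab I e A a (fun _ => (0 : V)) = fun _ => 0 :=
  funext fun x => by simp [nab, dv_cst]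

theorem Dw_zero (v : List ι) : Dw I e A v (fun _ => (0 : V)) = fun _ => 0 := by
  induction v with
  | nil => rfl
  | cons a v ih => rw [Dw, nab_const0, ih]

end one

variable {α : Type} {X : α → Type} [∀ n, TopologicalSpace (X n)] [∀ n, ChartedSpace HM (X n)]
  [∀ n, IsManifold I ∞ (X n)]

variable (I ι X) in
/-- a family of manifolds with frames and jet sizes -/
structure Ctx extends Jt (Σ n, X n) where
  e : ∀ n, ι → (x : X n) → TangentSpace I x
  sm : ∀ n, SmV I (e n)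

variable {V W U : α → Type} [∀ n, NormedAddCommGroup (V n)] [∀ n, NormedSpace ℝ (V n)]
  [∀ n, NormedAddCommGroup (W n)] [∀ n, NormedSpace ℝ (W n)]
  [∀ n, NormedAddCommGroup (U n)] [∀ n, NormedSpace ℝ (U n)]

/-- the weight class: `σ k` = (level, weight) of the derivatives of order `k` -/
structure Wt (C : Ctx I ι X) (A : ∀ n, ι → X n → V n →L[ℝ] V n) (σ : ℕ → ℕ × ℕ)
    (f : ∀ n, X n → V n) : Prop where
  sA : ∀ n a, Sm I (A n a)
  sm : ∀ n, Sm I (f n)
  bd : ∀ v : List ι, B0 C.toJt (σ v.length) fun q => ‖Dw I (C.e q.1) (A q.1) v (f q.1) q.2‖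

/-- the trivial connection -/
abbrev tv (X : α → Type) (ι : Type) (V : α → Type) [∀ n, NormedAddCommGroup (V n)]
    [∀ n, NormedSpace ℝ (V n)] : ∀ n, ι → X n → V n →L[ℝ] V n := fun _ _ _ => 0

/-- `σ ⊗ σ' ≤ τ` -/
def Cn (σ σ' τ : ℕ → ℕ × ℕ) : Prop := ∀ i j, σ i + σ' j ≤ τ (i + j)

namespace Wt
variable {C C' : Ctx I ι X} {A : ∀ n, ι → X n → V n →L[ℝ] V n} {B : ∀ n, ι → X n → W n →L[ℝ] W n}
  {σ σ' τ : ℕ → ℕ × ℕ} {f g : ∀ n, X n → V n}

theorem mono (h : Wt C A σ f) (hs : ∀ k, σ k ≤ τ k) : Wt C A τ f :=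
  ⟨h.sA, h.sm, fun v => (h.bd v).mono (hs _)⟩

theorem congr (h : Wt C A σ f) (e : ∀ n x, g n x = f n x) : Wt C A σ g := by
  rwa [show g = f from funext fun n => funext (e n)]

theorem up (h : Wt C A σ f) (he : C'.e = C.e) (hF : C'.F ≤ C.F)
    (hJ : ∀ r q μ, C.J r q μ ≤ C'.J r q μ) : Wt C' A σ f :=
  ⟨h.sA, h.sm, fun v => by rw [he]; exact (h.bd v).up hF hJ⟩

theorem D (h : Wt C A σ f) (a : ι) :
    Wt C A (fun k => σ (k + 1)) fun n => nab I (C.e n) (A n) a (f n) :=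
  ⟨h.sA, fun n => sm_nab (C.sm n) (h.sA n) (h.sm n) a, fun v => h.bd (a :: v)⟩

theorem Dw (v : List ι) : ∀ {σ : ℕ → ℕ × ℕ} {f : ∀ n, X n → V n}, Wt C A σ f →
    Wt C A (fun k => σ (k + v.length)) fun n => Dw I (C.e n) (A n) v (f n) := by
  induction v with
  | nil => exact fun h => h
  | cons a v ih => exact fun h => ih (h.D a)

theorem of_D (sA : ∀ n a, Sm I (A n a)) (sm : ∀ n, Sm I (f n))
    (h0 : B0 C.toJt (σ 0) fun q => ‖f q.1 q.2‖)
    (h : ∀ a, Wt C A (fun k => σ (k + 1)) fun n => nab I (C.e n) (A n) a (f n)) : Wt C A σ f :=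
  ⟨sA, sm, fun v => match v with
    | [] => h0
    | a :: v => (h a).bd v⟩

theorem add (h : Wt C A σ f) (h' : Wt C A σ g) : Wt C A σ fun n x => f n x + g n x :=
  ⟨h.sA, fun n => (h.sm n).add (h'.sm n), fun v => (h.bd v).add (h'.bd v) fun q => by
    rw [Dw_add (C.sm _) (h.sA _) v (h.sm _) (h'.sm _)]; exact norm_add_le _ _⟩

theorem zero (sA : ∀ n a, Sm I (A n a)) : Wt C A σ fun _ _ => 0 :=
  ⟨sA, fun _ => contMDiff_const, fun v => B0.bdd (C := 0) (.of_forall fun q => by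
    rw [Dw_zero]; simp)⟩

theorem fsum {κ : Type*} (sA : ∀ n a, Sm I (A n a)) (s : Finset κ) {w : κ → ∀ n, X n → V n}
    (h : ∀ i ∈ s, Wt C A σ (w i)) : Wt C A σ fun n x => ∑ i ∈ s, w i n x := by
  classical
  induction s using Finset.induction_on with
  | empty => simpa using zero sA
  | insert a s ha ih =>
    simp only [Finset.sum_insert ha]
    exact (h a (by simp)).add (ih fun i hi => h i (by simp [hi]))

theorem sum {κ : Type*} [Fintype κ] (sA : ∀ n a, Sm I (A n a)) {w : κ → ∀ n, X n → V n}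
    (h : ∀ i, Wt C A σ (w i)) : Wt C A σ fun n x => ∑ i, w i n x := fsum sA _ fun i _ => h i

theorem app_bd (sB : ∀ n a, Sm I (B n a)) (v : List ι) :
    ∀ {σ σ' τ : ℕ → ℕ × ℕ} {T : ∀ n, X n → V n →L[ℝ] W n} {f : ∀ n, X n → V n},
      Wt C (fun n => hom (A n) (B n)) σ T → Wt C A σ' f → Cn σ σ' τ → B0 C.toJt (τ v.length)
        fun q => ‖Cmp73.Dw I (C.e q.1) (B q.1) v (fun x => T q.1 x (f q.1 x)) q.2‖ := by
  induction v with
  | nil =>
    exact fun hT hf hc => (hT.bd []).mul (hf.bd []) (hc 0 0) (fun _ => norm_nonneg _)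
      fun q => ContinuousLinearMap.le_opNorm _ _
  | cons a v ih =>
    intro σ σ' τ T f hT hf hc
    refine (ih (τ := fun k => τ (k + 1)) (hT.D a) hf fun i j => ?_).add
      (ih (τ := fun k => τ (k + 1)) hT (hf.D a) fun i j => hc i (j + 1)) fun q => ?_
    · simpa only [Nat.add_right_comm i 1 j] using hc (i + 1) j
    · rw [Cmp73.Dw, show nab I (C.e q.1) (B q.1) a (fun x => T q.1 x (f q.1 x)) = _ from
        funext fun x => nab_hom (A := A q.1) a (hT.sm q.1 x) (hf.sm q.1 x), Dw_add (C.sm _) (sB _) v (((hT.D a).sm _).clm_apply (hf.sm _))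
          ((hT.sm _).clm_apply ((hf.D a).sm _))]
      exact norm_add_le _ _

/-- the product rule -/
theorem app {T : ∀ n, X n → V n →L[ℝ] W n} (sB : ∀ n a, Sm I (B n a))
    (hT : Wt C (fun n => hom (A n) (B n)) σ T) (hf : Wt C A σ' f) (hc : Cn σ σ' τ) :
    Wt C B τ fun n x => T n x (f n x) :=
  ⟨sB, fun n => (hT.sm n).clm_apply (hf.sm n), fun v => app_bd sB v hT hf hc⟩

/-- bounded parallel sections -/
theorem par (sA : ∀ n a, Sm I (A n a)) (sm : ∀ n, Sm I (f n)) {K : ℝ}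
    (h0 : ∀ᶠ q in C.F, ‖f q.1 q.2‖ ≤ K) (h : ∀ n a x, nab I (C.e n) (A n) a (f n) x = 0) :
    Wt C A σ f := of_D sA sm (B0.bdd h0) fun a => (zero sA).congr fun n x => h n a x

theorem cn_zero (σ : ℕ → ℕ × ℕ) (hσ : Monotone σ) : Cn 0 σ σ := fun i j => by
  simpa using hσ (Nat.le_add_left j i)

/-- applying a bounded parallel family of maps -/
theorem map {T : ∀ n, X n → V n →L[ℝ] W n} (sB : ∀ n a, Sm I (B n a)) (sT : ∀ n, Sm I (T n))
    {K : ℝ} (h0 : ∀ n x, ‖T n x‖ ≤ K)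
    (h : ∀ n a x, dv I (C.e n a) (T n) x + (B n a x ∘L T n x - T n x ∘L A n a x) = 0)
    (hf : Wt C A σ f) : Wt C B σ fun n x => T n x (f n x) := by
  refine ⟨sB, fun n => (sT n).clm_apply (hf.sm n), fun v => ?_⟩
  have key : ∀ (v : List ι) (n : α) (u : X n → V n), Sm I u →
      Cmp73.Dw I (C.e n) (B n) v (fun x => T n x (u x)) =
        fun x => T n x (Cmp73.Dw I (C.e n) (A n) v u x) := by
    intro v n
    induction v with
    | nil => exact fun _ _ => rfl
    | cons a v ih =>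
      intro u hu
      have : nab I (C.e n) (B n) a (fun x => T n x (u x)) =
          fun x => T n x (nab I (C.e n) (A n) a u x) := funext fun x => by
        rw [nab_hom (A := A n) a (sT n x) (hu x),
          show nab I (C.e n) (hom (A n) (B n)) a (T n) x = 0 from h n a x]
        simp
      rw [Cmp73.Dw, this]
      exact ih _ (sm_nab (C.sm n) (hf.sA n) hu a)
  refine (B0.bdd (s := 0) (g := fun _ => K) (C := K) (by simp)).mul (hf.bd v) (by simp)
    (fun _ => norm_nonneg _) fun q => ?_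
  rw [key v _ _ (hf.sm _)]
  exact (T q.1 q.2).le_of_opNorm_le (h0 _ _) _

theorem const_smul (c : ℝ) (hf : Wt C A σ f) : Wt C A σ fun n x => c • f n x :=
  map (T := fun n _ => c • ContinuousLinearMap.id ℝ (V n)) hf.sA (fun _ => contMDiff_const)
    (K := ‖c‖) (fun n _ => ContinuousLinearMap.opNorm_le_bound _ (norm_nonneg _) fun v => by
      simp [norm_smul])
    (fun n a x => by ext v; simp [dv_cst]) hf

theorem neg (hf : Wt C A σ f) : Wt C A σ fun n x => -f n x :=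
  (hf.const_smul (-1)).congr fun _ _ => by simp

theorem sub (h : Wt C A σ f) (h' : Wt C A σ g) : Wt C A σ fun n x => f n x - g n x :=
  (h.add h'.neg).congr fun _ _ => sub_eq_add_neg _ _

theorem smul {φ : ∀ n, X n → ℝ} (hφ : Wt C (tv X ι fun _ => ℝ) σ φ) (hf : Wt C A σ' f)
    (hc : Cn σ σ' τ) : Wt C A τ fun n x => φ n x • f n x :=
  app hf.sA (map (T := fun n _ => ContinuousLinearMap.lsmul ℝ ℝ (E := V n))
    (fun n => sm_hom (hf.sA n) (hf.sA n)) (fun _ => contMDiff_const) (K := 1)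
    (fun _ _ => ContinuousLinearMap.opNorm_lsmul_le)
    (fun n a x => by ext v; simp [dv_cst, hom_apply]) hφ) hf hc

/-- bounded parallel bilinear maps -/
theorem bil {D : ∀ n, ι → X n → U n →L[ℝ] U n} {β : ∀ n, V n →L[ℝ] W n →L[ℝ] U n}
    {w : ∀ n, X n → W n} (sD : ∀ n a, Sm I (D n a)) {K : ℝ} (h0 : ∀ n, ‖β n‖ ≤ K)
    (h : ∀ n a x s t, D n a x (β n s t) = β n (A n a x s) t + β n s (B n a x t))
    (hf : Wt C A σ f) (hw : Wt C B σ' w) (hc : Cn σ σ' τ) :
    Wt C D τ fun n x => β n (f n x) (w n x) :=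
  app sD (map (T := fun n _ => β n) (fun n => sm_hom (hw.sA n) (sD n)) (fun _ => contMDiff_const)
    (fun n _ => h0 n) (fun n a x => by ext s t; simp [dv_cst, hom_apply, h]) hf) hw hc

end Wt

end Crest.Agent.X212.Cmp73
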