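import Crest.Agent.X212.Cmp73.Up
import Crest.Agent.X212.Cnt93.Main
import Crest.Agent.X212.An.Syn

/-!
# X212 / COMP (helper73), part 27: the endomorphisms of the terms of a cut converge
-/

set_option autoImplicit false
set_option linter.unusedSectionVars false
open Set Filter Topology Function MeasureTheory
open scoped ContDiff Manifold InnerProductSpace NNReal ENNReal

noncomputable section
namespace Crest.Agent.X212.Cmp73

open An Eqv71 Shi84 Abel74 Mp86 Wz78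
open Cnt93 (XiR)

variable {E : Type} [NormedAddCommGroup E] [NormedSpace ℝ E] [FiniteDimensional ℝ E]
  [MeasurableSpace E] [BorelSpace E]
  {HM : Type} [TopologicalSpace HM] {I : ModelWithCorners ℝ E HM} [I.Boundaryless]
  {E' : Type} [NormedAddCommGroup E'] [NormedSpace ℝ E'] [FiniteDimensional ℝ E']
  [MeasurableSpace E'] [BorelSpace E']
  {H' : Type} [TopologicalSpace H'] {I' : ModelWithCorners ℝ E' H'} [I'.Boundaryless]
  {ι lam : Type} [Fintype ι] [Fintype lam] {r : ℕ} {K : ℝ≥0}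

section one
variable {M : Type} [TopologicalSpace M] [ChartedSpace HM M] [IsManifold I ∞ M] [MeasurableSpace M]
  [T2Space M] [BorelSpace M] [SecondCountableTopology M]
  {M' : Type} [TopologicalSpace M'] [ChartedSpace H' M'] [IsManifold I' ∞ M'] [MeasurableSpace M']
  [T2Space M'] [BorelSpace M'] [SecondCountableTopology M']

def XiZ (μ : Measure M) (O : Set M) : Xi M lam r → Prop
  | .qj d _ _ _ _ => CoZ μ O d
  | _ => True

def XiB (c : Cfg M ι lam r) (F : Fr I M ι) (K : ℝ≥0) (w : M → ℝ) : Xi M lam r → Prop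
  | .aw ξ => SdB c F K w ξ.s
  | _ => True

/-- sizes of the curvature seed -/
def XiS (F : Fr I M ι) (N : ℕ) : Xi M lam r → Prop
  | .aw ξ => SdSz F N ξ.s
  | _ => True

/-- values -/
def vX (c : Cfg M ι lam r) (F : Fr I M ι) (K : ℝ≥0) (w : M → ℝ) :
    Xi M lam r → (M → En (Fin c.m.N)) → Prop
  | .one, Ξ => Ξ = c.m.p
  | .aw ξ, Ξ => ∃ a, vA c F K w ξ a ∧ Ξ = fun x => opL (a x)
  | .qj d s u v l, Ξ => ∃ a, vQ c F d s u v l a ∧ Ξ = fun x => opL (a x)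

theorem xiZ_in {μ : Measure M} {O Ω : Set M} (h : Ω ⊆ O) {ξ : Xi M lam r} (k : XiIn I Ω ξ) :
    XiZ μ O ξ := by
  cases ξ
  exacts [trivial, trivial, tmZ_in (n := 0) h (T := .anti _ _ _) ⟨k.1, k.2.1, k.2.2.1⟩]

theorem xiZ_null {μ : Measure M} {O : Set M} (h : μ Oᶜ = 0) (ξ : Xi M lam r) : XiZ μ O ξ := by
  cases ξ with
  | qj d s u => exact tmZ_null (n := 0) h (.anti d s u)
  | _ => trivial

theorem xiB_le {c : Cfg M ι lam r} {B : Base M ι lam} {G : Geo I M ι lam} {W : M → M → ℝ} {S σ : ℝ}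
    {N : ℕ} (H : Lh c B G) (hW : Wts G.F S W) (hσ0 : 0 ≤ σ)
    (hi : ∀ x, Integrable (fun y => (W x y * ‖c.m.Fg G.F c.W y‖) ^ 2) G.F.μ)
    (hσ : ∀ x, ∫ y, (W x y * ‖c.m.Fg G.F c.W y‖) ^ 2 ∂G.F.μ ≤ σ ^ 2) {ξ : Xi M lam r}
    (ho : ξ.OK G.F) (hs : XiS G.F N ξ) (x₀ : M) : XiB c G.F (kS S N σ) (W x₀) ξ := by
  cases ξ with
  | aw ξ => exact sdB_le H hW hσ0 hi hσ ho.1 hs x₀
  | _ => trivial

theorem pb_xi {B : Base M ι lam} {G : Geo I M ι lam} {B' : Base M' ι lam} {G' : Geo I' M' ι lam}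
    {O' : Set M'} {φ : M → M'} {ψ : M' → M} {U : M → ι → ι → ℝ} {v : M → CL (Eu lam) (Eu lam)}
    {c : Cfg M ι lam r} {y : Cfg M' ι lam r} {u : M → CL c.m.V y.m.V} {w : M' → ℝ}
    (k : PB B G B' G' O' φ ψ U v c y u) (H : Lh y B' G') {ξ : Xi M lam r} {ξ' : Xi M' lam r}
    (R : XiR univ φ v ξ ξ') (ok : ξ'.OK G'.F) (z : XiZ G'.F.μ O' ξ') (b : XiB y G'.F K w ξ') :
    vX c G.F K (w ∘ φ) ξ fun x => trn (u x) ∘L y.xi G'.F ξ' (φ x) ∘L u x := by
  have e : ∀ (a : M' → y.m.A) x, trn (u x) ∘L opL (a (φ x)) ∘L u x = opL (pA φ u a x) := fun a x => by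
    rw [opL_cj, trn_trn]
  cases R with
  | one => exact funext fun x => (k.lm.me x trivial).uu
  | aw h => exact ⟨_, (k.aw h ok.1 (H.aw ok b)).2, funext (e _)⟩
  | qj hd hs h1 h2 hl =>
    obtain ⟨s, t, k1, k2, k3⟩ := H.vq ok.1 ok.2.1 ok.2.2.1 ok.2.2.2.1 ok.2.2.2.2
    exact ⟨_, ⟨_, _, k.vj hd ok.1 z hs h1 ok.2.2.1 k1, (k.sw h2 ok.2.2.2.1 k2).2,
      k.q s t ▸ (k.la hl (fun z => pg_mem z _) k3).2⟩, funext (e _)⟩

end one

variable {E₀ : Type} [NormedAddCommGroup E₀] [NormedSpace ℝ E₀] [FiniteDimensional ℝ E₀]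
  [MeasurableSpace E₀] [BorelSpace E₀]
  {H₀ : Type} [TopologicalSpace H₀] {I₀ : ModelWithCorners ℝ E₀ H₀} [I₀.Boundaryless]
  {M : Type} [TopologicalSpace M] [ChartedSpace H₀ M] [IsManifold I₀ ∞ M] [MeasurableSpace M]
  [T2Space M] [BorelSpace M] [SecondCountableTopology M] {α : Type}
  {X : α → Type} [∀ n, TopologicalSpace (X n)] [∀ n, ChartedSpace HM (X n)]
  [∀ n, IsManifold I ∞ (X n)] [∀ n, MeasurableSpace (X n)] [∀ n, T2Space (X n)]
  [∀ n, BorelSpace (X n)] [∀ n, SecondCountableTopology (X n)]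
  {Z : α → Type} [∀ n, TopologicalSpace (Z n)] [∀ n, ChartedSpace H' (Z n)]
  [∀ n, IsManifold I' ∞ (Z n)] [∀ n, MeasurableSpace (Z n)] [∀ n, T2Space (Z n)]
  [∀ n, BorelSpace (Z n)] [∀ n, SecondCountableTopology (Z n)] {g : Gs I I₀ M ι lam X}

namespace Gs
variable {c : ∀ n, Cfg (X n) ι lam r}

variable (g c) in
/-- convergent syntax -/
inductive cX : (∀ n, Xi (X n) lam r) → Xi M lam r → Prop
  | one : cX (fun _ => .one) .one
  | aw {ξ ξ'} : g.cA c ξ (fun _ => ξ') → cX (fun n => .aw (ξ n)) (.aw ξ')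
  | qj {d d' s s' u u' v v' l l'} : g.cC c d (fun _ => d') → g.FC c s s' → g.cS c u (fun _ => u') →
      g.cS c v (fun _ => v') → FL (g.cLa c) l (fun _ => l') →
      cX (fun n => .qj (d n) (s n) (u n) (v n) (l n)) (.qj d' s' u' v' l')

theorem Bk.xi (k : g.Bk c) {w : ∀ n, X n → ℝ} (hw : g.WR w) {ξ ξ'} (h : g.cX c ξ ξ')
    {Ξ : ∀ n, X n → En (Fin (c n).m.N)} (hv : ∀ n, vX (c n) (g.G n).F K (w n) (ξ n) (Ξ n))
    {b : Cfg M ι lam r} {u : ∀ n, M → CL (c n).m.V b.m.V} (l : g.LB c b u) {x : M} (hx : x ∉ g.S c) :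
    Tendsto (fun n => u n x ∘L Ξ n (g.ψ n x) ∘L trn (u n x)) g.l
      (𝓝 (b.xi g.G₀.F ξ' x * b.m.p x)) := by
  have nr : ∀ᶠ n in (g.l : Filter α), ME (c n).m (g.ψ n x) b.m x (fun b a => g.B₀.P b a x) (g.B₀.l x)
      (u n x) := (l.lim.nr k.ok k.adm hx).curry.mono fun _ h => h.self_of_nhds.me
  have e : ∀ {a : ∀ n, X n → (c n).m.A} {a'}, g.QA c a a' → Tendsto (fun n => u n x ∘L
      opL (a n (g.ψ n x)) ∘L trn (u n x)) g.l (𝓝 (opL (a' b x) * b.m.p x)) := fun q =>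
    (((opL.continuous.tendsto _).comp ((q.lim b u l).cv.pt x hx)).mul_const _).congr'
      (nr.mono fun n e => by
        have := congrArg trn (e.pu (k.adm n).ok)
        rw [trn_comp, trn_of_sym (l.lim.adm.ok.psym x)] at this
        rw [comp_apply, opL_cj, ContinuousLinearMap.mul_def, ContinuousLinearMap.comp_assoc,
          ContinuousLinearMap.comp_assoc, this])
  cases h with
  | one =>
    obtain rfl : Ξ = _ := funext hv
    exact tendsto_const_nhds.congr' (nr.mono fun n e => (one_mul (b.m.p x)).trans (e.uu'.symm.trans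
      (congrArg (· ∘L trn (u n x)) (e.up (k.adm n).ok).symm)))
  | aw h =>
    choose a h1 h2 using hv
    obtain rfl : Ξ = _ := funext h2
    have := e (k.qa hw h h1)
    exact this
  | qj hd hs hu hv' hl =>
    choose a h1 h2 using hv
    obtain rfl : Ξ = _ := funext h2
    have := e (k.qq hd hs hu hv' hl h1)
    exact this

end Gs

/-- **XI** -/
theorem Up.OK.xi {h : Up I' Z g r} (k : h.OK) {w : ∀ n, Z n → ℝ} (hw : g.WR fun n => w n ∘ h.φ n)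
    {ξ : ∀ n, Xi (X n) lam r} {ξ₁ : ∀ n, Xi (Z n) lam r} {ξ'} (c : g.cX h.x ξ ξ')
    (R : ∀ n, XiR univ (h.φ n) (h.v n) (ξ n) (ξ₁ n)) (ok : ∀ n, (ξ₁ n).OK (h.G n).F)
    (z : ∀ n, XiZ (h.G n).F.μ (h.O n) (ξ₁ n)) (bd : ∀ n, XiB (h.y n) (h.G n).F K (w n) (ξ₁ n))
    {b : Cfg M ι lam r} {u : ∀ n, M → CL (h.x n).m.V b.m.V} (l : g.LB h.x b u) {x : M}
    (hx : x ∉ g.S h.x) :
    Tendsto (fun n => u n x ∘L (trn (h.u n (g.ψ n x)) ∘L
      (h.y n).xi (h.G n).F (ξ₁ n) (h.φ n (g.ψ n x)) ∘L h.u n (g.ψ n x)) ∘L trn (u n x)) g.l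
      (𝓝 (b.xi g.G₀.F ξ' x * b.m.p x)) :=
  k.bk.xi hw c (fun n => pb_xi (k.pb n) (k.lh n) (R n) (ok n) (z n) (bd n)) l hx

end Crest.Agent.X212.Cmp73
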